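import Vale.Agent.CK.Ode

/-!
Consequences of the Bellman inequality `bellman_S` for unbalanced functions.

With `m = avg F`, `gap(r) = Hn(r) - h(r) + ln 2 - h(m)` satisfies the linear differential inequality
`r gap' ≤ (2 + κ) gap + m² ((5/4) A_f - κ / 2)`, which is integrated along the noise flow.
-/

open Real Set

namespace Vale.Agent.CK

open Vale.Agent.P322

variable {n : ℕ}

/-- `gap(r) = Hn(r) - h(r) + ln 2 - h(m)`. -/
noncomputable def gapF (F : Cube n → ℝ) (r : ℝ) : ℝ := Hn F r - ent r + (log 2 - ent (avg F))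

lemma A_le_of_le {a s : ℝ} (ha : 0 < a) (has : a ≤ s) (hs : s < 1) : A a ≤ A s := by
  have h1 := A_div_mono ha has hs
  have h0 : 0 < s := lt_of_lt_of_le ha has
  rw [div_le_div_iff₀ ha h0] at h1
  have h2 := A_pos ha (lt_of_le_of_lt has hs)
  have h3 : A a * a ≤ A s * a := by nlinarith
  exact le_of_mul_le_mul_right h3 ha

/-- The derivative of `r w(r)` in the form `(r w)' r = (2 + κ) r w`. -/
lemma deriv_mul_A {r : ℝ} (h0 : 0 < r) (h1 : r < 1) :
    HasDerivAt (fun z => z * A z) (A r * (2 + kap r)) r := by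
  have hr : |r| < 1 := abs_lt_one_of h0.le h1
  have h := (hasDerivAt_id' r).mul (hasDerivAt_A hr)
  have hk := kap_mul_A h0.le h1
  have e : 1 * A r + r * (1 / (1 - r ^ 2)) = A r * (2 + kap r) := by
    have : A r * (2 + kap r) = 2 * A r + kap r * A r := by ring
    rw [this, hk]
    have hs := one_sub_sq_pos hr
    field_simp
    ring
  rw [e] at h
  exact h

section flow

variable {F : Cube n → ℝ}

lemma hasDerivAt_gapF (hF : ∀ x, F x = 1 ∨ F x = -1) {x₀ x₁ : Cube n}
    (h₀ : F x₀ = 1) (h₁ : F x₁ = -1) {r : ℝ} (h0 : 0 < r) (h1 : r < 1) :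
    HasDerivAt (gapF F) (-(Dir (noise F r) / 4) / r + A r) r := by
  have hr : |r| < 1 := abs_lt_one_of h0.le h1
  have h := (hasDerivAt_Hn' hF h₀ h₁ h0 h1).sub (hasDerivAt_ent hr)
  have h2 := h.add_const (log 2 - ent (avg F))
  have e : -(Dir (noise F r) / 4) / r - -A r = -(Dir (noise F r) / 4) / r + A r := by ring
  rw [e] at h2
  exact h2

lemma abs_avg_lt_of {x₀ x₁ : Cube n} (hF : ∀ x, F x = 1 ∨ F x = -1)
    (h₀ : F x₀ = 1) (h₁ : F x₁ = -1) : |avg F| < 1 := by
  have h : ∀ y, |noise F 0 y| < 1 := fun y => abs_noise_lt hF h₀ h₁ (by norm_num) y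
  have h2 := abs_avg_lt h
  rwa [avg_noise] at h2

/-- The linear differential inequality. -/
lemma gap_ineq (hF : ∀ x, F x = 1 ∨ F x = -1) {x₀ x₁ : Cube n}
    (h₀ : F x₀ = 1) (h₁ : F x₁ = -1) {r : ℝ} (h0 : 0 < r) (h1 : r < 1) :
    -(Dir (noise F r) / 4) + r * A r ≤
      (2 + kap r) * gapF F r + avg F ^ 2 * (5 / 4 * Af r - kap r / 2) := by
  have hr : |r| < 1 := abs_lt_one_of h0.le h1
  have hw : ∀ y, |noise F r y| < 1 := fun y => abs_noise_lt hF h₀ h₁ hr y
  have hB := bellman_S n (noise F r) hw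
  rw [avg_noise] at hB
  have hm := abs_avg_lt_of hF h₀ h₁
  have hT := Tm_pos hm
  have hx : 0 < avg (fun y => ent (noise F r y)) := avg_pos fun y => ent_pos (hw y)
  have hP := PP_tangent h0.le h1 hT hx
  have hid := psi_identity hr
  have hup := ent_upper hm.le
  have hA0 := Af_nonneg h0.le h1
  have hk0 := kap_nonneg h0.le h1
  have hAf : Af r = Yf r + kap r * ent r := rfl
  have hHn : Hn F r = avg (fun y => ent (noise F r y)) := rfl
  unfold gapF
  rw [hHn]
  set x := avg (fun y => ent (noise F r y)) with hxdef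
  set m := avg F with hmdef
  have hT2 : (1 - Tm m) ≤ 5 / 4 * m ^ 2 := by
    unfold Tm
    nlinarith [sq_nonneg (m ^ 2)]
  have h3 : 0 ≤ Af r * (5 / 4 * m ^ 2 - (1 - Tm m)) := mul_nonneg hA0 (by linarith)
  have h4 : 0 ≤ kap r * (log 2 - ent m - m ^ 2 / 2) := mul_nonneg hk0 (by linarith)
  nlinarith

/-- The quotient `G = gap / (r w)`. -/
noncomputable def gq (F : Cube n → ℝ) (r : ℝ) : ℝ := gapF F r / (r * A r)

lemma hasDerivAt_gq (hF : ∀ x, F x = 1 ∨ F x = -1) {x₀ x₁ : Cube n}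
    (h₀ : F x₀ = 1) (h₁ : F x₁ = -1) {r : ℝ} (h0 : 0 < r) (h1 : r < 1) :
    HasDerivAt (gq F) ((-(Dir (noise F r) / 4) + r * A r - (2 + kap r) * gapF F r) / (r ^ 2 * A r)) r := by
  have hA := A_pos h0 h1
  have hne : r * A r ≠ 0 := (mul_pos h0 hA).ne'
  have h := (hasDerivAt_gapF hF h₀ h₁ h0 h1).div (deriv_mul_A h0 h1) hne
  have e : (-(Dir (noise F r) / 4) / r + A r) * (r * A r) - gapF F r * (A r * (2 + kap r)) =
      A r * (-(Dir (noise F r) / 4) + r * A r - (2 + kap r) * gapF F r) := by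
    field_simp
  have e2 : ((-(Dir (noise F r) / 4) / r + A r) * (r * A r) - gapF F r * (A r * (2 + kap r))) /
      (r * A r) ^ 2 =
      (-(Dir (noise F r) / 4) + r * A r - (2 + kap r) * gapF F r) / (r ^ 2 * A r) := by
    rw [e]
    field_simp
  rw [e2] at h
  exact h

/-- The bound on the derivative of `G`. -/
lemma gq_deriv_le (hF : ∀ x, F x = 1 ∨ F x = -1) {x₀ x₁ : Cube n}
    (h₀ : F x₀ = 1) (h₁ : F x₁ = -1) {r : ℝ} (h0 : 0 < r) (h1 : r < 1) :
    (-(Dir (noise F r) / 4) + r * A r - (2 + kap r) * gapF F r) / (r ^ 2 * A r) ≤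
      - (avg F ^ 2 * ((kap r / 2 - 5 / 4 * Af r) / (r ^ 2 * A r))) := by
  have hA := A_pos h0 h1
  have hd : 0 < r ^ 2 * A r := by positivity
  have h := gap_ineq hF h₀ h₁ h0 h1
  have e : - (avg F ^ 2 * ((kap r / 2 - 5 / 4 * Af r) / (r ^ 2 * A r))) =
      (avg F ^ 2 * (5 / 4 * Af r - kap r / 2)) / (r ^ 2 * A r) := by
    field_simp
    ring
  rw [e]
  apply div_le_div_of_nonneg_right _ hd.le
  linarith

lemma continuousOn_gapF {a b : ℝ} : ContinuousOn (gapF F) (Icc a b) := by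
  have h : Continuous (gapF F) :=
    ((continuous_Hn F).sub continuous_ent).add continuous_const
  exact h.continuousOn

lemma continuousAt_A {r : ℝ} (h : |r| < 1) : ContinuousAt A r := (hasDerivAt_A h).continuousAt

lemma continuousOn_gq (hF : ∀ x, F x = 1 ∨ F x = -1) {x₀ x₁ : Cube n}
    (h₀ : F x₀ = 1) (h₁ : F x₁ = -1) {a b : ℝ} (ha : 0 < a) (hb : b < 1) :
    ContinuousOn (gq F) (Icc a b) := fun r hr =>
  (hasDerivAt_gq hF h₀ h₁ (lt_of_lt_of_le ha hr.1) (lt_of_le_of_lt hr.2 hb)).continuousAt.continuousWithinAt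

/-- One cell of the chain. -/
lemma gq_cell (hF : ∀ x, F x = 1 ∨ F x = -1) {x₀ x₁ : Cube n}
    (h₀ : F x₀ = 1) (h₁ : F x₁ = -1) {a b l : ℝ} (ha : 0 < a) (hab : a ≤ b) (hb : b < 1)
    (hl : ∀ s ∈ Ioo a b, l ≤ (kap s / 2 - 5 / 4 * Af s) / (s ^ 2 * A s)) :
    gq F b + avg F ^ 2 * l * (b - a) ≤ gq F a := by
  have hanti : AntitoneOn (fun z => gq F z + avg F ^ 2 * l * z) (Icc a b) := by
    apply anti_of_deriv (f' := fun z =>
      (-(Dir (noise F z) / 4) + z * A z - (2 + kap z) * gapF F z) / (z ^ 2 * A z) + avg F ^ 2 * l)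
    · apply ContinuousOn.add (continuousOn_gq hF h₀ h₁ ha hb)
      exact (continuous_const.mul continuous_id).continuousOn
    · intro z hz
      have hz0 := lt_trans ha hz.1
      have hz1 := lt_trans hz.2 hb
      have h1 := hasDerivAt_gq hF h₀ h₁ hz0 hz1
      have h2 := ((hasDerivAt_id' z).const_mul (avg F ^ 2 * l))
      rw [mul_one] at h2
      exact h1.add h2
    · intro z hz
      have hz0 := lt_trans ha hz.1
      have hz1 := lt_trans hz.2 hb
      have h3 := gq_deriv_le hF h₀ h₁ hz0 hz1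
      have h4 := hl z hz
      have h5 : avg F ^ 2 * l ≤ avg F ^ 2 * ((kap z / 2 - 5 / 4 * Af z) / (z ^ 2 * A z)) :=
        mul_le_mul_of_nonneg_left h4 (sq_nonneg _)
      linarith
  have h := hanti (left_mem_Icc.mpr hab) (right_mem_Icc.mpr hab) hab
  simp only at h
  nlinarith

/-- The explicit lower bound on a cell in terms of values at the ends. -/
lemma cell_bound {a b kL aH dL dH : ℝ} (ha : 0 < a) (hb : b < 1)
    (hkL : kL ≤ kap a) (haH : Af b ≤ aH) (hdL : dL ≤ a ^ 2 * A a) (hdH : b ^ 2 * A b ≤ dH)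
    (hkL0 : 0 ≤ kL) (hdL0 : 0 < dL) :
    ∀ s ∈ Ioo a b, kL / (2 * dH) - 5 / 4 * aH / dL ≤ (kap s / 2 - 5 / 4 * Af s) / (s ^ 2 * A s) := by
  intro s hs
  have hs0 := lt_trans ha hs.1
  have hs1 := lt_trans hs.2 hb
  have hA := A_pos hs0 hs1
  have hmA : A a ≤ A s := A_le_of_le ha hs.1.le hs1
  have hmA2 : A s ≤ A b := A_le_of_le hs0 hs.2.le hb
  have hd : 0 < s ^ 2 * A s := by positivity
  have h1 : dL ≤ s ^ 2 * A s := by
    have h3 : a ^ 2 ≤ s ^ 2 := by nlinarith [hs.1]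
    have h4 := A_pos ha (lt_trans hs.1 hs1)
    nlinarith
  have h2 : s ^ 2 * A s ≤ dH := by
    have h3 : s ^ 2 ≤ b ^ 2 := by nlinarith [hs.2]
    have h4 := A_pos hs0 hs1
    have h0b : 0 < b := lt_trans hs0 hs.2
    have h5 := A_pos h0b hb
    nlinarith
  have hk : kL ≤ kap s := le_trans hkL (kap_mono ha.le hs.1.le hs1)
  have hAf : Af s ≤ aH := le_trans (Af_mono hs0.le hs.2.le hb) haH
  have hAf0 := Af_nonneg hs0.le hs1
  have e : (kap s / 2 - 5 / 4 * Af s) / (s ^ 2 * A s) =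
      kap s / (2 * (s ^ 2 * A s)) - 5 / 4 * Af s / (s ^ 2 * A s) := by
    field_simp
  rw [e]
  have h5 : kL / (2 * dH) ≤ kap s / (2 * (s ^ 2 * A s)) := by
    apply div_le_div₀ (le_trans hkL0 hk) hk (by positivity)
    linarith
  have h6 : 5 / 4 * Af s / (s ^ 2 * A s) ≤ 5 / 4 * aH / dL := by
    apply div_le_div₀ (by linarith [le_trans hAf0 hAf]) (by linarith) hdL0 h1
  linarith

/-- The tail of the chain: a supersolution near `r = 1`. -/
lemma gq_tail (hF : ∀ x, F x = 1 ∨ F x = -1) {x₀ x₁ : Cube n}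
    (h₀ : F x₀ = 1) (h₁ : F x₁ = -1) {s₁ θ C : ℝ} (hs0 : 0 < s₁) (hs1 : s₁ < 1) (hθ : θ < 1 / 2)
    (hm : avg F ≠ 0) (hC0 : 0 ≤ C)
    (hC : ∀ r, s₁ ≤ r → r < 1 → 2 * θ + 5 / 4 * Af r - (1 / 2 - θ) * kap r ≤ C * (r ^ 2 * A r)) :
    avg F ^ 2 * (θ / (s₁ * A s₁) - C * (1 - s₁)) ≤ gq F s₁ := by
  have hμ : 0 < avg F ^ 2 := by positivity
  set μ := avg F ^ 2 with hμdef
  -- a point close to `1`
  have hcont : Continuous (gapF F) := ((continuous_Hn F).sub continuous_ent).add continuous_const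
  have hg1 : gapF F 1 = log 2 - ent (avg F) := by
    unfold gapF
    rw [Hn_one hF, ent_one]
    ring
  have hup := ent_upper (abs_avg_lt_of hF h₀ h₁).le
  have hgt : μ * θ < gapF F 1 := by
    rw [hg1]
    have : μ * θ < μ * (1 / 2) := mul_lt_mul_of_pos_left hθ hμ
    linarith
  obtain ⟨δ, hδ, hball⟩ := Metric.continuous_iff.mp hcont 1 (gapF F 1 - μ * θ) (by linarith)
  set q := max s₁ (1 - δ / 2) with hq
  have hq1 : q < 1 := max_lt hs1 (by linarith)
  have hsq : s₁ ≤ q := le_max_left _ _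
  have hq0 : 0 < q := lt_of_lt_of_le hs0 hsq
  have hqd : dist q 1 < δ := by
    rw [Real.dist_eq, abs_sub_comm, abs_of_pos (by linarith)]
    have : 1 - δ / 2 ≤ q := le_max_right _ _
    linarith
  have hgq : μ * θ < gapF F q := by
    have h := hball q hqd
    rw [Real.dist_eq] at h
    have h2 := (abs_lt.mp h).1
    linarith
  -- the supersolution
  let H : ℝ → ℝ := fun z => gq F z - μ * (θ / (z * A z) - C * (1 - z))
  have hd : ∀ z, 0 < z → z < 1 → HasDerivAt H
      ((-(Dir (noise F z) / 4) + z * A z - (2 + kap z) * gapF F z) / (z ^ 2 * A z) -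
        μ * (-(θ * (A z * (2 + kap z))) / (z * A z) ^ 2 + C)) z := by
    intro z hz0 hz1
    have hAz := A_pos hz0 hz1
    have hne : z * A z ≠ 0 := (mul_pos hz0 hAz).ne'
    have h1 := hasDerivAt_gq hF h₀ h₁ hz0 hz1
    have h2 : HasDerivAt (fun y => θ / (y * A y)) (-(θ * (A z * (2 + kap z))) / (z * A z) ^ 2) z := by
      have h3 := (hasDerivAt_const z θ).div (deriv_mul_A hz0 hz1) hne
      have e : (0 * (z * A z) - θ * (A z * (2 + kap z))) / (z * A z) ^ 2 =
          -(θ * (A z * (2 + kap z))) / (z * A z) ^ 2 := by ring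
      rw [e] at h3
      exact h3
    have h4 : HasDerivAt (fun y => C * (1 - y)) (-C) z := by
      have := ((hasDerivAt_id' z).const_sub 1).const_mul C
      have e : C * (-1 : ℝ) = -C := by ring
      rw [e] at this
      exact this
    have h5 := h1.sub ((h2.sub h4).const_mul μ)
    have e : -(θ * (A z * (2 + kap z))) / (z * A z) ^ 2 - -C =
        -(θ * (A z * (2 + kap z))) / (z * A z) ^ 2 + C := by ring
    rw [e] at h5
    exact h5
  have hanti : AntitoneOn H (Icc s₁ q) := by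
    apply anti_of_deriv (f' := fun z =>
      (-(Dir (noise F z) / 4) + z * A z - (2 + kap z) * gapF F z) / (z ^ 2 * A z) -
        μ * (-(θ * (A z * (2 + kap z))) / (z * A z) ^ 2 + C))
    · intro z hz
      exact (hd z (lt_of_lt_of_le hs0 hz.1) (lt_of_le_of_lt hz.2 hq1)).continuousAt.continuousWithinAt
    · intro z hz
      exact hd z (lt_trans hs0 hz.1) (lt_trans hz.2 hq1)
    · intro z hz
      have hz0 := lt_trans hs0 hz.1
      have hz1 := lt_trans hz.2 hq1
      have hAz := A_pos hz0 hz1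
      have hD : 0 < z ^ 2 * A z := by positivity
      have h1 := gq_deriv_le hF h₀ h₁ hz0 hz1
      have h2 := hC z hz.1.le hz1
      have e1 : -(θ * (A z * (2 + kap z))) / (z * A z) ^ 2 = -(θ * (2 + kap z)) / (z ^ 2 * A z) := by
        field_simp
      rw [e1]
      have h3 : (2 * θ + 5 / 4 * Af z - (1 / 2 - θ) * kap z) / (z ^ 2 * A z) ≤ C := by
        rw [div_le_iff₀ hD]
        exact h2
      have e2 : - (μ * ((kap z / 2 - 5 / 4 * Af z) / (z ^ 2 * A z))) -
          μ * (-(θ * (2 + kap z)) / (z ^ 2 * A z) + C) =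
          μ * ((2 * θ + 5 / 4 * Af z - (1 / 2 - θ) * kap z) / (z ^ 2 * A z) - C) := by
        field_simp
        ring
      have h4 : μ * ((2 * θ + 5 / 4 * Af z - (1 / 2 - θ) * kap z) / (z ^ 2 * A z) - C) ≤ 0 :=
        mul_nonpos_of_nonneg_of_nonpos hμ.le (by linarith)
      linarith
  have h := hanti (left_mem_Icc.mpr hsq) (right_mem_Icc.mpr hsq) hsq
  have hHq : 0 ≤ H q := by
    simp only [H]
    have hAq := A_pos hq0 hq1
    have hD : 0 < q * A q := by positivity
    have e : gq F q - μ * (θ / (q * A q) - C * (1 - q)) =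
        (gapF F q - μ * θ) / (q * A q) + μ * (C * (1 - q)) := by
      unfold gq
      field_simp
      ring
    rw [e]
    have h1 : 0 ≤ (gapF F q - μ * θ) / (q * A q) := div_nonneg (by linarith) hD.le
    have h2 : 0 ≤ μ * (C * (1 - q)) := mul_nonneg hμ.le (mul_nonneg hC0 (by linarith))
    linarith
  have h3 : 0 ≤ H s₁ := le_trans hHq h
  simp only [H] at h3
  linarith

end flow

end Vale.Agent.CK
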