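import Mathlib

/-!
Verified rational enclosures of logarithms at rational points, evaluated by the kernel.
-/

open Real Finset

namespace Vale.Agent.CK

/-- Horner evaluation of `∑_{i<N} x^i/(i+1) + x^N acc`. -/
def hornerQ : ℕ → ℚ → ℚ → ℚ
  | 0, _, acc => acc
  | n + 1, x, acc => hornerQ n x (1 / ((n : ℚ) + 1) + x * acc)

lemma hornerQ_cast (N : ℕ) (x acc : ℚ) :
    ((hornerQ N x acc : ℚ) : ℝ) =
      ∑ i ∈ range N, (x : ℝ) ^ i / ((i : ℝ) + 1) + (x : ℝ) ^ N * (acc : ℝ) := by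
  induction N generalizing acc with
  | zero => simp [hornerQ]
  | succ n ih =>
    rw [hornerQ, ih, sum_range_succ]
    push_cast
    ring

/-- Rounding down to the grid `2^(-48)`. -/
def rdD (q : ℚ) : ℚ := ((⌊q * 281474976710656⌋ : ℤ) : ℚ) / 281474976710656

/-- Rounding up to the grid `2^(-48)`. -/
def rdU (q : ℚ) : ℚ := ((⌈q * 281474976710656⌉ : ℤ) : ℚ) / 281474976710656

lemma rdD_le (q : ℚ) : rdD q ≤ q := by
  unfold rdD
  rw [div_le_iff₀ (by norm_num)]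
  exact Int.floor_le _

lemma le_rdU (q : ℚ) : q ≤ rdU q := by
  unfold rdU
  rw [le_div_iff₀ (by norm_num)]
  exact Int.le_ceil _

/-- The number of series terms. -/
def nT : ℕ := 32

/-- Lower bound for `log (1 - x)`, for `0 ≤ x < 1`. -/
def log1mLo (x : ℚ) : ℚ := rdD (-(x * hornerQ nT x 0) - x ^ (nT + 1) / (1 - x))

/-- Upper bound for `log (1 - x)`, for `0 ≤ x < 1`. -/
def log1mHi (x : ℚ) : ℚ := rdU (-(x * hornerQ nT x 0) + x ^ (nT + 1) / (1 - x))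

lemma log1m_bounds {x : ℚ} (h0 : 0 ≤ x) (h1 : x < 1) :
    ((log1mLo x : ℚ) : ℝ) ≤ log (1 - (x : ℝ)) ∧ log (1 - (x : ℝ)) ≤ ((log1mHi x : ℚ) : ℝ) := by
  have hx0 : (0 : ℝ) ≤ x := by exact_mod_cast h0
  have hx1 : (x : ℝ) < 1 := by exact_mod_cast h1
  have habs : |(x : ℝ)| < 1 := by rw [abs_of_nonneg hx0]; exact hx1
  have h := Real.abs_log_sub_add_sum_range_le habs nT
  rw [abs_of_nonneg hx0] at h
  have hs : ∑ i ∈ range nT, (x : ℝ) ^ (i + 1) / ((i : ℝ) + 1) = (x : ℝ) * ((hornerQ nT x 0 : ℚ) : ℝ) := by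
    rw [hornerQ_cast]
    simp only [Rat.cast_zero, mul_zero, add_zero]
    rw [mul_sum]
    apply sum_congr rfl
    intro i _
    rw [pow_succ]
    ring
  rw [hs] at h
  have h2 := abs_le.mp h
  have hlo : ((log1mLo x : ℚ) : ℝ) ≤ -((x : ℝ) * ((hornerQ nT x 0 : ℚ) : ℝ)) - (x : ℝ) ^ (nT + 1) / (1 - (x : ℝ)) := by
    have := rdD_le (-(x * hornerQ nT x 0) - x ^ (nT + 1) / (1 - x))
    have h3 : ((log1mLo x : ℚ) : ℝ) ≤ ((-(x * hornerQ nT x 0) - x ^ (nT + 1) / (1 - x) : ℚ) : ℝ) := by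
      exact_mod_cast this
    push_cast at h3
    exact h3
  have hhi : -((x : ℝ) * ((hornerQ nT x 0 : ℚ) : ℝ)) + (x : ℝ) ^ (nT + 1) / (1 - (x : ℝ)) ≤ ((log1mHi x : ℚ) : ℝ) := by
    have := le_rdU (-(x * hornerQ nT x 0) + x ^ (nT + 1) / (1 - x))
    have h3 : ((-(x * hornerQ nT x 0) + x ^ (nT + 1) / (1 - x) : ℚ) : ℝ) ≤ ((log1mHi x : ℚ) : ℝ) := by
      exact_mod_cast this
    push_cast at h3
    exact h3
  constructor <;> linarith [h2.1, h2.2]

/-- Lower bound for `log 2`. -/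
def ln2Lo : ℚ := -log1mHi (1 / 2)

/-- Upper bound for `log 2`. -/
def ln2Hi : ℚ := -log1mLo (1 / 2)

lemma ln2_bounds : ((ln2Lo : ℚ) : ℝ) ≤ log 2 ∧ log 2 ≤ ((ln2Hi : ℚ) : ℝ) := by
  have h := log1m_bounds (x := 1 / 2) (by norm_num) (by norm_num)
  have e : (1 - (((1 / 2 : ℚ)) : ℝ)) = 2⁻¹ := by norm_num
  rw [e, Real.log_inv] at h
  unfold ln2Lo ln2Hi
  push_cast
  constructor <;> linarith [h.1, h.2]

/-- Normalizing exponent: `2^e y` lies in `[1/2, 1)` when `0 < y < 1`. -/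
def expoQ : ℕ → ℚ → ℕ
  | 0, _ => 0
  | f + 1, y => if 1 / 2 ≤ y then 0 else expoQ f (2 * y) + 1

/-- Lower bound for `log y`. -/
def logLo (y : ℚ) : ℚ :=
  let e := expoQ 12 y
  log1mLo (1 - 2 ^ e * y) - (e : ℚ) * ln2Hi

/-- Upper bound for `log y`. -/
def logHi (y : ℚ) : ℚ :=
  let e := expoQ 12 y
  log1mHi (1 - 2 ^ e * y) - (e : ℚ) * ln2Lo

/-- The side condition of `logLo`, `logHi`. -/
def logOK (y : ℚ) : Bool :=
  decide (0 < y) && decide (2 ^ (expoQ 12 y) * y ≤ 1)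

lemma log_bounds {y : ℚ} (h : logOK y = true) :
    ((logLo y : ℚ) : ℝ) ≤ log (y : ℝ) ∧ log (y : ℝ) ≤ ((logHi y : ℚ) : ℝ) := by
  unfold logOK at h
  simp only [Bool.and_eq_true, decide_eq_true_eq] at h
  obtain ⟨hy0, hy1⟩ := h
  set e := expoQ 12 y with he
  have hp : (0 : ℚ) < 2 ^ e * y := by positivity
  have hb := log1m_bounds (x := 1 - 2 ^ e * y) (by linarith) (by linarith)
  have hy : (0 : ℝ) < y := by exact_mod_cast hy0
  have e1 : (1 - ((1 - 2 ^ e * y : ℚ) : ℝ)) = 2 ^ e * (y : ℝ) := by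
    push_cast
    ring
  rw [e1, Real.log_mul (by positivity) hy.ne', Real.log_pow] at hb
  have hl := ln2_bounds
  have he0 : (0 : ℝ) ≤ (e : ℝ) := Nat.cast_nonneg e
  have h1 := mul_le_mul_of_nonneg_left hl.1 he0
  have h2 := mul_le_mul_of_nonneg_left hl.2 he0
  unfold logLo logHi
  simp only [← he]
  push_cast
  constructor <;> linarith [hb.1, hb.2]

end Vale.Agent.CK
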