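import Vale.Agent.CK.AllF
import Vale.Agent.CK.LogQ

/-!
The numerical chain which integrates the linear differential inequality on `[3/10, 97/100]`.
-/

open Real Set

namespace Vale.Agent.CK

open Vale.Agent.P322

/-- The Courtade-Kumar bound on the range `r₁ ≤ r < 1`, for functions taking both values. -/
def UpperRange (r₁ : ℝ) : Prop := ∀ (n : ℕ) (F : Cube n → ℝ), (∀ x, F x = 1 ∨ F x = -1) →
  (∃ x₀, F x₀ = 1) → (∃ x₁, F x₁ = -1) → ∀ r, r₁ ≤ r → r < 1 → ent (avg F) - Hn F r ≤ log 2 - ent r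

/-- Lower bound for `log (1 + s)`. -/
def lpLo (s : ℚ) : ℚ := ln2Lo + logLo ((1 + s) / 2)
/-- Upper bound for `log (1 + s)`. -/
def lpHi (s : ℚ) : ℚ := ln2Hi + logHi ((1 + s) / 2)
/-- Lower bound for `log (1 - s)`. -/
def lmLo (s : ℚ) : ℚ := logLo (1 - s)
/-- Upper bound for `log (1 - s)`. -/
def lmHi (s : ℚ) : ℚ := logHi (1 - s)
/-- Lower bound for `A s`. -/
def ALo (s : ℚ) : ℚ := (lpLo s - lmHi s) / 2
/-- Upper bound for `A s`. -/
def AHi (s : ℚ) : ℚ := (lpHi s - lmLo s) / 2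
/-- Lower bound for `κ s`. -/
def kapLo (s : ℚ) : ℚ := s / ((1 - s ^ 2) * AHi s) - 1
/-- Upper bound for `κ s`. -/
def kapHi (s : ℚ) : ℚ := s / ((1 - s ^ 2) * ALo s) - 1
/-- Upper bound for `h s`. -/
def entHi (s : ℚ) : ℚ := ln2Hi - s * ALo s - (lpLo s + lmLo s) / 2
/-- Upper bound for `Y s`. -/
def YHi (s : ℚ) : ℚ := -(s * ALo s) - (lpLo s + lmLo s)
/-- Upper bound for `A_f s`. -/
def AfHi (s : ℚ) : ℚ := YHi s + kapHi s * entHi s

/-- Side conditions at a knot. -/
def knotOK (s : ℚ) : Bool :=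
  decide (0 < s) && decide (s < 1) && logOK ((1 + s) / 2) && logOK (1 - s) && decide (0 < ALo s)

section knot

variable {s : ℚ}

lemma knot_pos (h : knotOK s = true) : (0 : ℝ) < s := by
  unfold knotOK at h
  simp only [Bool.and_eq_true, decide_eq_true_eq] at h
  exact_mod_cast h.1.1.1.1

lemma knot_lt (h : knotOK s = true) : (s : ℝ) < 1 := by
  unfold knotOK at h
  simp only [Bool.and_eq_true, decide_eq_true_eq] at h
  exact_mod_cast h.1.1.1.2

lemma knot_lp (h : knotOK s = true) :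
    ((lpLo s : ℚ) : ℝ) ≤ log (1 + s) ∧ log (1 + s) ≤ ((lpHi s : ℚ) : ℝ) := by
  have h0 := knot_pos h
  unfold knotOK at h
  simp only [Bool.and_eq_true, decide_eq_true_eq] at h
  have h1 := log_bounds h.1.1.2
  have e : log (1 + (s : ℝ)) = log 2 + log (((1 + s) / 2 : ℚ) : ℝ) := by
    rw [← Real.log_mul (by norm_num) (by push_cast; positivity)]
    push_cast
    congr 1
    ring
  have hl := ln2_bounds
  rw [e]
  unfold lpLo lpHi
  push_cast at h1 ⊢
  constructor <;> linarith [h1.1, h1.2, hl.1, hl.2]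

lemma knot_lm (h : knotOK s = true) :
    ((lmLo s : ℚ) : ℝ) ≤ log (1 - s) ∧ log (1 - s) ≤ ((lmHi s : ℚ) : ℝ) := by
  unfold knotOK at h
  simp only [Bool.and_eq_true, decide_eq_true_eq] at h
  have h1 := log_bounds h.1.2
  unfold lmLo lmHi
  push_cast at h1
  exact h1

lemma knot_A (h : knotOK s = true) :
    ((ALo s : ℚ) : ℝ) ≤ A s ∧ A s ≤ ((AHi s : ℚ) : ℝ) := by
  have h1 := knot_lp h
  have h2 := knot_lm h
  unfold A ALo AHi
  push_cast
  constructor <;> linarith [h1.1, h1.2, h2.1, h2.2]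

lemma knot_ALo_pos (h : knotOK s = true) : (0 : ℝ) < ((ALo s : ℚ) : ℝ) := by
  unfold knotOK at h
  simp only [Bool.and_eq_true, decide_eq_true_eq] at h
  exact_mod_cast h.2

lemma knot_one_sub (h : knotOK s = true) : (0 : ℝ) < 1 - (s : ℝ) ^ 2 :=
  one_sub_sq_pos (abs_lt_one_of (knot_pos h).le (knot_lt h))

lemma knot_kapLo (h : knotOK s = true) : ((kapLo s : ℚ) : ℝ) ≤ kap s := by
  have h0 := knot_pos h
  have h1 := knot_A h
  have h2 := knot_ALo_pos h
  have h3 := knot_one_sub h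
  rw [kap_of_pos h0]
  unfold kapLo
  push_cast
  have hA : 0 < A (s : ℝ) := lt_of_lt_of_le h2 h1.1
  have h4 : (s : ℝ) / ((1 - (s : ℝ) ^ 2) * ((AHi s : ℚ) : ℝ)) ≤ (s : ℝ) / ((1 - (s : ℝ) ^ 2) * A s) := by
    apply div_le_div_of_nonneg_left h0.le (by positivity)
    exact mul_le_mul_of_nonneg_left h1.2 h3.le
  linarith

lemma knot_kapHi (h : knotOK s = true) : kap s ≤ ((kapHi s : ℚ) : ℝ) := by
  have h0 := knot_pos h
  have h1 := knot_A h
  have h2 := knot_ALo_pos h
  have h3 := knot_one_sub h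
  rw [kap_of_pos h0]
  unfold kapHi
  push_cast
  have h4 : (s : ℝ) / ((1 - (s : ℝ) ^ 2) * A s) ≤ (s : ℝ) / ((1 - (s : ℝ) ^ 2) * ((ALo s : ℚ) : ℝ)) := by
    apply div_le_div_of_nonneg_left h0.le (by positivity)
    exact mul_le_mul_of_nonneg_left h1.1 h3.le
  linarith

lemma log_one_sub_sq {x : ℝ} (hx : |x| < 1) : log (1 - x ^ 2) = log (1 + x) + log (1 - x) := by
  have h := abs_lt.mp hx
  rw [← Real.log_mul (by linarith) (by linarith)]
  congr 1
  ring

lemma knot_AfHi (h : knotOK s = true) : Af s ≤ ((AfHi s : ℚ) : ℝ) := by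
  have h0 := knot_pos h
  have h1 := knot_lt h
  have hr := abs_lt_one_of h0.le h1
  have hA := knot_A h
  have hp := knot_lp h
  have hm := knot_lm h
  have hk := knot_kapHi h
  have hk0 := kap_nonneg h0.le h1
  have he0 := ent_nonneg' h0.le h1.le
  have he : ent s ≤ ((entHi s : ℚ) : ℝ) := by
    rw [ent_formula hr, log_one_sub_sq hr]
    have hl := ln2_bounds
    have h2 : ((s : ℝ)) * ((ALo s : ℚ) : ℝ) ≤ s * A s := mul_le_mul_of_nonneg_left hA.1 h0.le
    unfold entHi
    push_cast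
    linarith [hp.1, hm.1, hl.2]
  have hY : Yf s ≤ ((YHi s : ℚ) : ℝ) := by
    unfold Yf
    rw [log_one_sub_sq hr]
    have h2 : ((s : ℝ)) * ((ALo s : ℚ) : ℝ) ≤ s * A s := mul_le_mul_of_nonneg_left hA.1 h0.le
    unfold YHi
    push_cast
    linarith [hp.1, hm.1]
  have hmul : kap s * ent s ≤ ((kapHi s : ℚ) : ℝ) * ((entHi s : ℚ) : ℝ) :=
    mul_le_mul hk he he0 (le_trans hk0 hk)
  have e : Af s = Yf s + kap s * ent s := rfl
  rw [e]
  unfold AfHi
  push_cast
  linarith

end knot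

/-- The slope of the chain on a cell. -/
def ellQ (a b : ℚ) : ℚ := kapLo a / (2 * (b ^ 2 * AHi b)) - 5 / 4 * AfHi b / (a ^ 2 * ALo a)

/-- The check of the chain: knots in decreasing order, current knot, current value. -/
def chainOK : List ℚ → ℚ → ℚ → Bool
  | [], _, _ => true
  | a :: l, b, V =>
    knotOK a && decide (a ≤ b) && decide (0 ≤ kapLo a) &&
      decide (0 ≤ rdD (V + ellQ a b * (b - a))) && chainOK l a (rdD (V + ellQ a b * (b - a)))

/-- The last knot. -/
def botOf : List ℚ → ℚ → ℚ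
  | [], b => b
  | a :: l, _ => botOf l a

section chain

variable {n : ℕ} {F : Cube n → ℝ}

theorem chain_sound (hF : ∀ x, F x = 1 ∨ F x = -1) {x₀ x₁ : Cube n}
    (h₀ : F x₀ = 1) (h₁ : F x₁ = -1) (L : List ℚ) :
    ∀ (b V : ℚ), knotOK b = true → chainOK L b V = true → 0 ≤ V →
      avg F ^ 2 * (V : ℝ) ≤ gq F b →
      ∀ r : ℝ, ((botOf L b : ℚ) : ℝ) ≤ r → r ≤ (b : ℝ) → 0 ≤ gq F r := by
  induction L with
  | nil =>
    intro b V _ _ hV hb r hr1 hr2
    have hr : r = (b : ℝ) := le_antisymm hr2 hr1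
    rw [hr]
    have : 0 ≤ avg F ^ 2 * (V : ℝ) := mul_nonneg (sq_nonneg _) (by exact_mod_cast hV)
    linarith
  | cons a l ih =>
    intro b V hkb hc hV hb r hr1 hr2
    unfold chainOK at hc
    simp only [Bool.and_eq_true, decide_eq_true_eq] at hc
    obtain ⟨⟨⟨⟨hka, hab⟩, hkL0⟩, hV'⟩, hrec⟩ := hc
    have ha0 := knot_pos hka
    have hb1 := knot_lt hkb
    have hb0 := knot_pos hkb
    have haA := knot_A hka
    have hbA := knot_A hkb
    have habR : (a : ℝ) ≤ b := by exact_mod_cast hab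
    have hcell : ∀ s ∈ Ioo (a : ℝ) b, ((ellQ a b : ℚ) : ℝ) ≤ (kap s / 2 - 5 / 4 * Af s) / (s ^ 2 * A s) := by
      have hcb := cell_bound (a := a) (b := b) (kL := (kapLo a : ℚ)) (aH := (AfHi b : ℚ))
        (dL := ((a : ℝ) ^ 2 * ((ALo a : ℚ) : ℝ))) (dH := ((b : ℝ) ^ 2 * ((AHi b : ℚ) : ℝ)))
        ha0 hb1 (knot_kapLo hka) (knot_AfHi hkb)
        (mul_le_mul_of_nonneg_left haA.1 (sq_nonneg _))
        (mul_le_mul_of_nonneg_left hbA.2 (sq_nonneg _))
        (by exact_mod_cast hkL0)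
        (mul_pos (by positivity) (knot_ALo_pos hka))
      intro s hs
      have h := hcb s hs
      unfold ellQ
      push_cast
      exact h
    set ℓ : ℝ := ((ellQ a b : ℚ) : ℝ) with hℓ
    set V' : ℚ := rdD (V + ellQ a b * (b - a)) with hV'def
    have hV'le : (V' : ℝ) ≤ (V : ℝ) + ℓ * ((b : ℝ) - a) := by
      have h := rdD_le (V + ellQ a b * (b - a))
      have h2 : (V' : ℝ) ≤ ((V + ellQ a b * (b - a) : ℚ) : ℝ) := by exact_mod_cast h
      push_cast at h2
      exact h2
    have hV'0 : (0 : ℝ) ≤ (V' : ℝ) := by exact_mod_cast hV'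
    have hμ : 0 ≤ avg F ^ 2 := sq_nonneg _
    have hV0 : (0 : ℝ) ≤ (V : ℝ) := by exact_mod_cast hV
    rcases le_total (a : ℝ) r with har | hra
    · -- inside the cell
      have hr0 : 0 < r := lt_of_lt_of_le ha0 har
      have h2 := gq_cell hF h₀ h₁ (a := r) (b := b) (l := ℓ) hr0 hr2 hb1 (fun s hs =>
        hcell s ⟨lt_of_le_of_lt har hs.1, hs.2⟩)
      rcases le_total 0 ℓ with hl | hl
      · have h3 : 0 ≤ avg F ^ 2 * ℓ * ((b : ℝ) - r) :=
          mul_nonneg (mul_nonneg hμ hl) (by linarith)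
        have h4 : 0 ≤ avg F ^ 2 * (V : ℝ) := mul_nonneg hμ hV0
        linarith
      · have h3 : ℓ * ((b : ℝ) - a) ≤ ℓ * ((b : ℝ) - r) :=
          mul_le_mul_of_nonpos_left (by linarith) hl
        have h4 : avg F ^ 2 * (V' : ℝ) ≤ avg F ^ 2 * ((V : ℝ) + ℓ * ((b : ℝ) - r)) :=
          mul_le_mul_of_nonneg_left (by linarith) hμ
        have h5 : 0 ≤ avg F ^ 2 * (V' : ℝ) := mul_nonneg hμ hV'0
        nlinarith
    · -- below the cell
      have h2 := gq_cell hF h₀ h₁ (a := a) (b := b) (l := ℓ) ha0 habR hb1 hcell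
      have h4 : avg F ^ 2 * (V' : ℝ) ≤ avg F ^ 2 * ((V : ℝ) + ℓ * ((b : ℝ) - a)) :=
        mul_le_mul_of_nonneg_left hV'le hμ
      have h5 : avg F ^ 2 * (V' : ℝ) ≤ gq F a := by nlinarith
      have hbot : botOf (a :: l) b = botOf l a := rfl
      rw [hbot] at hr1
      exact ih a V' hka hrec hV' h5 r hr1 hra

end chain

/-- The knots of the chain. -/
def knotsN : List ℕ := [9687, 9673, 9659, 9645, 9630, 9615, 9599, 9583, 9567, 9550, 9533, 9516, 9498, 9480, 9461, 9442, 9423, 9403, 9383, 9363, 9342, 9321, 9300, 9278, 9256, 9234, 9211, 9188, 9165, 9142, 9118, 9094, 9070, 9045, 9020, 8995, 8970, 8944, 8918, 8892, 8866, 8839, 8812, 8785, 8758, 8731, 8703, 8675, 8647, 8619, 8591, 8562, 8533, 8504, 8475, 8446, 8417, 8387, 8357, 8327, 8297, 8267, 8237, 8207, 8177, 8146, 8115, 8084, 8053, 8022, 7991, 7960, 7929, 7898, 7867, 7836, 7805, 7774, 7743, 7712, 7680, 7648, 7616, 7584, 7552, 7520, 7488, 7456, 7424, 7392, 7360, 7328, 7296, 7264, 7232, 7200, 7168, 7136,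 7104, 7072, 7040, 7008, 6976, 6944, 6912, 6881, 6850, 6819, 6788, 6757, 6726, 6695, 6664, 6633, 6602, 6571, 6540, 6509, 6478, 6447, 6416, 6385, 6354, 6323, 6293, 6263, 6233, 6203, 6173, 6143, 6113, 6083, 6053, 6023, 5993, 5963, 5934, 5905, 5876, 5847, 5818, 5789, 5760, 5731, 5702, 5673, 5644, 5615, 5587, 5559, 5531, 5503, 5475, 5447, 5419, 5391, 5363, 5335, 5308, 5281, 5254, 5227, 5200, 5173, 5146, 5119, 5092, 5065, 5039, 5013, 4987, 4961, 4935, 4909, 4883, 4857, 4831, 4806, 4781, 4756, 4731, 4706, 4681, 4656, 4631, 4606, 4582, 4558, 4534, 4510, 4486, 4462, 4438, 4414, 4390, 4366, 4343, 4320, 4297, 4274, 4251, 4228, 4205, 4182, 4159, 4137, 4115, 4093, 4071, 4049, 4027, 4005, 3983, 3961, 3939, 3918, 3897, 3876, 3855, 3834, 3813, 3792, 3771, 3750, 3730, 3710, 3690, 3670, 3650, 3630, 3610, 3590, 3570, 3550, 3531, 3512, 3493, 3474, 3455, 3436, 3417, 3398, 3379, 3360, 3341, 3323, 3305, 3287, 3269, 3251, 3233, 3215, 3197, 3179, 3161, 3144, 3127, 3110, 3093,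 3076, 3059, 3042, 3025, 3008, 3000]

/-- The knots of the chain, as rational numbers. -/
def knotsQ : List ℚ := knotsN.map (fun k => (k : ℚ) / 10000)

/-- The start of the chain. -/
def V0 : ℚ := 499 / 1000 / (97 / 100 * AHi (97 / 100)) - 7 / 5 * (1 - 97 / 100)

set_option maxRecDepth 100000 in
theorem chain_check : chainOK knotsQ (97 / 100) V0 = true := by
  decide +kernel

theorem knot_top : knotOK (97 / 100) = true := by
  decide +kernel

theorem bot_eq : botOf knotsQ (97 / 100) = 3 / 10 := by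
  decide +kernel

theorem V0_pos : 0 ≤ V0 := by
  decide +kernel

theorem num_facts : 678 / 1000 ≤ lpLo (97 / 100) ∧ 209 / 100 ≤ ALo (97 / 100) ∧ ln2Hi ≤ 7 / 10 := by
  decide +kernel

/-- The hypothesis of the tail lemma on `[97/100, 1)`. -/
lemma tail_hyp {r : ℝ} (h0 : 97 / 100 ≤ r) (h1 : r < 1) :
    2 * (499 / 1000) + 5 / 4 * Af r - (1 / 2 - 499 / 1000) * kap r ≤ 7 / 5 * (r ^ 2 * A r) := by
  have hr0 : 0 < r := by linarith
  have hr := abs_lt_one_of hr0.le h1
  have hF8 := F8 hr0.le h1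
  have hk0 := kap_nonneg hr0.le h1
  have hnum := num_facts
  have hlow : (678 / 1000 : ℝ) ≤ log (1 + r) := by
    have h2 := knot_lp knot_top
    have h3 : (678 / 1000 : ℝ) ≤ ((lpLo (97 / 100) : ℚ) : ℝ) := by
      have h := (Rat.cast_le (K := ℝ)).mpr hnum.1
      push_cast at h
      exact h
    have h4 : log (1 + (((97 / 100 : ℚ)) : ℝ)) ≤ log (1 + r) := by
      apply Real.log_le_log
      · push_cast
        norm_num
      · push_cast
        linarith
    linarith [h2.1]
  have hA0 : (209 / 100 : ℝ) ≤ A r := by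
    have h2 := knot_A knot_top
    have h3 : (209 / 100 : ℝ) ≤ ((ALo (97 / 100) : ℚ) : ℝ) := by
      have h := (Rat.cast_le (K := ℝ)).mpr hnum.2.1
      push_cast at h
      exact h
    have h4 : A (((97 / 100 : ℚ)) : ℝ) ≤ A r := by
      apply A_le_of_le
      · push_cast
        norm_num
      · push_cast
        linarith
      · exact h1
    linarith [h2.1]
  have hY : Yf r = (2 - r) * A r - 2 * log (1 + r) := by
    unfold Yf
    rw [log_one_sub_sq hr]
    unfold A
    ring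
  have hAf : Af r = Yf r + kap r * ent r := rfl
  rw [hAf, hY]
  have hq : 0 ≤ 7 / 5 * r ^ 2 - 5 / 4 * (2 - r) - 2976 / 100000 := by nlinarith
  have hq2 : 0 ≤ (7 / 5 * r ^ 2 - 5 / 4 * (2 - r) - 2976 / 100000) * (A r) :=
    mul_nonneg hq (by linarith)
  nlinarith

/-- The value of the tail function is nonnegative. -/
lemma tail_nonneg {r : ℝ} (h0 : 97 / 100 ≤ r) (h1 : r < 1) :
    0 ≤ 499 / 1000 / (r * A r) - 7 / 5 * (1 - r) := by
  have hr0 : 0 < r := by linarith
  have hA := A_pos hr0 h1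
  have hy : 0 < 1 - r := by linarith
  have hl := ln2_bounds
  have hnum := num_facts.2.2
  have hl2 : log 2 ≤ 7 / 10 := by
    have h := (Rat.cast_le (K := ℝ)).mpr hnum
    push_cast at h
    linarith [hl.2]
  have h2 : log (1 + r) ≤ log 2 := Real.log_le_log (by linarith) (by linarith)
  have h3 : log ((1 / (4 * (1 - r)))) ≤ 1 / (4 * (1 - r)) - 1 :=
    Real.log_le_sub_one_of_pos (by positivity)
  have h4 : log ((1 / (4 * (1 - r)))) = - log (1 - r) - 2 * log 2 := by
    rw [one_div, Real.log_inv, Real.log_mul (by norm_num) hy.ne']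
    have : log 4 = 2 * log 2 := by
      rw [show (4 : ℝ) = 2 ^ 2 by norm_num, Real.log_pow]
      norm_num
    rw [this]
    ring
  have h5 : 2 * A r ≤ 1 / (4 * (1 - r)) + 11 / 10 := by
    unfold A
    linarith
  have h6 : (1 - r) * (2 * A r) ≤ (1 - r) * (1 / (4 * (1 - r)) + 11 / 10) :=
    mul_le_mul_of_nonneg_left h5 hy.le
  have e : (1 - r) * (1 / (4 * (1 - r)) + 11 / 10) = 1 / 4 + 11 / 10 * (1 - r) := by
    field_simp
  rw [e] at h6
  have h7 : 7 / 5 * (1 - r) ≤ 499 / 1000 / (r * A r) := by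
    rw [le_div_iff₀ (by positivity)]
    have h8 : (1 - r) * A r ≤ 1 / 8 + 11 / 20 * (3 / 100) := by nlinarith
    have h9 : r * ((1 - r) * A r) ≤ 1 * ((1 - r) * A r) :=
      mul_le_mul_of_nonneg_right h1.le (by positivity)
    nlinarith
  linarith

/-- The Courtade-Kumar bound on `[3/10, 1)`, for every Boolean function. -/
theorem upperRange : UpperRange (3 / 10) := by
  intro n F hF hx₀ hx₁ r hr0 hr1
  obtain ⟨x₀, h₀⟩ := hx₀
  obtain ⟨x₁, h₁⟩ := hx₁
  have hrpos : 0 < r := by linarith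
  by_cases hm : avg F = 0
  · have := Hn_ge_ent hF hm hrpos hr1
    rw [hm, ent_zero]
    linarith
  · have hG : 0 ≤ gq F r := by
      rcases le_total r (97 / 100) with hle | hle
      · have hs0 : (0 : ℝ) < ((97 / 100 : ℚ) : ℝ) := by
          push_cast
          norm_num
        have hs1 : ((97 / 100 : ℚ) : ℝ) < 1 := by
          push_cast
          norm_num
        have hT := gq_tail hF h₀ h₁ (s₁ := ((97 / 100 : ℚ) : ℝ)) (θ := 499 / 1000) (C := 7 / 5)
          hs0 hs1 (by norm_num) hm (by norm_num) (fun z hz0 hz1 => tail_hyp (by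
            push_cast at hz0
            linarith) hz1)
        have hV : avg F ^ 2 * ((V0 : ℚ) : ℝ) ≤ gq F ((97 / 100 : ℚ) : ℝ) := by
          refine le_trans (mul_le_mul_of_nonneg_left ?_ (sq_nonneg _)) hT
          have hA := knot_A knot_top
          have hApos := knot_ALo_pos knot_top
          unfold V0
          push_cast
          push_cast at hA hApos
          have h3 : (499 / 1000 : ℝ) / (97 / 100 * ((AHi (97 / 100) : ℚ) : ℝ)) ≤
              499 / 1000 / (97 / 100 * A (97 / 100)) := by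
            apply div_le_div_of_nonneg_left (by norm_num)
            · have : 0 < A (97 / 100 : ℝ) := lt_of_lt_of_le hApos hA.1
              positivity
            · linarith [hA.2]
          linarith
        have hb := chain_sound hF h₀ h₁ knotsQ (97 / 100) V0 knot_top chain_check V0_pos hV r
          (by
            rw [bot_eq]
            push_cast
            linarith)
          (by
            push_cast
            linarith)
        exact hb
      · have hT := gq_tail hF h₀ h₁ (s₁ := r) (θ := 499 / 1000) (C := 7 / 5)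
          hrpos hr1 (by norm_num) hm (by norm_num) (fun z hz0 hz1 => tail_hyp (by linarith) hz1)
        have h2 := tail_nonneg hle hr1
        have h3 : 0 ≤ avg F ^ 2 * (499 / 1000 / (r * A r) - 7 / 5 * (1 - r)) :=
          mul_nonneg (sq_nonneg _) h2
        linarith
    have hA := A_pos hrpos hr1
    have hD : 0 < r * A r := by positivity
    have hgap : 0 ≤ gapF F r := by
      unfold gq at hG
      have := mul_nonneg hG hD.le
      rwa [div_mul_cancel₀ _ hD.ne'] at this
    unfold gapF at hgap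
    linarith

end Vale.Agent.CK
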