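import Vale.Agent.CK.Facts

/-!
Fast rational enclosures of `A` (the inverse hyperbolic tangent) and of `log 2 - log (1 + x)`,
by a short series.
-/

open Real Set

namespace Vale.Agent.CK

open Vale.Agent.P322

/-- The partial sum `u + u³/3 + u⁵/5 + u⁷/7 + u⁹/9` of the series of `A`, in Horner form. -/
def atS (u : ℚ) : ℚ :=
  u * (1 + (u * u) * (1 / 3 + (u * u) * (1 / 5 + (u * u) * (1 / 7 + (u * u) * (1 / 9)))))

/-- The bound for the remainder. -/
def atE (u : ℚ) : ℚ := u ^ 11 / (11 * (1 - u * u))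

noncomputable def atSR (u : ℝ) : ℝ :=
  u * (1 + (u * u) * (1 / 3 + (u * u) * (1 / 5 + (u * u) * (1 / 7 + (u * u) * (1 / 9)))))

lemma atS_cast (u : ℚ) : ((atS u : ℚ) : ℝ) = atSR (u : ℝ) := by
  unfold atS atSR
  push_cast
  ring

lemma atE_cast (u : ℚ) : ((atE u : ℚ) : ℝ) = (u : ℝ) ^ 11 / (11 * (1 - (u : ℝ) * u)) := by
  unfold atE
  push_cast
  ring

lemma hasDerivAt_atSR (u : ℝ) :
    HasDerivAt atSR (1 + u ^ 2 + u ^ 4 + u ^ 6 + u ^ 8) u := by
  have e : atSR = fun u : ℝ => u + u ^ 3 / 3 + u ^ 5 / 5 + u ^ 7 / 7 + u ^ 9 / 9 := by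
    funext x
    unfold atSR
    ring
  rw [e]
  have h1 := hasDerivAt_id' u
  have h3 := (hasDerivAt_pow 3 u).div_const 3
  have h5 := (hasDerivAt_pow 5 u).div_const 5
  have h7 := (hasDerivAt_pow 7 u).div_const 7
  have h9 := (hasDerivAt_pow 9 u).div_const 9
  have h := ((((h1.add h3).add h5).add h7).add h9)
  refine h.congr_deriv ?_
  norm_num

lemma atSR_le_A {u : ℝ} (h0 : 0 ≤ u) (h1 : u < 1) : atSR u ≤ A u := by
  have hm : MonotoneOn (fun z => A z - atSR z) (Icc 0 u) := by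
    apply mono_of_deriv (f' := fun z => 1 / (1 - z ^ 2) - (1 + z ^ 2 + z ^ 4 + z ^ 6 + z ^ 8))
    · intro z hz
      have hz' : |z| < 1 := abs_lt_one_of hz.1 (lt_of_le_of_lt hz.2 h1)
      exact ((hasDerivAt_A hz').sub (hasDerivAt_atSR z)).continuousAt.continuousWithinAt
    · intro z hz
      have hz' : |z| < 1 := abs_lt_one_of hz.1.le (lt_trans hz.2 h1)
      exact (hasDerivAt_A hz').sub (hasDerivAt_atSR z)
    · intro z hz
      have hz' : |z| < 1 := abs_lt_one_of hz.1.le (lt_trans hz.2 h1)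
      have hp := one_sub_sq_pos hz'
      have e : 1 / (1 - z ^ 2) - (1 + z ^ 2 + z ^ 4 + z ^ 6 + z ^ 8) = z ^ 10 / (1 - z ^ 2) := by
        field_simp
        ring
      rw [e]
      positivity
  have h := hm (left_mem_Icc.mpr h0) (right_mem_Icc.mpr h0) h0
  have e0 : atSR 0 = 0 := by
    unfold atSR
    ring
  simp only [A_zero, e0] at h
  linarith

lemma A_le_atSR {u : ℝ} (h0 : 0 ≤ u) (h1 : u < 1) :
    A u ≤ atSR u + u ^ 11 / (11 * (1 - u * u)) := by
  have hm : MonotoneOn (fun z => atSR z + z ^ 11 / (11 * (1 - z * z)) - A z) (Icc 0 u) := by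
    apply mono_of_deriv (f' := fun z => (1 + z ^ 2 + z ^ 4 + z ^ 6 + z ^ 8) +
      ((((11 : ℕ) : ℝ) * z ^ (11 - 1) * (11 * (1 - z * z)) - z ^ 11 * (11 * (-(1 * z + z * 1)))) /
        (11 * (1 - z * z)) ^ 2) - 1 / (1 - z ^ 2))
    · intro z hz
      have hz' : |z| < 1 := abs_lt_one_of hz.1 (lt_of_le_of_lt hz.2 h1)
      have hp := one_sub_sq_pos hz'
      have hne : 11 * (1 - z * z) ≠ 0 := by
        have : 1 - z * z = 1 - z ^ 2 := by ring
        rw [this]
        positivity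
      have h2 : HasDerivAt (fun z : ℝ => 11 * (1 - z * z)) (11 * (-(1 * z + z * 1))) z :=
        (((hasDerivAt_id' z).mul (hasDerivAt_id' z)).const_sub 1).const_mul 11
      have h3 := (hasDerivAt_pow 11 z).div h2 hne
      exact (((hasDerivAt_atSR z).add h3).sub (hasDerivAt_A hz')).continuousAt.continuousWithinAt
    · intro z hz
      have hz' : |z| < 1 := abs_lt_one_of hz.1.le (lt_trans hz.2 h1)
      have hp := one_sub_sq_pos hz'
      have hne : 11 * (1 - z * z) ≠ 0 := by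
        have : 1 - z * z = 1 - z ^ 2 := by ring
        rw [this]
        positivity
      have h2 : HasDerivAt (fun z : ℝ => 11 * (1 - z * z)) (11 * (-(1 * z + z * 1))) z :=
        (((hasDerivAt_id' z).mul (hasDerivAt_id' z)).const_sub 1).const_mul 11
      have h3 := (hasDerivAt_pow 11 z).div h2 hne
      exact ((hasDerivAt_atSR z).add h3).sub (hasDerivAt_A hz')
    · intro z hz
      have hz' : |z| < 1 := abs_lt_one_of hz.1.le (lt_trans hz.2 h1)
      have hp := one_sub_sq_pos hz'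
      have hzz : 1 - z * z = 1 - z ^ 2 := by ring
      have e : (1 + z ^ 2 + z ^ 4 + z ^ 6 + z ^ 8) +
          ((((11 : ℕ) : ℝ) * z ^ (11 - 1) * (11 * (1 - z * z)) - z ^ 11 * (11 * (-(1 * z + z * 1)))) /
            (11 * (1 - z * z)) ^ 2) - 1 / (1 - z ^ 2) =
          2 * z ^ 12 / (11 * (1 - z ^ 2) ^ 2) := by
        rw [hzz]
        push_cast
        field_simp
        ring
      rw [e]
      positivity
  have h := hm (left_mem_Icc.mpr h0) (right_mem_Icc.mpr h0) h0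
  have e0 : atSR 0 = 0 := by
    unfold atSR
    ring
  simp only [A_zero, e0] at h
  norm_num at h
  linarith

/-- Rounding down, to the grid `2^(-40)`. -/
def rd40D (q : ℚ) : ℚ := ((⌊q * 1099511627776⌋ : ℤ) : ℚ) / 1099511627776

/-- Rounding up, to the grid `2^(-40)`. -/
def rd40U (q : ℚ) : ℚ := ((⌈q * 1099511627776⌉ : ℤ) : ℚ) / 1099511627776

lemma rd40D_le (q : ℚ) : rd40D q ≤ q := by
  unfold rd40D
  rw [div_le_iff₀ (by norm_num)]
  exact Int.floor_le _

lemma le_rd40U (q : ℚ) : q ≤ rd40U q := by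
  unfold rd40U
  rw [le_div_iff₀ (by norm_num)]
  exact Int.le_ceil _

/-- Lower bound for `A u`, valid for `0 ≤ u < 1`. -/
def atLo (u : ℚ) : ℚ :=
  let u' := rd40D u
  if 0 ≤ u' then atS u' else 0

/-- Upper bound for `A u`, valid for `0 ≤ u < 1`. -/
def atHi (u : ℚ) : ℚ :=
  let u' := rd40U u
  if u' < 1 then atS u' + atE u' else u / (1 - u * u)

lemma atLo_le {u : ℚ} (h0 : 0 ≤ u) (h1 : u < 1) : ((atLo u : ℚ) : ℝ) ≤ A (u : ℝ) := by
  have hu0 : (0 : ℝ) ≤ u := by exact_mod_cast h0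
  have hu1 : (u : ℝ) < 1 := by exact_mod_cast h1
  unfold atLo
  simp only
  split_ifs with hc
  · have hle : ((rd40D u : ℚ) : ℝ) ≤ u := by exact_mod_cast rd40D_le u
    have hc' : (0 : ℝ) ≤ ((rd40D u : ℚ) : ℝ) := by exact_mod_cast hc
    rw [atS_cast]
    exact le_trans (atSR_le_A hc' (lt_of_le_of_lt hle hu1)) (A_mono' hc' hle hu1)
  · push_cast
    exact A_nonneg hu0 hu1

lemma le_atHi {u : ℚ} (h0 : 0 ≤ u) (h1 : u < 1) : A (u : ℝ) ≤ ((atHi u : ℚ) : ℝ) := by
  have hu0 : (0 : ℝ) ≤ u := by exact_mod_cast h0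
  have hu1 : (u : ℝ) < 1 := by exact_mod_cast h1
  unfold atHi
  simp only
  split_ifs with hc
  · have hle : (u : ℝ) ≤ ((rd40U u : ℚ) : ℝ) := by exact_mod_cast le_rd40U u
    have hc' : ((rd40U u : ℚ) : ℝ) < 1 := by exact_mod_cast hc
    push_cast
    rw [atS_cast, atE_cast]
    exact le_trans (A_mono' hu0 hle hc') (A_le_atSR (le_trans hu0 hle) hc')
  · have := A_le hu0 hu1
    push_cast
    have e : (u : ℝ) * u = (u : ℝ) ^ 2 := by ring
    rw [e]
    exact this

/-- Exponent for the reduction of `A x`: `2^e ≤ (1+x)/(1-x)`. -/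
def redE (x : ℚ) : ℕ := Nat.log2 (⌊(1 + x) / (1 - x)⌋₊)

/-- The reduced argument: `A x = (e/2) log 2 + A u`. -/
def redU (x : ℚ) : ℚ :=
  let c := (2 : ℚ) ^ redE x * (1 - x)
  (1 + x - c) / (1 + x + c)

/-- Bounds for `log 2`. -/
def ln2L : ℚ := 6931471803 / 10000000000
def ln2H : ℚ := 6931471808 / 10000000000

lemma ln2L_le : ((ln2L : ℚ) : ℝ) ≤ log 2 := by
  have := Real.log_two_gt_d9
  unfold ln2L
  push_cast
  linarith

lemma le_ln2H : log 2 ≤ ((ln2H : ℚ) : ℝ) := by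
  have := Real.log_two_lt_d9
  unfold ln2H
  push_cast
  linarith

/-- The identity behind the reduction. -/
lemma A_red {x c : ℝ} {e : ℕ} (h0 : 0 ≤ x) (h1 : x < 1) (hc : c = 2 ^ e * (1 - x)) :
    A x = e / 2 * log 2 + A ((1 + x - c) / (1 + x + c)) := by
  have hc0 : 0 < c := by
    rw [hc]
    have : 0 < 1 - x := by linarith
    positivity
  have h1x : 0 < 1 + x := by linarith
  have h1mx : 0 < 1 - x := by linarith
  have hs : 0 < 1 + x + c := by linarith
  unfold A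
  have e1 : 1 + (1 + x - c) / (1 + x + c) = 2 * (1 + x) / (1 + x + c) := by
    field_simp
    ring
  have e2 : 1 - (1 + x - c) / (1 + x + c) = 2 * c / (1 + x + c) := by
    field_simp
    ring
  rw [e1, e2, Real.log_div (by positivity) hs.ne', Real.log_div (by positivity) hs.ne',
    Real.log_mul (by norm_num) h1x.ne', Real.log_mul (by norm_num) hc0.ne', hc,
    Real.log_mul (by positivity) h1mx.ne', Real.log_pow]
  ring

/-- Lower bound for `A x`. -/
def wLo (x : ℚ) : ℚ :=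
  let u := redU x
  if 0 ≤ u then (redE x : ℚ) / 2 * ln2L + atLo u else 0

/-- Upper bound for `A x`. -/
def wHi (x : ℚ) : ℚ :=
  let u := redU x
  if 0 ≤ u then (redE x : ℚ) / 2 * ln2H + atHi u else x / (1 - x * x)

lemma redU_props {x : ℚ} (h0 : 0 ≤ x) (h1 : x < 1) (hu : 0 ≤ redU x) :
    ((2 : ℝ) ^ redE x * (1 - (x : ℝ)) ≤ 1 + (x : ℝ)) ∧ redU x < 1 ∧
      ((redU x : ℚ) : ℝ) = (1 + (x : ℝ) - 2 ^ redE x * (1 - (x : ℝ))) /
        (1 + (x : ℝ) + 2 ^ redE x * (1 - (x : ℝ))) := by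
  have h1mx : (0 : ℚ) < 1 - x := by linarith
  have hc0 : (0 : ℚ) < 2 ^ redE x * (1 - x) := by positivity
  have hs : (0 : ℚ) < 1 + x + 2 ^ redE x * (1 - x) := by linarith
  have e : redU x = (1 + x - 2 ^ redE x * (1 - x)) / (1 + x + 2 ^ redE x * (1 - x)) := rfl
  have hle : (2 : ℚ) ^ redE x * (1 - x) ≤ 1 + x := by
    rw [e] at hu
    have := (div_nonneg_iff.mp hu)
    rcases this with ⟨h, _⟩ | ⟨_, h⟩
    · linarith
    · linarith
  refine ⟨by exact_mod_cast hle, ?_, ?_⟩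
  · rw [e, div_lt_one hs]
    linarith
  · rw [e]
    push_cast
    ring

lemma wLo_le {x : ℚ} (h0 : 0 ≤ x) (h1 : x < 1) : ((wLo x : ℚ) : ℝ) ≤ A (x : ℝ) := by
  have hx0 : (0 : ℝ) ≤ x := by exact_mod_cast h0
  have hx1 : (x : ℝ) < 1 := by exact_mod_cast h1
  unfold wLo
  simp only
  split_ifs with hu
  · obtain ⟨h2, h3, h4⟩ := redU_props h0 h1 hu
    have hA := A_red (e := redE x) (c := 2 ^ redE x * (1 - (x : ℝ))) hx0 hx1 rfl
    rw [hA, ← h4]
    have hl := ln2L_le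
    have ha := atLo_le hu h3
    have he : (0 : ℝ) ≤ (redE x : ℝ) / 2 := by positivity
    have := mul_le_mul_of_nonneg_left hl he
    push_cast
    linarith
  · push_cast
    exact A_nonneg hx0 hx1

lemma le_wHi {x : ℚ} (h0 : 0 ≤ x) (h1 : x < 1) : A (x : ℝ) ≤ ((wHi x : ℚ) : ℝ) := by
  have hx0 : (0 : ℝ) ≤ x := by exact_mod_cast h0
  have hx1 : (x : ℝ) < 1 := by exact_mod_cast h1
  unfold wHi
  simp only
  split_ifs with hu
  · obtain ⟨h2, h3, h4⟩ := redU_props h0 h1 hu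
    have hA := A_red (e := redE x) (c := 2 ^ redE x * (1 - (x : ℝ))) hx0 hx1 rfl
    rw [hA, ← h4]
    have hl := le_ln2H
    have ha := le_atHi hu h3
    have he : (0 : ℝ) ≤ (redE x : ℝ) / 2 := by positivity
    have := mul_le_mul_of_nonneg_left hl he
    push_cast
    linarith
  · have := A_le hx0 hx1
    push_cast
    have e : (x : ℝ) * x = (x : ℝ) ^ 2 := by ring
    rw [e]
    exact this

/-- `log 2 - log (1 + x) = 2 A ((1-x)/(3+x))`. -/
lemma ell_eq {x : ℝ} (h0 : 0 ≤ x) :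
    log 2 - log (1 + x) = 2 * A ((1 - x) / (3 + x)) := by
  have h3 : 0 < 3 + x := by linarith
  have h1x : 0 < 1 + x := by linarith
  unfold A
  have e1 : 1 + (1 - x) / (3 + x) = 4 / (3 + x) := by
    field_simp
    ring
  have e2 : 1 - (1 - x) / (3 + x) = 2 * (1 + x) / (3 + x) := by
    field_simp
    ring
  rw [e1, e2, Real.log_div (by norm_num) h3.ne', Real.log_div (by positivity) h3.ne',
    Real.log_mul (by norm_num) h1x.ne', show (4 : ℝ) = 2 * 2 by norm_num,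
    Real.log_mul (by norm_num) (by norm_num)]
  ring

/-- Lower bound for `log 2 - log (1 + x)`. -/
def lLo (x : ℚ) : ℚ := 2 * atLo ((1 - x) / (3 + x))

/-- Upper bound for `log 2 - log (1 + x)`. -/
def lHi (x : ℚ) : ℚ := 2 * atHi ((1 - x) / (3 + x))

lemma lLo_le {x : ℚ} (h0 : 0 ≤ x) (h1 : x < 1) :
    ((lLo x : ℚ) : ℝ) ≤ log 2 - log (1 + (x : ℝ)) := by
  have hx0 : (0 : ℝ) ≤ x := by exact_mod_cast h0
  have hx1 : (x : ℝ) < 1 := by exact_mod_cast h1
  have h3 : (0 : ℚ) < 3 + x := by linarith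
  have := atLo_le (u := (1 - x) / (3 + x)) (div_nonneg (by linarith) h3.le)
    ((div_lt_one h3).mpr (by linarith))
  rw [ell_eq hx0]
  unfold lLo
  push_cast at this ⊢
  linarith

lemma le_lHi {x : ℚ} (h0 : 0 ≤ x) (h1 : x < 1) :
    log 2 - log (1 + (x : ℝ)) ≤ ((lHi x : ℚ) : ℝ) := by
  have hx0 : (0 : ℝ) ≤ x := by exact_mod_cast h0
  have hx1 : (x : ℝ) < 1 := by exact_mod_cast h1
  have h3 : (0 : ℚ) < 3 + x := by linarith
  have := le_atHi (u := (1 - x) / (3 + x)) (div_nonneg (by linarith) h3.le)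
    ((div_lt_one h3).mpr (by linarith))
  rw [ell_eq hx0]
  unfold lHi
  push_cast at this ⊢
  linarith

end Vale.Agent.CK
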