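import Vale.Agent.CK.Defs

/-!
One-variable calculus for `A`, `ent`, `Yf`, `kap`, `Af`, `Lf`, `c3`.
-/

open Real Set

namespace Vale.Agent.CK

open Vale.Agent.P322

lemma ent_zero : ent 0 = log 2 := by
  unfold ent
  rw [show ((1 : ℝ) + 0) / 2 = 2⁻¹ by norm_num, binEntropy_two_inv]

lemma ent_formula {x : ℝ} (hx : |x| < 1) : ent x = log 2 - x * A x - log (1 - x ^ 2) / 2 := by
  have h := abs_lt.mp hx
  have h1 : 0 < 1 + x := by linarith
  have h2 : 0 < 1 - x := by linarith
  have e1 : (1 + x) / 2 ≠ 0 := by positivity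
  have e2 : 1 - (1 + x) / 2 = (1 - x) / 2 := by ring
  have e3 : 1 - x ^ 2 = (1 + x) * (1 - x) := by ring
  unfold ent binEntropy A
  rw [e2, e3, log_inv, log_inv, log_div h1.ne' two_ne_zero, log_div h2.ne' two_ne_zero,
    log_mul h1.ne' h2.ne']
  ring

lemma Lf_eq {x : ℝ} (hx : |x| < 1) : Lf x = log 2 - log (1 - x ^ 2) / 2 := by
  unfold Lf
  rw [ent_formula hx]
  ring

lemma hasDerivAt_A {x : ℝ} (hx : |x| < 1) : HasDerivAt A (1 / (1 - x ^ 2)) x := by
  have h := abs_lt.mp hx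
  have h1 : 0 < 1 + x := by linarith
  have h2 : 0 < 1 - x := by linarith
  have d1 : HasDerivAt (fun y : ℝ => log (1 + y)) (1 / (1 + x)) x := by
    have := ((hasDerivAt_id' x).const_add 1).log h1.ne'
    simpa using this
  have d2 : HasDerivAt (fun y : ℝ => log (1 - y)) (-1 / (1 - x)) x := by
    have := ((hasDerivAt_id' x).const_sub 1).log h2.ne'
    simpa using this
  have d3 := (d1.sub d2).div_const 2
  have e : (1 / (1 + x) - -1 / (1 - x)) / 2 = 1 / (1 - x ^ 2) := by
    have e3 : 1 - x ^ 2 = (1 + x) * (1 - x) := by ring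
    rw [e3]
    field_simp
    ring
  rw [e] at d3
  exact d3

lemma A_zero : A 0 = 0 := by
  unfold A
  simp

lemma A_neg (x : ℝ) : A (-x) = -A x := by
  unfold A
  have e1 : (1 : ℝ) + -x = 1 - x := by ring
  have e2 : (1 : ℝ) - -x = 1 + x := by ring
  rw [e1, e2]
  ring

lemma A_pos {x : ℝ} (h0 : 0 < x) (h1 : x < 1) : 0 < A x := by
  have h := log_lt_log (x := 1 - x) (y := 1 + x) (by linarith) (by linarith)
  unfold A
  linarith

lemma A_nonneg {x : ℝ} (h0 : 0 ≤ x) (h1 : x < 1) : 0 ≤ A x := le_trans h0 (A_ge_self h0 h1)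

lemma abs_lt_one_of {x : ℝ} (h0 : 0 ≤ x) (h1 : x < 1) : |x| < 1 := by
  rw [abs_of_nonneg h0]
  exact h1

lemma one_sub_sq_pos {x : ℝ} (hx : |x| < 1) : 0 < 1 - x ^ 2 := by
  have h := abs_lt.mp hx
  nlinarith

/-- A function with nonnegative derivative on an open interval, continuous on the closure, is
monotone. -/
lemma mono_of_deriv {f f' : ℝ → ℝ} {a b : ℝ} (hc : ContinuousOn f (Icc a b))
    (hd : ∀ x ∈ Ioo a b, HasDerivAt f (f' x) x) (hp : ∀ x ∈ Ioo a b, 0 ≤ f' x) :
    MonotoneOn f (Icc a b) := by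
  apply monotoneOn_of_deriv_nonneg (convex_Icc a b) hc
  · intro x hx
    rw [interior_Icc] at hx
    exact (hd x hx).differentiableAt.differentiableWithinAt
  · intro x hx
    rw [interior_Icc] at hx
    rw [(hd x hx).deriv]
    exact hp x hx

/-- A function with nonpositive derivative on an open interval, continuous on the closure, is
antitone. -/
lemma anti_of_deriv {f f' : ℝ → ℝ} {a b : ℝ} (hc : ContinuousOn f (Icc a b))
    (hd : ∀ x ∈ Ioo a b, HasDerivAt f (f' x) x) (hp : ∀ x ∈ Ioo a b, f' x ≤ 0) :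
    AntitoneOn f (Icc a b) := by
  apply antitoneOn_of_deriv_nonpos (convex_Icc a b) hc
  · intro x hx
    rw [interior_Icc] at hx
    exact (hd x hx).differentiableAt.differentiableWithinAt
  · intro x hx
    rw [interior_Icc] at hx
    rw [(hd x hx).deriv]
    exact hp x hx

/-- The up-then-down pattern: if `g` is continuous on `[a,b]`, `g a, g b ≥ 0`, and the derivative of
`g` changes sign at most once, from `+` to `-`, then `g ≥ 0` on `[a,b]`. -/
lemma nonneg_of_updown {g g' : ℝ → ℝ} {a b : ℝ} (hc : ContinuousOn g (Icc a b))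
    (hd : ∀ x ∈ Ioo a b, HasDerivAt g (g' x) x) (ha : 0 ≤ g a) (hb : 0 ≤ g b)
    (hs : ∀ s ∈ Ioo a b, ∀ t ∈ Ioo a b, s ≤ t → 0 ≤ g' t → 0 ≤ g' s) :
    ∀ x ∈ Icc a b, 0 ≤ g x := by
  intro x hx
  rcases eq_or_lt_of_le hx.1 with h | hxa
  · rw [← h]
    exact ha
  rcases eq_or_lt_of_le hx.2 with h | hxb
  · rw [h]
    exact hb
  have hxI : x ∈ Ioo a b := ⟨hxa, hxb⟩
  by_cases h : 0 ≤ g' x
  · have hm : MonotoneOn g (Icc a x) := by
      apply mono_of_deriv (f' := g') (hc.mono (Icc_subset_Icc le_rfl hx.2))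
      · intro t ht
        exact hd t ⟨ht.1, lt_trans ht.2 hxb⟩
      · intro t ht
        exact hs t ⟨ht.1, lt_trans ht.2 hxb⟩ x hxI ht.2.le h
    have := hm (left_mem_Icc.mpr hxa.le) (right_mem_Icc.mpr hxa.le) hxa.le
    linarith
  · have hm : AntitoneOn g (Icc x b) := by
      apply anti_of_deriv (f' := g') (hc.mono (Icc_subset_Icc hx.1 le_rfl))
      · intro t ht
        exact hd t ⟨lt_trans hxa ht.1, ht.2⟩
      · intro t ht
        by_contra hcon
        push Not at hcon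
        exact h (hs x hxI t ⟨lt_trans hxa ht.1, ht.2⟩ ht.1.le hcon.le)
    have := hm (left_mem_Icc.mpr hxb.le) (right_mem_Icc.mpr hxb.le) hxb.le
    linarith

/-- `A x ≤ x / (1 - x²)` for `x ∈ [0,1)`. -/
lemma A_le {x : ℝ} (h0 : 0 ≤ x) (h1 : x < 1) : A x ≤ x / (1 - x ^ 2) := by
  have hxa : |x| < 1 := abs_lt_one_of h0 h1
  let f : ℝ → ℝ := fun y => y / (1 - y ^ 2) - A y
  let f' : ℝ → ℝ := fun y => 2 * y ^ 2 / (1 - y ^ 2) ^ 2
  have hd : ∀ y : ℝ, |y| < 1 → HasDerivAt f (f' y) y := by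
    intro y hy
    have hy1 := one_sub_sq_pos hy
    have d1 : HasDerivAt (fun z : ℝ => 1 - z ^ 2) (-(2 * y)) y := by
      have := (hasDerivAt_pow 2 y).const_sub 1
      simpa using this
    have d2 := (hasDerivAt_id' y).div d1 hy1.ne'
    have d3 := d2.sub (hasDerivAt_A hy)
    have e : (1 * (1 - y ^ 2) - y * -(2 * y)) / (1 - y ^ 2) ^ 2 - 1 / (1 - y ^ 2) = f' y := by
      simp only [f']
      field_simp
      ring
    rw [e] at d3
    exact d3
  have hm : MonotoneOn f (Icc 0 x) := by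
    apply mono_of_deriv (f' := f')
    · intro y hy
      have hy' : |y| < 1 := abs_lt_one_of hy.1 (lt_of_le_of_lt hy.2 h1)
      exact (hd y hy').continuousAt.continuousWithinAt
    · intro y hy
      exact hd y (abs_lt_one_of hy.1.le (lt_trans hy.2 h1))
    · intro y _
      simp only [f']
      positivity
  have := hm (left_mem_Icc.mpr h0) (right_mem_Icc.mpr h0) h0
  simp only [f] at this
  rw [A_zero] at this
  norm_num at this
  linarith

/-- The derivative of `Y`. -/
lemma hasDerivAt_Yf {x : ℝ} (hx : |x| < 1) : HasDerivAt Yf (x / (1 - x ^ 2) - A x) x := by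
  have hx1 := one_sub_sq_pos hx
  have d1 : HasDerivAt (fun z : ℝ => 1 - z ^ 2) (-(2 * x)) x := by
    have := (hasDerivAt_pow 2 x).const_sub 1
    simpa using this
  have d2 := d1.log hx1.ne'
  have d3 := ((hasDerivAt_id' x).mul (hasDerivAt_A hx)).neg.sub d2
  have e : -(1 * A x + x * (1 / (1 - x ^ 2))) - -(2 * x) / (1 - x ^ 2) = x / (1 - x ^ 2) - A x := by
    field_simp
    ring
  rw [e] at d3
  exact d3

lemma kap_zero : kap 0 = 0 := by
  unfold kap
  simp

lemma kap_of_pos {x : ℝ} (h0 : 0 < x) : kap x = x / ((1 - x ^ 2) * A x) - 1 := by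
  unfold kap
  rw [if_neg h0.ne']

lemma kap_nonneg {x : ℝ} (h0 : 0 ≤ x) (h1 : x < 1) : 0 ≤ kap x := by
  rcases eq_or_lt_of_le h0 with h | h
  · rw [← h, kap_zero]
  · rw [kap_of_pos h]
    have hA := A_pos h h1
    have hs := one_sub_sq_pos (abs_lt_one_of h0 h1)
    have hle := A_le h0 h1
    have h2 : (1 - x ^ 2) * A x ≤ x := by
      rw [le_div_iff₀ hs] at hle
      linarith
    have h3 : 1 ≤ x / ((1 - x ^ 2) * A x) := by
      rw [le_div_iff₀ (by positivity)]
      linarith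
    linarith

/-- `κ w = ρ / (1 - ρ²) - w`. -/
lemma kap_mul_A {x : ℝ} (h0 : 0 ≤ x) (h1 : x < 1) : kap x * A x = x / (1 - x ^ 2) - A x := by
  rcases eq_or_lt_of_le h0 with h | h
  · rw [← h, kap_zero, A_zero]
    simp
  · rw [kap_of_pos h]
    have hA := A_pos h h1
    have hs := one_sub_sq_pos (abs_lt_one_of h0 h1)
    field_simp

/-- The derivative of `κ`. -/
noncomputable def dkap (x : ℝ) : ℝ := ((1 + x ^ 2) * A x - x) / ((1 - x ^ 2) ^ 2 * A x ^ 2)

lemma hasDerivAt_kap {x : ℝ} (h0 : 0 < x) (h1 : x < 1) : HasDerivAt kap (dkap x) x := by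
  have hxa : |x| < 1 := abs_lt_one_of h0.le h1
  have hA := A_pos h0 h1
  have hs := one_sub_sq_pos hxa
  have d1 : HasDerivAt (fun z : ℝ => 1 - z ^ 2) (-(2 * x)) x := by
    have := (hasDerivAt_pow 2 x).const_sub 1
    simpa using this
  have d2 := d1.mul (hasDerivAt_A hxa)
  have hne : (1 - x ^ 2) * A x ≠ 0 := by positivity
  have d3 : HasDerivAt (fun y : ℝ => y / ((1 - y ^ 2) * A y) - 1)
      ((1 * ((1 - x ^ 2) * A x) - x * (-(2 * x) * A x + (1 - x ^ 2) * (1 / (1 - x ^ 2)))) /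
      ((1 - x ^ 2) * A x) ^ 2) x := ((hasDerivAt_id' x).div d2 hne).sub_const 1
  have e : (1 * ((1 - x ^ 2) * A x) - x * (-(2 * x) * A x + (1 - x ^ 2) * (1 / (1 - x ^ 2)))) /
      ((1 - x ^ 2) * A x) ^ 2 = dkap x := by
    unfold dkap
    have e1 : (1 - x ^ 2) * (1 / (1 - x ^ 2)) = 1 := by field_simp
    rw [e1, mul_pow]
    congr 1
    ring
  rw [e] at d3
  apply d3.congr_of_eventuallyEq
  have : ∀ᶠ y in nhds x, 0 < y := lt_mem_nhds h0
  filter_upwards [this] with y hy
  exact kap_of_pos hy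

lemma dkap_nonneg {x : ℝ} (h0 : 0 < x) (h1 : x < 1) : 0 ≤ dkap x := by
  unfold dkap
  have hA := A_ge_self h0.le h1
  have hA0 := A_pos h0 h1
  apply div_nonneg
  · nlinarith [sq_nonneg x]
  · positivity

lemma kap_le_sq {x : ℝ} (h0 : 0 < x) (h1 : x < 1) : kap x ≤ x ^ 2 / (1 - x ^ 2) := by
  rw [kap_of_pos h0]
  have hA := A_ge_self h0.le h1
  have hA0 := A_pos h0 h1
  have hs := one_sub_sq_pos (abs_lt_one_of h0.le h1)
  have h2 : x / ((1 - x ^ 2) * A x) ≤ 1 / (1 - x ^ 2) := by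
    rw [div_le_div_iff₀ (by positivity) hs]
    nlinarith
  have e : x ^ 2 / (1 - x ^ 2) = 1 / (1 - x ^ 2) - 1 := by
    field_simp
    ring
  rw [e]
  linarith

lemma continuousOn_kap : ContinuousOn kap (Ico 0 1) := by
  intro x hx
  rcases eq_or_lt_of_le hx.1 with h | h
  · -- continuity at `0`
    rw [← h]
    have hlim : Filter.Tendsto (fun y : ℝ => y ^ 2 / (1 - y ^ 2)) (nhds 0) (nhds (0 ^ 2 / (1 - 0 ^ 2))) := by
      apply Filter.Tendsto.div
      · exact (continuous_pow 2).tendsto 0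
      · exact (continuous_const.sub (continuous_pow 2)).tendsto 0
      · norm_num
    have hlim' : Filter.Tendsto (fun y : ℝ => y ^ 2 / (1 - y ^ 2)) (nhds 0) (nhds 0) := by
      simpa using hlim
    have hlim2 : Filter.Tendsto (fun y : ℝ => y ^ 2 / (1 - y ^ 2)) (nhdsWithin 0 (Ico 0 1)) (nhds 0) :=
      hlim'.mono_left nhdsWithin_le_nhds
    unfold ContinuousWithinAt
    rw [kap_zero]
    refine tendsto_of_tendsto_of_tendsto_of_le_of_le' tendsto_const_nhds hlim2 ?_ ?_
    · filter_upwards [self_mem_nhdsWithin] with y hy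
      exact kap_nonneg hy.1 hy.2
    · filter_upwards [self_mem_nhdsWithin] with y hy
      rcases eq_or_lt_of_le hy.1 with h' | h'
      · rw [← h', kap_zero]
        norm_num
      · exact kap_le_sq h' hy.2
  · exact (hasDerivAt_kap h hx.2).continuousAt.continuousWithinAt

lemma kap_mono {x y : ℝ} (h0 : 0 ≤ x) (hxy : x ≤ y) (h1 : y < 1) : kap x ≤ kap y := by
  have hm : MonotoneOn kap (Icc 0 y) := by
    apply mono_of_deriv (f' := dkap)
    · exact continuousOn_kap.mono (fun t ht => ⟨ht.1, lt_of_le_of_lt ht.2 h1⟩)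
    · intro t ht
      exact hasDerivAt_kap ht.1 (lt_trans ht.2 h1)
    · intro t ht
      exact dkap_nonneg ht.1 (lt_trans ht.2 h1)
  exact hm ⟨h0, hxy⟩ ⟨le_trans h0 hxy, le_rfl⟩ hxy

lemma ent_strictAntiOn : StrictAntiOn ent (Icc 0 1) := by
  intro x hx y hy hxy
  unfold ent
  apply binEntropy_strictAntiOn
  · constructor
    · have := hx.1
      rw [show (2 : ℝ)⁻¹ = 1 / 2 by norm_num]
      linarith
    · have := hx.2
      linarith
  · constructor
    · have := hy.1
      rw [show (2 : ℝ)⁻¹ = 1 / 2 by norm_num]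
      linarith
    · have := hy.2
      linarith
  · linarith

lemma continuous_ent : Continuous ent := by
  unfold ent
  exact binEntropy_continuous.comp (by fun_prop)

lemma ent_one : ent 1 = 0 := by
  unfold ent
  norm_num

lemma hasDerivAt_Af {x : ℝ} (h0 : 0 < x) (h1 : x < 1) : HasDerivAt Af (dkap x * ent x) x := by
  have hxa : |x| < 1 := abs_lt_one_of h0.le h1
  have d := (hasDerivAt_Yf hxa).add ((hasDerivAt_kap h0 h1).mul (hasDerivAt_ent hxa))
  have e : x / (1 - x ^ 2) - A x + (dkap x * ent x + kap x * -A x) = dkap x * ent x := by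
    have := kap_mul_A h0.le h1
    nlinarith
  rw [e] at d
  exact d

lemma Yf_zero : Yf 0 = 0 := by
  unfold Yf
  simp

lemma Af_zero : Af 0 = 0 := by
  unfold Af
  rw [Yf_zero, kap_zero]
  simp

lemma deriv_Yf_nonneg {x : ℝ} (h0 : 0 ≤ x) (h1 : x < 1) : 0 ≤ x / (1 - x ^ 2) - A x := by
  have := A_le h0 h1
  linarith

lemma continuousOn_Yf : ContinuousOn Yf (Ico 0 1) := by
  intro x hx
  exact (hasDerivAt_Yf (abs_lt_one_of hx.1 hx.2)).continuousAt.continuousWithinAt

/-- `Y` is nondecreasing. -/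
lemma Yf_mono {x y : ℝ} (h0 : 0 ≤ x) (hxy : x ≤ y) (h1 : y < 1) : Yf x ≤ Yf y := by
  have hm : MonotoneOn Yf (Icc 0 y) := by
    apply mono_of_deriv (f' := fun t => t / (1 - t ^ 2) - A t)
    · exact continuousOn_Yf.mono (fun t ht => ⟨ht.1, lt_of_le_of_lt ht.2 h1⟩)
    · intro t ht
      exact hasDerivAt_Yf (abs_lt_one_of ht.1.le (lt_trans ht.2 h1))
    · intro t ht
      exact deriv_Yf_nonneg ht.1.le (lt_trans ht.2 h1)
  exact hm ⟨h0, hxy⟩ ⟨le_trans h0 hxy, le_rfl⟩ hxy

lemma Yf_nonneg {x : ℝ} (h0 : 0 ≤ x) (h1 : x < 1) : 0 ≤ Yf x := by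
  have := Yf_mono le_rfl h0 h1
  rwa [Yf_zero] at this

lemma ent_nonneg' {x : ℝ} (h0 : 0 ≤ x) (h1 : x ≤ 1) : 0 ≤ ent x := by
  unfold ent
  apply binEntropy_nonneg <;> linarith

lemma Af_nonneg {x : ℝ} (h0 : 0 ≤ x) (h1 : x < 1) : 0 ≤ Af x := by
  unfold Af
  have h2 := Yf_nonneg h0 h1
  have h3 := mul_nonneg (kap_nonneg h0 h1) (ent_nonneg' h0 h1.le)
  linarith

lemma continuousOn_Af : ContinuousOn Af (Ico 0 1) := by
  unfold Af
  exact continuousOn_Yf.add (continuousOn_kap.mul continuous_ent.continuousOn)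

lemma Af_mono {x y : ℝ} (h0 : 0 ≤ x) (hxy : x ≤ y) (h1 : y < 1) : Af x ≤ Af y := by
  have hm : MonotoneOn Af (Icc 0 y) := by
    apply mono_of_deriv (f' := fun t => dkap t * ent t)
    · exact continuousOn_Af.mono (fun t ht => ⟨ht.1, lt_of_le_of_lt ht.2 h1⟩)
    · intro t ht
      exact hasDerivAt_Af ht.1 (lt_trans ht.2 h1)
    · intro t ht
      exact mul_nonneg (dkap_nonneg ht.1 (lt_trans ht.2 h1))
        (ent_nonneg' ht.1.le (lt_trans ht.2 h1).le)
  exact hm ⟨h0, hxy⟩ ⟨le_trans h0 hxy, le_rfl⟩ hxy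

/-- The tangent lemma: `Y` is a convex function of `h` with slope `-κ`. -/
lemma Yf_tangent {s ρ : ℝ} (hs0 : 0 ≤ s) (hs1 : s < 1) (hρ0 : 0 ≤ ρ) (hρ1 : ρ < 1) :
    Yf s - kap s * (ent ρ - ent s) ≤ Yf ρ := by
  -- `G(t) = Y(t) + κ(s) h(t)` has `G'(t) = w(t) (κ(t) - κ(s))`.
  let G : ℝ → ℝ := fun t => Yf t + kap s * ent t
  let G' : ℝ → ℝ := fun t => (kap t - kap s) * A t
  have hd : ∀ t, 0 ≤ t → t < 1 → HasDerivAt G (G' t) t := by
    intro t ht0 ht1
    have hta := abs_lt_one_of ht0 ht1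
    have d := (hasDerivAt_Yf hta).add ((hasDerivAt_ent hta).const_mul (kap s))
    have e : t / (1 - t ^ 2) - A t + kap s * -A t = G' t := by
      simp only [G']
      have := kap_mul_A ht0 ht1
      nlinarith
    rw [e] at d
    exact d
  have hc : ∀ t, 0 ≤ t → t < 1 → ContinuousWithinAt G (Icc 0 ρ ∪ Icc 0 s) t := by
    intro t ht0 ht1
    exact (hd t ht0 ht1).continuousAt.continuousWithinAt
  have key : G s ≤ G ρ := by
    rcases le_total s ρ with h | h
    · have hm : MonotoneOn G (Icc s ρ) := by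
        apply mono_of_deriv (f' := G')
        · intro t ht
          exact (hd t (le_trans hs0 ht.1) (lt_of_le_of_lt ht.2 hρ1)).continuousAt.continuousWithinAt
        · intro t ht
          exact hd t (le_trans hs0 ht.1.le) (lt_trans ht.2 hρ1)
        · intro t ht
          simp only [G']
          apply mul_nonneg
          · have := kap_mono hs0 ht.1.le (lt_trans ht.2 hρ1)
            linarith
          · exact A_nonneg (le_trans hs0 ht.1.le) (lt_trans ht.2 hρ1)
      exact hm (left_mem_Icc.mpr h) (right_mem_Icc.mpr h) h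
    · have hm : AntitoneOn G (Icc ρ s) := by
        apply anti_of_deriv (f' := G')
        · intro t ht
          exact (hd t (le_trans hρ0 ht.1) (lt_of_le_of_lt ht.2 hs1)).continuousAt.continuousWithinAt
        · intro t ht
          exact hd t (le_trans hρ0 ht.1.le) (lt_trans ht.2 hs1)
        · intro t ht
          simp only [G']
          apply mul_nonpos_of_nonpos_of_nonneg
          · have := kap_mono (le_trans hρ0 ht.1.le) ht.2.le hs1
            linarith
          · exact A_nonneg (le_trans hρ0 ht.1.le) (lt_trans ht.2 hs1)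
      exact hm (left_mem_Icc.mpr h) (right_mem_Icc.mpr h) h
  simp only [G] at key
  linarith

/-- `A x / x` is nondecreasing on `(0,1)`. -/
lemma A_div_mono {x y : ℝ} (h0 : 0 < x) (hxy : x ≤ y) (h1 : y < 1) : A x / x ≤ A y / y := by
  have hm : MonotoneOn (fun t => A t / t) (Icc x y) := by
    apply mono_of_deriv (f' := fun t => (t / (1 - t ^ 2) - A t) / t ^ 2)
    · intro t ht
      have ht0 : 0 < t := lt_of_lt_of_le h0 ht.1
      have ht1 : t < 1 := lt_of_le_of_lt ht.2 h1
      exact ((hasDerivAt_A (abs_lt_one_of ht0.le ht1)).continuousAt.continuousWithinAt).div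
        continuousWithinAt_id ht0.ne'
    · intro t ht
      have ht0 : 0 < t := lt_trans h0 ht.1
      have ht1 : t < 1 := lt_trans ht.2 h1
      have hs := one_sub_sq_pos (abs_lt_one_of ht0.le ht1)
      have d := (hasDerivAt_A (abs_lt_one_of ht0.le ht1)).div (hasDerivAt_id' t) ht0.ne'
      have e : (1 / (1 - t ^ 2) * t - A t * 1) / t ^ 2 = (t / (1 - t ^ 2) - A t) / t ^ 2 := by
        congr 1
        field_simp
      rw [e] at d
      exact d
    · intro t ht
      have ht0 : 0 < t := lt_trans h0 ht.1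
      have ht1 : t < 1 := lt_trans ht.2 h1
      apply div_nonneg (deriv_Yf_nonneg ht0.le ht1)
      positivity
  exact hm (left_mem_Icc.mpr hxy) (right_mem_Icc.mpr hxy) hxy

/-- `(1 - x²) log 2 ≤ h(x)`. -/
lemma ent_ge_one_sub_sq {x : ℝ} (hx : |x| ≤ 1) : (1 - x ^ 2) * log 2 ≤ ent x := by
  have hlog : 0 < log 2 := log_pos one_lt_two
  wlog h0 : 0 ≤ x generalizing x
  · have h1 : 0 ≤ -x := by linarith
    have := this (x := -x) (by rw [abs_neg]; exact hx) h1
    rw [ent_symm] at this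
    have e : (-x) ^ 2 = x ^ 2 := by ring
    rw [e] at this
    exact this
  have h1 : x ≤ 1 := le_trans (le_abs_self x) hx
  let g : ℝ → ℝ := fun t => ent t - (1 - t ^ 2) * log 2
  let g' : ℝ → ℝ := fun t => -A t + 2 * t * log 2
  have hc : ContinuousOn g (Icc 0 1) := by
    apply Continuous.continuousOn
    exact continuous_ent.sub (by fun_prop)
  have hd : ∀ t ∈ Ioo (0 : ℝ) 1, HasDerivAt g (g' t) t := by
    intro t ht
    have hta := abs_lt_one_of ht.1.le ht.2
    have d1 : HasDerivAt (fun z : ℝ => (1 - z ^ 2) * log 2) (-(2 * t) * log 2) t := by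
      have := ((hasDerivAt_pow 2 t).const_sub 1).mul_const (log 2)
      simpa using this
    have d := (hasDerivAt_ent hta).sub d1
    have e : -A t - -(2 * t) * log 2 = g' t := by
      simp only [g']
      ring
    rw [e] at d
    exact d
  have hg0 : 0 ≤ g 0 := by
    simp only [g]
    rw [ent_zero]
    norm_num
  have hg1 : 0 ≤ g 1 := by
    simp only [g]
    rw [ent_one]
    norm_num
  have hs : ∀ s ∈ Ioo (0 : ℝ) 1, ∀ t ∈ Ioo (0 : ℝ) 1, s ≤ t → 0 ≤ g' t → 0 ≤ g' s := by
    intro s hs t ht hst hg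
    simp only [g'] at hg ⊢
    have hm := A_div_mono hs.1 hst ht.2
    have h2 : A t / t ≤ 2 * log 2 := by
      rw [div_le_iff₀ ht.1]
      linarith
    have h3 : A s / s ≤ 2 * log 2 := le_trans hm h2
    rw [div_le_iff₀ hs.1] at h3
    linarith
  have := nonneg_of_updown hc hd hg0 hg1 hs x ⟨h0, h1⟩
  simp only [g] at this
  linarith

lemma Lf_pos {x : ℝ} (hx : |x| < 1) : 0 < Lf x := by
  rw [Lf_eq hx]
  have hs := one_sub_sq_pos hx
  have h1 : log (1 - x ^ 2) ≤ 0 := log_nonpos hs.le (by nlinarith [sq_nonneg x])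
  have h2 : 0 < log 2 := log_pos one_lt_two
  linarith

lemma hasDerivAt_Lf {x : ℝ} (hx : |x| < 1) : HasDerivAt Lf (x / (1 - x ^ 2)) x := by
  have hx1 := one_sub_sq_pos hx
  have d1 : HasDerivAt (fun z : ℝ => 1 - z ^ 2) (-(2 * x)) x := by
    have := (hasDerivAt_pow 2 x).const_sub 1
    simpa using this
  have d2 := ((d1.log hx1.ne').div_const 2).const_sub (log 2)
  have e : -(-(2 * x) / (1 - x ^ 2) / 2) = x / (1 - x ^ 2) := by
    field_simp
  rw [e] at d2
  apply d2.congr_of_eventuallyEq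
  have : ∀ᶠ y in nhds x, |y| < 1 := by
    have hc : Continuous (fun y : ℝ => |y|) := continuous_abs
    exact hc.continuousAt.eventually (gt_mem_nhds hx)
  filter_upwards [this] with y hy
  exact Lf_eq hy

end Vale.Agent.CK
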