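import Vale.Agent.CK.Step

/-!
The Bellman induction on the cube.
-/

open Real Set

namespace Vale.Agent.CK

open Vale.Agent.P322

/-- `(S')`: the Bellman inequality. -/
theorem bellman_S : ∀ (n : ℕ) (g : Cube n → ℝ), (∀ x, |g x| < 1) →
    2 * (ent (avg g) - avg (fun x => ent (g x))) +
        PP (Tm (avg g)) (avg (fun x => ent (g x))) ≤ Dir g / 4 := by
  intro n
  induction n with
  | zero =>
    intro w hw
    have h1 : avg w = w default := by
      unfold avg
      simp
      exact congrArg w (Subsingleton.elim _ _)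
    have h2 : avg (fun x => ent (w x)) = ent (w default) := by
      unfold avg
      simp
      exact congrArg (fun z => ent (w z)) (Subsingleton.elim _ _)
    have h3 : Dir w = 0 := by
      unfold Dir
      simp
    rw [h1, h2, h3, PP_base (hw _)]
    simp
  | succ n ih =>
    intro w hw
    have hw₁ : ∀ y, |w (cons' true y)| < 1 := fun y => hw _
    have hw₂ : ∀ y, |w (cons' false y)| < 1 := fun y => hw _
    have ih₁ := ih (fun y => w (cons' true y)) hw₁
    have ih₂ := ih (fun y => w (cons' false y)) hw₂
    have hD := Dir_succ w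
    have hmean : avg w = (avg (fun y => w (cons' true y)) + avg (fun y => w (cons' false y))) / 2 :=
      avg_succ w
    have hent : avg (fun x => ent (w x)) =
        (avg (fun y => ent (w (cons' true y))) + avg (fun y => ent (w (cons' false y)))) / 2 :=
      avg_succ _
    rw [hmean, hent, hD]
    set a := avg (fun y => w (cons' true y)) with ha
    set b := avg (fun y => w (cons' false y)) with hb
    set x₁ := avg (fun y => ent (w (cons' true y))) with hx₁
    set x₂ := avg (fun y => ent (w (cons' false y))) with hx₂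
    set K' := avg (fun y => K (w (cons' true y)) (w (cons' false y))) with hK'
    have ha1 : |a| < 1 := abs_avg_lt hw₁
    have hb1 : |b| < 1 := abs_avg_lt hw₂
    have hx₁pos : 0 < x₁ := avg_pos fun y => ent_pos (hw₁ y)
    have hx₂pos : 0 < x₂ := avg_pos fun y => ent_pos (hw₂ y)
    have hxpos : 0 < (x₁ + x₂) / 2 := by positivity
    have hC1 : K a b / 4 ≤ K' / 4 := by
      have := avg_K_ge_K_avg _ _ hw₁ hw₂
      linarith
    have hC2 : ∀ ρ, 0 < ρ → ρ < 1 → c2 ρ * (|a - b| / 2) - c3 ρ * ((x₁ + x₂) / 2) ≤ K' / 4 :=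
      fun ρ h0 h1 => avg_K_ge_cert _ _ hw₁ hw₂ h0 h1
    have hD3 := D3 ha1 hb1 hxpos hC1 hC2
    have hmid := PP_midpoint (Tm_pos ha1) (Tm_pos hb1) hx₁pos hx₂pos
    unfold Tb at hD3
    linarith

end Vale.Agent.CK
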