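import Vale.Agent.CK.Persp

/-!
Lower bounds for the average of `K`: Jensen (`C1`) and the certificate family (`C2`).
-/

open Real Set

namespace Vale.Agent.CK

open Vale.Agent.P322

/-! ### Jensen -/

lemma phi_tangent {p q P Q : ℝ} (hp : 0 < p) (hq : 0 < q) (hP : 0 < P) (hQ : 0 < Q) :
    (p - q) * (log P - log Q) + p + q - q * (P / Q) - p * (Q / P) ≤ (p - q) * (log p - log q) := by
  obtain ⟨s, hs⟩ : ∃ s, s = (p / q) * (Q / P) := ⟨_, rfl⟩
  have hs0 : 0 < s := by rw [hs]; positivity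
  have e : log s = log p - log q - (log P - log Q) := by
    rw [hs, log_mul (by positivity) (by positivity), log_div hp.ne' hq.ne', log_div hQ.ne' hP.ne']
    ring
  have h1 := Real.one_sub_inv_le_log_of_pos hs0
  have h2 := Real.log_le_sub_one_of_pos hs0
  have h3 : p * (1 - s⁻¹) = p - q * (P / Q) := by
    rw [hs]
    field_simp
  have h4 : q * (s - 1) = p * (Q / P) - q := by
    rw [hs]
    field_simp
  have h5 := mul_le_mul_of_nonneg_left h1 hp.le
  have h6 := mul_le_mul_of_nonneg_left h2 hq.le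
  have e2 : (p - q) * (log p - log q) = (p - q) * (log P - log Q) + p * log s - q * log s := by
    rw [e]
    ring
  rw [e2]
  linarith

lemma K_eq_phi (x y : ℝ) :
    K x y = (((1 + x) - (1 + y)) * (log (1 + x) - log (1 + y)) +
      ((1 - y) - (1 - x)) * (log (1 - y) - log (1 - x))) / 2 := by
  unfold K A
  ring

lemma abs_avg_lt {n : ℕ} {X : Cube n → ℝ} (hX : ∀ y, |X y| < 1) : |avg X| < 1 := by
  have h1 : 0 < avg (fun y => 1 - X y) := avg_pos fun y => by
    have := abs_lt.mp (hX y)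
    linarith
  have h2 : 0 < avg (fun y => 1 + X y) := avg_pos fun y => by
    have := abs_lt.mp (hX y)
    linarith
  rw [avg_sub, avg_const] at h1
  rw [avg_add, avg_const] at h2
  exact abs_lt.mpr ⟨by linarith, by linarith⟩

lemma avg_affine {n : ℕ} (X Z : Cube n → ℝ) (c₁ c₂ c₀ : ℝ) :
    avg (fun y => c₁ * X y + c₂ * Z y + c₀) = c₁ * avg X + c₂ * avg Z + c₀ := by
  rw [avg_add, avg_add, avg_mul_left, avg_mul_left, avg_const]

/-- `C1`: Jensen's inequality for `K`. -/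
theorem avg_K_ge_K_avg {n : ℕ} (X Z : Cube n → ℝ) (hX : ∀ y, |X y| < 1) (hZ : ∀ y, |Z y| < 1) :
    K (avg X) (avg Z) ≤ avg (fun y => K (X y) (Z y)) := by
  have ha := abs_lt.mp (abs_avg_lt hX)
  have hb := abs_lt.mp (abs_avg_lt hZ)
  obtain ⟨a, hadef⟩ : ∃ a, a = avg X := ⟨_, rfl⟩
  obtain ⟨b, hbdef⟩ : ∃ b, b = avg Z := ⟨_, rfl⟩
  rw [← hadef] at ha ⊢
  rw [← hbdef] at hb ⊢
  have hP : 0 < 1 + a := by linarith
  have hQ : 0 < 1 + b := by linarith
  have hP' : 0 < 1 - b := by linarith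
  have hQ' : 0 < 1 - a := by linarith
  obtain ⟨L₁, hL₁⟩ : ∃ L₁, L₁ = log (1 + a) - log (1 + b) := ⟨_, rfl⟩
  obtain ⟨L₂, hL₂⟩ : ∃ L₂, L₂ = log (1 - b) - log (1 - a) := ⟨_, rfl⟩
  obtain ⟨R, hR⟩ : ∃ R, R = (1 + a) / (1 + b) := ⟨_, rfl⟩
  obtain ⟨S, hS⟩ : ∃ S, S = (1 + b) / (1 + a) := ⟨_, rfl⟩
  obtain ⟨R', hR'⟩ : ∃ R', R' = (1 - b) / (1 - a) := ⟨_, rfl⟩
  obtain ⟨S', hS'⟩ : ∃ S', S' = (1 - a) / (1 - b) := ⟨_, rfl⟩
  have hpt : ∀ y, (1 / 2 * (L₁ + L₂ - S + R')) * X y + (1 / 2 * (-L₁ - L₂ - R + S')) * Z y +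
      (1 / 2 * ((2 - R - S) + (2 - R' - S'))) ≤ K (X y) (Z y) := by
    intro y
    have hx := abs_lt.mp (hX y)
    have hz := abs_lt.mp (hZ y)
    have h1 := phi_tangent (p := 1 + X y) (q := 1 + Z y) (by linarith) (by linarith) hP hQ
    have h2 := phi_tangent (p := 1 - Z y) (q := 1 - X y) (by linarith) (by linarith) hP' hQ'
    rw [← hL₁, ← hR, ← hS] at h1
    rw [← hL₂, ← hR', ← hS'] at h2
    rw [K_eq_phi]
    nlinarith
  have h := avg_le_avg hpt
  rw [avg_affine, ← hadef, ← hbdef] at h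
  refine le_trans (le_of_eq ?_) h
  have e1 : (1 + b) * R = 1 + a := by
    rw [hR]
    field_simp
  have e2 : (1 + a) * S = 1 + b := by
    rw [hS]
    field_simp
  have e3 : (1 - a) * R' = 1 - b := by
    rw [hR']
    field_simp
  have e4 : (1 - b) * S' = 1 - a := by
    rw [hS']
    field_simp
  rw [K_eq_phi, ← hL₁, ← hL₂]
  linear_combination (1 / 2) * e1 + (1 / 2) * e2 + (1 / 2) * e3 + (1 / 2) * e4

/-! ### Coordinates -/

lemma one_add_mul_pos {v r : ℝ} (hv : |v| < 1) (hr : |r| < 1) : 0 < 1 + v * r := by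
  have h : |v * r| < 1 := by
    rw [abs_mul]
    have := abs_nonneg v
    have := abs_nonneg r
    nlinarith
  have := abs_lt.mp h
  linarith

lemma one_sub_mul_pos {v r : ℝ} (hv : |v| < 1) (hr : |r| < 1) : 0 < 1 - v * r := by
  have h : |v * r| < 1 := by
    rw [abs_mul]
    have := abs_nonneg v
    have := abs_nonneg r
    nlinarith
  have := abs_lt.mp h
  linarith

/-- `A` of `a`, `b` in the coordinates `v, r`. -/
lemma A_add {v r : ℝ} (hv : |v| < 1) (hr : |r| < 1) : A ((v + r) / (1 + v * r)) = A v + A r := by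
  have hD := one_add_mul_pos hv hr
  have hv' := abs_lt.mp hv
  have hr' := abs_lt.mp hr
  have e1 : 1 + (v + r) / (1 + v * r) = (1 + v) * (1 + r) / (1 + v * r) := by
    field_simp
    ring
  have e2 : 1 - (v + r) / (1 + v * r) = (1 - v) * (1 - r) / (1 + v * r) := by
    field_simp
    ring
  unfold A
  rw [e1, e2, log_div (by
    have : 0 < (1 + v) * (1 + r) := mul_pos (by linarith) (by linarith)
    exact this.ne') hD.ne', log_div (by
    have : 0 < (1 - v) * (1 - r) := mul_pos (by linarith) (by linarith)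
    exact this.ne') hD.ne', log_mul (by linarith) (by linarith), log_mul (by linarith) (by linarith)]
  ring

lemma A_sub {v r : ℝ} (hv : |v| < 1) (hr : |r| < 1) : A ((v - r) / (1 - v * r)) = A v - A r := by
  have h := A_add (v := v) (r := -r) hv (by rwa [abs_neg])
  have e : (v + -r) / (1 + v * -r) = (v - r) / (1 - v * r) := by
    rw [show v + -r = v - r by ring, show 1 + v * -r = 1 - v * r by ring]
  rw [e, A_neg] at h
  rw [h]
  ring

lemma abs_coord_add_lt {v r : ℝ} (hv : |v| < 1) (hr : |r| < 1) : |(v + r) / (1 + v * r)| < 1 := by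
  have hD := one_add_mul_pos hv hr
  have hv' := abs_lt.mp hv
  have hr' := abs_lt.mp hr
  rw [abs_lt]
  constructor
  · rw [lt_div_iff₀ hD]
    nlinarith [mul_pos (show 0 < 1 + v by linarith) (show 0 < 1 + r by linarith)]
  · rw [div_lt_iff₀ hD]
    nlinarith [mul_pos (show 0 < 1 - v by linarith) (show 0 < 1 - r by linarith)]

lemma abs_coord_sub_lt {v r : ℝ} (hv : |v| < 1) (hr : |r| < 1) : |(v - r) / (1 - v * r)| < 1 := by
  have h := abs_coord_add_lt (v := v) (r := -r) hv (by rwa [abs_neg])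
  have e : (v + -r) / (1 + v * -r) = (v - r) / (1 - v * r) := by
    rw [show v + -r = v - r by ring, show 1 + v * -r = 1 - v * r by ring]
  rwa [e] at h

lemma exists_sq_form {a : ℝ} (ha : |a| < 1) : ∃ p, 0 < p ∧ a = (p ^ 2 - 1) / (p ^ 2 + 1) := by
  have h := abs_lt.mp ha
  have h1 : 0 < (1 + a) / (1 - a) := div_pos (by linarith) (by linarith)
  refine ⟨Real.sqrt ((1 + a) / (1 - a)), Real.sqrt_pos.mpr h1, ?_⟩
  rw [Real.sq_sqrt h1.le]
  have h2 : 1 - a ≠ 0 := by linarith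
  have e1 : (1 + a) / (1 - a) - 1 = 2 * a / (1 - a) := by
    field_simp
    ring
  have e2 : (1 + a) / (1 - a) + 1 = 2 / (1 - a) := by
    field_simp
    ring
  rw [e1, e2]
  field_simp

/-- The coordinates `v, r` exist. -/
theorem exists_vr {a b : ℝ} (ha : |a| < 1) (hb : |b| < 1) (hab : b < a) :
    ∃ v r, |v| < 1 ∧ 0 < r ∧ r < 1 ∧ a = (v + r) / (1 + v * r) ∧ b = (v - r) / (1 - v * r) := by
  obtain ⟨p, hp, rfl⟩ := exists_sq_form ha
  obtain ⟨p', hp', rfl⟩ := exists_sq_form hb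
  have hpp : p' < p := by
    by_contra hcon
    rw [not_lt] at hcon
    have h1 : p ^ 2 ≤ p' ^ 2 := by nlinarith
    have h2 : (p ^ 2 - 1) / (p ^ 2 + 1) ≤ (p' ^ 2 - 1) / (p' ^ 2 + 1) := by
      rw [div_le_div_iff₀ (by positivity) (by positivity)]
      nlinarith
    linarith
  have hv : |(p * p' - 1) / (p * p' + 1)| < 1 := by
    have h0 : 0 < p * p' := mul_pos hp hp'
    rw [abs_lt]
    constructor
    · rw [lt_div_iff₀ (by positivity)]
      nlinarith
    · rw [div_lt_iff₀ (by positivity)]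
      nlinarith
  refine ⟨(p * p' - 1) / (p * p' + 1), (p - p') / (p + p'), hv, div_pos (by linarith) (by positivity), ?_, ?_, ?_⟩
  · rw [div_lt_iff₀ (by positivity)]
    nlinarith
  · have h0 : p * p' + 1 ≠ 0 := by positivity
    have h1 : p + p' ≠ 0 := by positivity
    have h2 : p ^ 2 + 1 ≠ 0 := by positivity
    have e : 1 + (p * p' - 1) / (p * p' + 1) * ((p - p') / (p + p')) =
        2 * p' * (p ^ 2 + 1) / ((p * p' + 1) * (p + p')) := by
      field_simp
      ring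
    have e' : (p * p' - 1) / (p * p' + 1) + (p - p') / (p + p') =
        2 * p' * (p ^ 2 - 1) / ((p * p' + 1) * (p + p')) := by
      field_simp
      ring
    rw [e, e']
    have h3 : p' ≠ 0 := hp'.ne'
    field_simp
  · have h0 : p * p' + 1 ≠ 0 := by positivity
    have h1 : p + p' ≠ 0 := by positivity
    have h2 : p' ^ 2 + 1 ≠ 0 := by positivity
    have e : 1 - (p * p' - 1) / (p * p' + 1) * ((p - p') / (p + p')) =
        2 * p * (p' ^ 2 + 1) / ((p * p' + 1) * (p + p')) := by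
      field_simp
      ring
    have e' : (p * p' - 1) / (p * p' + 1) - (p - p') / (p + p') =
        2 * p * (p' ^ 2 - 1) / ((p * p' + 1) * (p + p')) := by
      field_simp
      ring
    rw [e, e']
    have h3 : p ≠ 0 := hp.ne'
    field_simp

/-- The sign of `v` is the sign of `a + b`. -/
lemma v_nonneg_of {v r : ℝ} (hv : |v| < 1) (hr0 : 0 < r) (hr1 : r < 1)
    (h : 0 ≤ (v + r) / (1 + v * r) + (v - r) / (1 - v * r)) : 0 ≤ v := by
  have hr : |r| < 1 := abs_lt.mpr ⟨by linarith, hr1⟩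
  have h1 := one_add_mul_pos hv hr
  have h2 := one_sub_mul_pos hv hr
  have e : (v + r) / (1 + v * r) + (v - r) / (1 - v * r) =
      2 * v * (1 - r ^ 2) / ((1 + v * r) * (1 - v * r)) := by
    field_simp
    ring
  rw [e] at h
  have h3 : 0 < (1 + v * r) * (1 - v * r) := mul_pos h1 h2
  have h4 : 0 ≤ 2 * v * (1 - r ^ 2) := by
    have := (div_nonneg_iff.mp h)
    rcases this with ⟨h5, _⟩ | ⟨_, h6⟩
    · exact h5
    · linarith
  have h5 : 0 < 1 - r ^ 2 := by nlinarith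
  by_contra hcon
  rw [not_le] at hcon
  nlinarith

/-! ### The function `G` in `cert_L1` -/

/-- The function `G` of the blueprint, in a form continuous on `[0, 1]`. -/
noncomputable def GG (q v : ℝ) : ℝ :=
  v ^ 2 * (1 - q) / (1 - v ^ 2 * q) * (2 * log 2 - log (1 - q)) -
    (1 + v * q) / (1 - v ^ 2 * q) * ((1 - v) * log (1 - v)) -
    (1 + v * (1 - q) / (1 - v ^ 2 * q)) * log (1 + v) + log (1 - v ^ 2 * q)

/-- The bracket in the derivative of `GG`. -/
noncomputable def BB (q v : ℝ) : ℝ := (2 * log 2 - log (1 - q)) * v - (1 + v ^ 2 * q) * A v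

lemma GG_zero (q : ℝ) : GG q 0 = 0 := by
  unfold GG
  simp

lemma GG_one {q : ℝ} (hq1 : q < 1) : GG q 1 = 0 := by
  unfold GG
  have h : 1 - q ≠ 0 := by linarith
  norm_num
  field_simp
  ring

lemma D_pos {q v : ℝ} (hq0 : 0 ≤ q) (hq1 : q < 1) (hv0 : 0 ≤ v) (hv1 : v ≤ 1) :
    0 < 1 - v ^ 2 * q := by
  have h : v ^ 2 ≤ 1 := by nlinarith
  nlinarith

lemma continuousOn_GG {q : ℝ} (hq0 : 0 ≤ q) (hq1 : q < 1) : ContinuousOn (GG q) (Icc 0 1) := by
  have hD : ∀ v ∈ Icc (0 : ℝ) 1, 1 - v ^ 2 * q ≠ 0 := fun v hv => (D_pos hq0 hq1 hv.1 hv.2).ne'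
  have hL : Continuous (fun v : ℝ => (1 - v) * log (1 - v)) :=
    Real.continuous_mul_log.comp (continuous_const.sub continuous_id)
  unfold GG
  refine ContinuousOn.add (ContinuousOn.sub (ContinuousOn.sub ?_ ?_) ?_) ?_
  · refine ContinuousOn.mul (ContinuousOn.div (by fun_prop) (by fun_prop) hD) continuousOn_const
  · refine ContinuousOn.mul (ContinuousOn.div (by fun_prop) (by fun_prop) hD) hL.continuousOn
  · refine ContinuousOn.mul (ContinuousOn.add continuousOn_const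
      (ContinuousOn.div (by fun_prop) (by fun_prop) hD)) ?_
    refine ContinuousOn.log (by fun_prop) ?_
    intro v hv
    have := hv.1
    linarith
  · exact ContinuousOn.log (by fun_prop) hD

lemma hasDerivAt_GG {q v : ℝ} (hq0 : 0 ≤ q) (hq1 : q < 1) (hv0 : 0 < v) (hv1 : v < 1) :
    HasDerivAt (GG q) (2 * (1 - q) / (1 - v ^ 2 * q) ^ 2 * BB q v) v := by
  have hD := D_pos hq0 hq1 hv0.le hv1.le
  have h1v : 0 < 1 - v := by linarith
  have h1v' : 0 < 1 + v := by linarith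
  have hd : HasDerivAt (fun t : ℝ => 1 - t ^ 2 * q) (-(2 * v * q)) v := by
    have := (((hasDerivAt_id v).pow 2).mul_const q).const_sub 1
    simpa using this
  have hτ : HasDerivAt (fun t : ℝ => t ^ 2 * (1 - q) / (1 - t ^ 2 * q))
      (2 * v * (1 - q) / (1 - v ^ 2 * q) ^ 2) v := by
    have h2 : HasDerivAt (fun t : ℝ => t ^ 2 * (1 - q)) (2 * v * (1 - q)) v := by
      have := ((hasDerivAt_id v).pow 2).mul_const (1 - q)
      simpa using this
    have := h2.div hd hD.ne'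
    refine this.congr_deriv ?_
    field_simp
    ring
  have hk : HasDerivAt (fun t : ℝ => (1 + t * q) / (1 - t ^ 2 * q))
      (q * (1 + 2 * v + v ^ 2 * q) / (1 - v ^ 2 * q) ^ 2) v := by
    have h2 : HasDerivAt (fun t : ℝ => 1 + t * q) q v := by
      have := ((hasDerivAt_id v).mul_const q).const_add 1
      simpa using this
    have := h2.div hd hD.ne'
    refine this.congr_deriv ?_
    field_simp
    ring
  have hm : HasDerivAt (fun t : ℝ => t * (1 - q) / (1 - t ^ 2 * q))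
      ((1 - q) * (1 + v ^ 2 * q) / (1 - v ^ 2 * q) ^ 2) v := by
    have h2 : HasDerivAt (fun t : ℝ => t * (1 - q)) (1 - q) v := by
      have := (hasDerivAt_id v).mul_const (1 - q)
      simpa using this
    have := h2.div hd hD.ne'
    refine this.congr_deriv ?_
    field_simp
    ring
  have hlog1 : HasDerivAt (fun t : ℝ => log (1 - t)) (-(1 / (1 - v))) v := by
    have h2 : HasDerivAt (fun t : ℝ => 1 - t) (-1) v := by
      have := (hasDerivAt_id v).const_sub 1
      simpa using this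
    have := h2.log h1v.ne'
    refine this.congr_deriv ?_
    field_simp
  have hlog2 : HasDerivAt (fun t : ℝ => log (1 + t)) (1 / (1 + v)) v := by
    have h2 : HasDerivAt (fun t : ℝ => 1 + t) 1 v := by
      have := (hasDerivAt_id v).const_add 1
      simpa using this
    have := h2.log h1v'.ne'
    refine this.congr_deriv ?_
    field_simp
  have hg : HasDerivAt (fun t : ℝ => (1 - t) * log (1 - t)) (-log (1 - v) - 1) v := by
    have h2 : HasDerivAt (fun t : ℝ => 1 - t) (-1) v := by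
      have := (hasDerivAt_id v).const_sub 1
      simpa using this
    have := h2.mul hlog1
    refine this.congr_deriv ?_
    field_simp
    ring
  have hlogD : HasDerivAt (fun t : ℝ => log (1 - t ^ 2 * q)) (-(2 * v * q) / (1 - v ^ 2 * q)) v :=
    hd.log hD.ne'
  have hall := (((hτ.mul_const (2 * log 2 - log (1 - q))).sub (hk.mul hg)).sub
    ((hm.const_add 1).mul hlog2)).add hlogD
  refine hall.congr_deriv ?_
  unfold BB A
  field_simp
  ring

lemma A_mul_le {u v : ℝ} (hu : 0 < u) (huv : u ≤ v) (hv1 : v < 1) : A u * v ≤ A v * u := by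
  have hmono : MonotoneOn (fun t => A t / t) (Ioo 0 1) := by
    refine monotoneOn_of_deriv_nonneg (convex_Ioo 0 1) ?_ ?_ ?_
    · intro t ht
      have h1 : |t| < 1 := abs_lt.mpr ⟨by linarith [ht.1], ht.2⟩
      exact ((hasDerivAt_A h1).continuousAt.continuousWithinAt).div
        continuousWithinAt_id ht.1.ne'
    · rw [interior_Ioo]
      intro t ht
      have h1 : |t| < 1 := abs_lt.mpr ⟨by linarith [ht.1], ht.2⟩
      exact (((hasDerivAt_A h1).div (hasDerivAt_id t) ht.1.ne').differentiableAt).differentiableWithinAt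
    · rw [interior_Ioo]
      intro t ht
      have h1 : |t| < 1 := abs_lt.mpr ⟨by linarith [ht.1], ht.2⟩
      have hd := (hasDerivAt_A h1).div (hasDerivAt_id t) ht.1.ne'
      have : deriv (fun t => A t / t) t = _ := hd.deriv
      rw [this]
      have h2 := A_le ht.1.le ht.2
      have h3 : 0 < 1 - t ^ 2 := by nlinarith [ht.1, ht.2]
      have e : (1 / (1 - t ^ 2) * id t - A t * 1) / id t ^ 2 = (t / (1 - t ^ 2) - A t) / t ^ 2 := by
        simp only [id]
        ring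
      rw [e]
      apply div_nonneg
      · linarith
      · positivity
  have h := hmono (⟨hu, by linarith⟩ : u ∈ Ioo (0 : ℝ) 1) (⟨by linarith, hv1⟩ : v ∈ Ioo (0 : ℝ) 1) huv
  simp only at h
  have hv0 : 0 < v := by linarith
  rwa [div_le_div_iff₀ hu hv0] at h

lemma BB_compare {q u v : ℝ} (hq0 : 0 ≤ q) (hu : 0 < u) (huv : u ≤ v) (hv1 : v < 1) :
    BB q v * u ≤ BB q u * v := by
  have h1 := A_mul_le hu huv hv1
  have hAv : 0 ≤ A v := (A_pos (by linarith) hv1).le
  have h2 : 1 + u ^ 2 * q ≤ 1 + v ^ 2 * q := by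
    have : u ^ 2 ≤ v ^ 2 := by nlinarith
    nlinarith
  have h3 : (1 + u ^ 2 * q) * (A u * v) ≤ (1 + v ^ 2 * q) * (A v * u) := by
    have h4 : 0 ≤ A v * u := mul_nonneg hAv hu.le
    have h5 : 0 ≤ 1 + u ^ 2 * q := by positivity
    calc (1 + u ^ 2 * q) * (A u * v) ≤ (1 + u ^ 2 * q) * (A v * u) :=
          mul_le_mul_of_nonneg_left h1 h5
      _ ≤ (1 + v ^ 2 * q) * (A v * u) := mul_le_mul_of_nonneg_right h2 h4
  unfold BB
  nlinarith

lemma GG_nonneg {q v : ℝ} (hq0 : 0 ≤ q) (hq1 : q < 1) (hv0 : 0 ≤ v) (hv1 : v ≤ 1) : 0 ≤ GG q v := by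
  rcases eq_or_lt_of_le hv0 with rfl | hv0'
  · rw [GG_zero]
  rcases eq_or_lt_of_le hv1 with rfl | hv1'
  · rw [GG_one hq1]
  have hcont := continuousOn_GG hq0 hq1
  have hq' : 0 < 1 - q := by linarith
  by_cases hB : 0 ≤ BB q v
  · have hmono : MonotoneOn (GG q) (Icc 0 v) := by
      refine monotoneOn_of_deriv_nonneg (convex_Icc 0 v) (hcont.mono (Icc_subset_Icc_right hv1)) ?_ ?_
      · rw [interior_Icc]
        intro t ht
        exact (hasDerivAt_GG hq0 hq1 ht.1 (by linarith [ht.2])).differentiableAt.differentiableWithinAt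
      · rw [interior_Icc]
        intro t ht
        rw [(hasDerivAt_GG hq0 hq1 ht.1 (by linarith [ht.2])).deriv]
        have h1 := BB_compare hq0 ht.1 ht.2.le hv1'
        have h2 : 0 ≤ BB q t := by
          by_contra hcon
          rw [not_le] at hcon
          have h3 : BB q t * v < 0 := mul_neg_of_neg_of_pos hcon hv0'
          have h4 : 0 ≤ BB q v * t := mul_nonneg hB ht.1.le
          linarith
        positivity
    have := hmono (left_mem_Icc.mpr hv0) (right_mem_Icc.mpr hv0) hv0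
    rwa [GG_zero] at this
  · rw [not_le] at hB
    have hanti : AntitoneOn (GG q) (Icc v 1) := by
      refine antitoneOn_of_deriv_nonpos (convex_Icc v 1) (hcont.mono (Icc_subset_Icc_left hv0)) ?_ ?_
      · rw [interior_Icc]
        intro t ht
        exact (hasDerivAt_GG hq0 hq1 (by linarith [ht.1]) ht.2).differentiableAt.differentiableWithinAt
      · rw [interior_Icc]
        intro t ht
        have ht0 : 0 < t := by linarith [ht.1]
        rw [(hasDerivAt_GG hq0 hq1 ht0 ht.2).deriv]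
        have h1 := BB_compare hq0 hv0' ht.1.le ht.2
        have h2 : BB q t ≤ 0 := by
          by_contra hcon
          rw [not_le] at hcon
          have h3 : 0 < BB q t * v := mul_pos hcon hv0'
          have h4 : BB q v * t < 0 := mul_neg_of_neg_of_pos hB ht0
          linarith
        have h5 : 0 ≤ 2 * (1 - q) / (1 - t ^ 2 * q) ^ 2 := by positivity
        exact mul_nonpos_of_nonneg_of_nonpos h5 h2
    have := hanti (left_mem_Icc.mpr hv1) (right_mem_Icc.mpr hv1) hv1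
    rwa [GG_one hq1] at this

lemma GG_formula {v r : ℝ} (hv0 : 0 ≤ v) (hv1 : v < 1) (hr0 : 0 < r) (hr1 : r < 1) :
    2 * ((ent ((v + r) / (1 + v * r)) + ent ((v - r) / (1 - v * r))) / 2 -
      (1 - v ^ 2) / (1 - v ^ 2 * r ^ 2) * ent r) = GG (r ^ 2) v := by
  have hv : |v| < 1 := abs_lt.mpr ⟨by linarith, hv1⟩
  have hr : |r| < 1 := abs_lt.mpr ⟨by linarith, hr1⟩
  have hp := one_add_mul_pos hv hr
  have hm := one_sub_mul_pos hv hr
  have hq : 0 < 1 - r ^ 2 := by nlinarith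
  have hV : 0 < 1 - v ^ 2 := by nlinarith
  have hD : 0 < 1 - v ^ 2 * r ^ 2 := by
    have e : 1 - v ^ 2 * r ^ 2 = (1 + v * r) * (1 - v * r) := by ring
    rw [e]
    exact mul_pos hp hm
  have h1v : 0 < 1 - v := by linarith
  have h1v' : 0 < 1 + v := by linarith
  obtain ⟨a, ha⟩ : ∃ a, a = (v + r) / (1 + v * r) := ⟨_, rfl⟩
  obtain ⟨b, hb⟩ : ∃ b, b = (v - r) / (1 - v * r) := ⟨_, rfl⟩
  have haabs : |a| < 1 := ha ▸ abs_coord_add_lt hv hr
  have hbabs : |b| < 1 := hb ▸ abs_coord_sub_lt hv hr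
  have hAa : A a = A v + A r := ha ▸ A_add hv hr
  have hAb : A b = A v - A r := hb ▸ A_sub hv hr
  have e1a : 1 - a ^ 2 = (1 - v ^ 2) * (1 - r ^ 2) / (1 + v * r) ^ 2 := by
    rw [ha]
    field_simp
    ring
  have e1b : 1 - b ^ 2 = (1 - v ^ 2) * (1 - r ^ 2) / (1 - v * r) ^ 2 := by
    rw [hb]
    field_simp
    ring
  have hla : log (1 - a ^ 2) = log (1 - v ^ 2) + log (1 - r ^ 2) - 2 * log (1 + v * r) := by
    rw [e1a, log_div (mul_pos hV hq).ne' (by positivity), log_mul hV.ne' hq.ne', log_pow]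
    norm_num
  have hlb : log (1 - b ^ 2) = log (1 - v ^ 2) + log (1 - r ^ 2) - 2 * log (1 - v * r) := by
    rw [e1b, log_div (mul_pos hV hq).ne' (by positivity), log_mul hV.ne' hq.ne', log_pow]
    norm_num
  have e6 : log (1 + v * r) + log (1 - v * r) = log (1 - v ^ 2 * r ^ 2) := by
    rw [← log_mul hp.ne' hm.ne']
    congr 1
    ring
  have e7 : log (1 - v ^ 2) = log (1 - v) + log (1 + v) := by
    rw [← log_mul h1v.ne' h1v'.ne']
    congr 1
    ring
  have e8 : A v = (log (1 + v) - log (1 - v)) / 2 := rfl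
  obtain ⟨m, hmdef⟩ : ∃ m, m = v * (1 - r ^ 2) / (1 - v ^ 2 * r ^ 2) := ⟨_, rfl⟩
  obtain ⟨β, hβ⟩ : ∃ β, β = (1 - v ^ 2) / (1 - v ^ 2 * r ^ 2) := ⟨_, rfl⟩
  obtain ⟨τ, hτ⟩ : ∃ τ, τ = v ^ 2 * (1 - r ^ 2) / (1 - v ^ 2 * r ^ 2) := ⟨_, rfl⟩
  obtain ⟨k, hk⟩ : ∃ k, k = (1 + v * r ^ 2) / (1 - v ^ 2 * r ^ 2) := ⟨_, rfl⟩
  have e4 : a + b = 2 * m := by
    rw [ha, hb, hmdef]
    have e : 1 - v ^ 2 * r ^ 2 = (1 + v * r) * (1 - v * r) := by ring
    rw [e]
    field_simp
    ring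
  have e5 : a - b = 2 * β * r := by
    rw [ha, hb, hβ]
    have e : 1 - v ^ 2 * r ^ 2 = (1 + v * r) * (1 - v * r) := by ring
    rw [e]
    field_simp
    ring
  have e9 : 1 - β = τ := by
    rw [hβ, hτ]
    field_simp
    ring
  have e10 : k * (1 - v) = 1 - m := by
    rw [hk, hmdef]
    field_simp
    ring
  have ha' := ent_formula haabs
  have hb' := ent_formula hbabs
  have hr' := ent_formula hr
  rw [← ha, ← hb, ← hβ]
  unfold GG
  rw [← hτ, ← hk, ← hmdef, ha', hb', hr', hAa, hAb, hla, hlb]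
  linear_combination (-A v) * e4 + (-A r) * e5 + e6 - e7 + (-2 * m) * e8 +
    (2 * log 2 - log (1 - r ^ 2)) * e9 + (log (1 - v)) * e10

lemma cert_L1_aux {v r : ℝ} (hv0 : 0 ≤ v) (hv1 : v < 1) (hr0 : 0 < r) (hr1 : r < 1) :
    (1 - v ^ 2) / (1 - v ^ 2 * r ^ 2) * ent r ≤
      (ent ((v + r) / (1 + v * r)) + ent ((v - r) / (1 - v * r))) / 2 := by
  have h := GG_formula hv0 hv1 hr0 hr1
  have h2 := GG_nonneg (q := r ^ 2) (v := v) (by positivity) (by nlinarith) hv0 hv1.le
  linarith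

/-- `L1`: for `b < a`, `h̄(a,b) ≥ (d/r) h(r)`, where `r = tanh ((w a - w b)/2)`, `d = (a-b)/2`.
The statement is in the coordinates `a = (v+r)/(1+vr)`, `b = (v-r)/(1-vr)`. -/
theorem cert_L1 {v r : ℝ} (hv : |v| < 1) (hr0 : 0 < r) (hr1 : r < 1) :
    (1 - v ^ 2) / (1 - v ^ 2 * r ^ 2) * ent r ≤
      (ent ((v + r) / (1 + v * r)) + ent ((v - r) / (1 - v * r))) / 2 := by
  rcases le_or_gt 0 v with hv0 | hv0
  · exact cert_L1_aux hv0 (abs_lt.mp hv).2 hr0 hr1
  · have h := cert_L1_aux (v := -v) (r := r) (by linarith) (by linarith [(abs_lt.mp hv).1]) hr0 hr1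
    have e1 : (-v + r) / (1 + -v * r) = -((v - r) / (1 - v * r)) := by
      rw [← neg_div]
      congr 1 <;> ring
    have e2 : (-v - r) / (1 - -v * r) = -((v + r) / (1 + v * r)) := by
      rw [← neg_div]
      congr 1 <;> ring
    rw [e1, e2, ent_symm, ent_symm, neg_sq] at h
    linarith

/-! ### `L2` -/

lemma c3_eq_inv (t : ℝ) :
    c3 t = ((1 - t ^ 2) * Lf t / t ^ 2)⁻¹ := by
  unfold c3
  rw [inv_div]

lemma Lf_ge_log_two {t : ℝ} (ht0 : 0 < t) (ht1 : t < 1) : log 2 ≤ Lf t := by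
  have ht : |t| < 1 := abs_lt.mpr ⟨by linarith, ht1⟩
  rw [Lf_eq ht]
  have h1 : 0 < 1 - t ^ 2 := by nlinarith
  have h2 : log (1 - t ^ 2) ≤ 0 := log_nonpos h1.le (by nlinarith)
  linarith

lemma hasDerivAt_FF {t : ℝ} (ht0 : 0 < t) (ht1 : t < 1) :
    HasDerivAt (fun s => (1 - s ^ 2) * Lf s / s ^ 2) ((t ^ 2 - 2 * Lf t) / t ^ 3) t := by
  have ht : |t| < 1 := abs_lt.mpr ⟨by linarith, ht1⟩
  have h1 : 0 < 1 - t ^ 2 := by nlinarith
  have h2 : HasDerivAt (fun s : ℝ => 1 - s ^ 2) (-(2 * t)) t := by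
    have := ((hasDerivAt_id t).pow 2).const_sub 1
    simpa using this
  have h3 : HasDerivAt (fun s : ℝ => s ^ 2) (2 * t) t := by
    have := hasDerivAt_pow 2 t
    simpa using this
  have h4 := (h2.mul (hasDerivAt_Lf ht)).div h3 (by positivity)
  refine h4.congr_deriv ?_
  simp only [Pi.mul_apply]
  field_simp
  ring

lemma FF_anti : AntitoneOn (fun s => (1 - s ^ 2) * Lf s / s ^ 2) (Ioo 0 1) := by
  refine antitoneOn_of_deriv_nonpos (convex_Ioo 0 1) ?_ ?_ ?_
  · intro t ht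
    exact (hasDerivAt_FF ht.1 ht.2).continuousAt.continuousWithinAt
  · rw [interior_Ioo]
    intro t ht
    exact (hasDerivAt_FF ht.1 ht.2).differentiableAt.differentiableWithinAt
  · rw [interior_Ioo]
    intro t ht
    rw [(hasDerivAt_FF ht.1 ht.2).deriv]
    have h1 := Lf_ge_log_two ht.1 ht.2
    have h2 := Real.log_two_gt_d9
    have h3 : t ^ 2 ≤ 1 := by nlinarith [ht.1, ht.2]
    apply div_nonpos_of_nonpos_of_nonneg
    · linarith
    · have := ht.1
      positivity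

lemma FF_pos {t : ℝ} (ht0 : 0 < t) (ht1 : t < 1) : 0 < (1 - t ^ 2) * Lf t / t ^ 2 := by
  have ht : |t| < 1 := abs_lt.mpr ⟨by linarith, ht1⟩
  have h1 : 0 < 1 - t ^ 2 := by nlinarith
  have h2 := Lf_pos ht
  positivity

lemma c3_mono {s t : ℝ} (hs0 : 0 < s) (hst : s ≤ t) (ht1 : t < 1) : c3 s ≤ c3 t := by
  have hs1 : s < 1 := by linarith
  have ht0 : 0 < t := by linarith
  rw [c3_eq_inv s, c3_eq_inv t]
  exact inv_anti₀ (FF_pos ht0 ht1) (FF_anti (⟨hs0, hs1⟩ : s ∈ Ioo (0 : ℝ) 1) ⟨ht0, ht1⟩ hst)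

lemma hasDerivAt_ell {c t : ℝ} (ht0 : 0 < t) (ht1 : t < 1) :
    HasDerivAt (fun s => A s + c * ent s / s) (1 / (1 - t ^ 2) - c * Lf t / t ^ 2) t := by
  have ht : |t| < 1 := abs_lt.mpr ⟨by linarith, ht1⟩
  have h1 := ((hasDerivAt_ent ht).const_mul c).div (hasDerivAt_id t) ht0.ne'
  have h2 := (hasDerivAt_A ht).add h1
  refine h2.congr_deriv ?_
  unfold Lf
  simp only [id]
  field_simp
  ring

/-- The sign of the derivative of `ℓ`. -/
lemma ell_deriv_nonpos {c t : ℝ} (ht0 : 0 < t) (ht1 : t < 1) (h : c3 t ≤ c) :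
    1 / (1 - t ^ 2) - c * Lf t / t ^ 2 ≤ 0 := by
  have ht : |t| < 1 := abs_lt.mpr ⟨by linarith, ht1⟩
  have h1 : 0 < 1 - t ^ 2 := by nlinarith
  have h2 := Lf_pos ht
  have e : 1 / (1 - t ^ 2) = c3 t * Lf t / t ^ 2 := by
    unfold c3
    field_simp
  rw [e]
  have h3 : c3 t * Lf t / t ^ 2 ≤ c * Lf t / t ^ 2 := by
    apply div_le_div_of_nonneg_right _ (by positivity)
    exact mul_le_mul_of_nonneg_right h h2.le
  linarith

lemma ell_deriv_nonneg {c t : ℝ} (ht0 : 0 < t) (ht1 : t < 1) (h : c ≤ c3 t) :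
    0 ≤ 1 / (1 - t ^ 2) - c * Lf t / t ^ 2 := by
  have ht : |t| < 1 := abs_lt.mpr ⟨by linarith, ht1⟩
  have h1 : 0 < 1 - t ^ 2 := by nlinarith
  have h2 := Lf_pos ht
  have e : 1 / (1 - t ^ 2) = c3 t * Lf t / t ^ 2 := by
    unfold c3
    field_simp
  rw [e]
  have h3 : c * Lf t / t ^ 2 ≤ c3 t * Lf t / t ^ 2 := by
    apply div_le_div_of_nonneg_right _ (by positivity)
    exact mul_le_mul_of_nonneg_right h h2.le
  linarith

/-- `L2`: `w(t) + c₃(ρ) h(t)/t` is minimized at `t = ρ`. -/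
theorem cert_L2 {ρ t : ℝ} (hρ0 : 0 < ρ) (hρ1 : ρ < 1) (ht0 : 0 < t) (ht1 : t < 1) :
    A ρ + c3 ρ * ent ρ / ρ ≤ A t + c3 ρ * ent t / t := by
  rcases le_total t ρ with h | h
  · have hanti : AntitoneOn (fun s => A s + c3 ρ * ent s / s) (Icc t ρ) := by
      refine antitoneOn_of_deriv_nonpos (convex_Icc t ρ) ?_ ?_ ?_
      · intro s hs
        exact (hasDerivAt_ell (by linarith [hs.1]) (by linarith [hs.2])).continuousAt.continuousWithinAt
      · rw [interior_Icc]
        intro s hs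
        exact (hasDerivAt_ell (by linarith [hs.1]) (by linarith [hs.2])).differentiableAt.differentiableWithinAt
      · rw [interior_Icc]
        intro s hs
        have hs0 : 0 < s := by linarith [hs.1]
        have hs1 : s < 1 := by linarith [hs.2]
        rw [(hasDerivAt_ell hs0 hs1).deriv]
        exact ell_deriv_nonpos hs0 hs1 (c3_mono hs0 hs.2.le hρ1)
    exact hanti (left_mem_Icc.mpr h) (right_mem_Icc.mpr h) h
  · have hmono : MonotoneOn (fun s => A s + c3 ρ * ent s / s) (Icc ρ t) := by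
      refine monotoneOn_of_deriv_nonneg (convex_Icc ρ t) ?_ ?_ ?_
      · intro s hs
        exact (hasDerivAt_ell (by linarith [hs.1]) (by linarith [hs.2])).continuousAt.continuousWithinAt
      · rw [interior_Icc]
        intro s hs
        exact (hasDerivAt_ell (by linarith [hs.1]) (by linarith [hs.2])).differentiableAt.differentiableWithinAt
      · rw [interior_Icc]
        intro s hs
        have hs0 : 0 < s := by linarith [hs.1]
        have hs1 : s < 1 := by linarith [hs.2]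
        rw [(hasDerivAt_ell hs0 hs1).deriv]
        exact ell_deriv_nonneg hs0 hs1 (c3_mono hρ0 hs.1.le hs1)
    exact hmono (left_mem_Icc.mpr h) (right_mem_Icc.mpr h) h

/-! ### `C2` -/

lemma c3_nonneg {ρ : ℝ} (hρ0 : 0 < ρ) (hρ1 : ρ < 1) : 0 ≤ c3 ρ := by
  have ht : |ρ| < 1 := abs_lt.mpr ⟨by linarith, hρ1⟩
  have h1 : 0 < 1 - ρ ^ 2 := by nlinarith
  have h2 := Lf_pos ht
  unfold c3
  positivity

lemma c2_nonneg {ρ : ℝ} (hρ0 : 0 < ρ) (hρ1 : ρ < 1) : 0 ≤ c2 ρ := by
  have ht : |ρ| < 1 := abs_lt.mpr ⟨by linarith, hρ1⟩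
  have h1 := c3_nonneg hρ0 hρ1
  have h2 := A_pos hρ0 hρ1
  have h3 := (ent_pos ht).le
  unfold c2
  positivity

lemma cert_pointwise_aux {a b ρ : ℝ} (ha : |a| < 1) (hb : |b| < 1) (hρ0 : 0 < ρ) (hρ1 : ρ < 1)
    (hab : b < a) :
    c2 ρ * ((a - b) / 2) - c3 ρ * ((ent a + ent b) / 2) ≤ K a b / 4 := by
  obtain ⟨v, r, hv, hr0, hr1, rfl, rfl⟩ := exists_vr ha hb hab
  have hr : |r| < 1 := abs_lt.mpr ⟨by linarith, hr1⟩
  have hL1 := cert_L1 hv hr0 hr1
  have hL2 := cert_L2 hρ0 hρ1 hr0 hr1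
  have hc3 := c3_nonneg hρ0 hρ1
  have hp := one_add_mul_pos hv hr
  have hm := one_sub_mul_pos hv hr
  have hD : 0 < 1 - v ^ 2 * r ^ 2 := by
    have e : 1 - v ^ 2 * r ^ 2 = (1 + v * r) * (1 - v * r) := by ring
    rw [e]
    exact mul_pos hp hm
  have hV : 0 < 1 - v ^ 2 := by
    have := abs_lt.mp hv
    nlinarith
  obtain ⟨β, hβ⟩ : ∃ β, β = (1 - v ^ 2) / (1 - v ^ 2 * r ^ 2) := ⟨_, rfl⟩
  have hβ0 : 0 < β := by
    rw [hβ]
    positivity
  rw [← hβ] at hL1
  have e5 : ((v + r) / (1 + v * r) - (v - r) / (1 - v * r)) / 2 = β * r := by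
    rw [hβ]
    have e : 1 - v ^ 2 * r ^ 2 = (1 + v * r) * (1 - v * r) := by ring
    rw [e]
    field_simp
    ring
  have hK : K ((v + r) / (1 + v * r)) ((v - r) / (1 - v * r)) / 4 = β * r * A r := by
    unfold K
    rw [A_add hv hr, A_sub hv hr]
    have e6 : (v + r) / (1 + v * r) - (v - r) / (1 - v * r) = 2 * (β * r) := by
      rw [← e5]
      ring
    rw [e6]
    ring
  rw [e5, hK]
  have h1 : c3 ρ * (β * ent r) ≤ c3 ρ *
      ((ent ((v + r) / (1 + v * r)) + ent ((v - r) / (1 - v * r))) / 2) :=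
    mul_le_mul_of_nonneg_left hL1 hc3
  have h2 : c2 ρ * (β * r) ≤ (A r + c3 ρ * ent r / r) * (β * r) := by
    apply mul_le_mul_of_nonneg_right _ (by positivity)
    unfold c2
    exact hL2
  have e7 : (A r + c3 ρ * ent r / r) * (β * r) = β * r * A r + c3 ρ * (β * ent r) := by
    field_simp
  linarith

/-- `C2`, pointwise. -/
theorem cert_pointwise {a b ρ : ℝ} (ha : |a| < 1) (hb : |b| < 1) (hρ0 : 0 < ρ) (hρ1 : ρ < 1) :
    c2 ρ * (|a - b| / 2) - c3 ρ * ((ent a + ent b) / 2) ≤ K a b / 4 := by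
  rcases lt_trichotomy b a with h | h | h
  · rw [abs_of_pos (by linarith)]
    exact cert_pointwise_aux ha hb hρ0 hρ1 h
  · subst h
    have h1 := c3_nonneg hρ0 hρ1
    have h2 := (ent_pos ha).le
    have h3 : K b b = 0 := by
      unfold K
      ring
    rw [h3, sub_self, abs_zero]
    have h4 : 0 ≤ c3 ρ * ((ent b + ent b) / 2) := by positivity
    have h5 : (0 : ℝ) / 4 = 0 := by norm_num
    rw [h5]
    simp only [zero_div, mul_zero]
    linarith
  · rw [abs_of_neg (by linarith)]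
    have := cert_pointwise_aux hb ha hρ0 hρ1 h
    rw [K_symm]
    have e : -(a - b) = b - a := by ring
    rw [e, add_comm (ent a)]
    exact this

lemma avg_half {n : ℕ} (g : Cube n → ℝ) : avg (fun y => g y / 2) = avg g / 2 := by
  have : (fun y => g y / 2) = fun y => (1 / 2) * g y := by
    funext y
    ring
  rw [this, avg_mul_left]
  ring

/-- `C2`, averaged. -/
theorem avg_K_ge_cert {n : ℕ} (X Z : Cube n → ℝ) (hX : ∀ y, |X y| < 1) (hZ : ∀ y, |Z y| < 1)
    {ρ : ℝ} (hρ0 : 0 < ρ) (hρ1 : ρ < 1) :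
    c2 ρ * (|avg X - avg Z| / 2) -
        c3 ρ * ((avg (fun y => ent (X y)) + avg (fun y => ent (Z y))) / 2) ≤
      avg (fun y => K (X y) (Z y)) / 4 := by
  have h := avg_le_avg (fun y => cert_pointwise (hX y) (hZ y) hρ0 hρ1)
  have e1 : avg (fun y => c2 ρ * (|X y - Z y| / 2) - c3 ρ * ((ent (X y) + ent (Z y)) / 2)) =
      c2 ρ * (avg (fun y => |X y - Z y|) / 2) -
        c3 ρ * ((avg (fun y => ent (X y)) + avg (fun y => ent (Z y))) / 2) := by
    rw [avg_sub, avg_mul_left, avg_mul_left, avg_half (fun y => |X y - Z y|),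
      avg_half (fun y => ent (X y) + ent (Z y)), avg_add]
  have e2 : avg (fun y => K (X y) (Z y) / 4) = avg (fun y => K (X y) (Z y)) / 4 := by
    have : (fun y => K (X y) (Z y) / 4) = fun y => (1 / 4) * K (X y) (Z y) := by
      funext y
      ring
    rw [this, avg_mul_left]
    ring
  rw [e1, e2] at h
  have h3 : |avg X - avg Z| ≤ avg (fun y => |X y - Z y|) := by
    rw [← avg_sub]
    exact abs_avg_le _
  have h4 := c2_nonneg hρ0 hρ1
  have h5 : c2 ρ * (|avg X - avg Z| / 2) ≤ c2 ρ * (avg (fun y => |X y - Z y|) / 2) :=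
    mul_le_mul_of_nonneg_left (by linarith) h4
  linarith

end Vale.Agent.CK
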