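import Vale.Agent.P322.Final

/-!
Definitions for the Bellman proof of the Courtade-Kumar inequality for balanced functions.

Notation used in comments: `w = A` (the inverse hyperbolic tangent), `h = ent` (entropy in nats of a
`±1` variable with mean `x`).
-/

open Real

namespace Vale.Agent.CK

open Vale.Agent.P322

/-- `κ(ρ) = ρ / ((1 - ρ²) w(ρ)) - 1`, with `κ(0) = 0`. -/
noncomputable def kap (ρ : ℝ) : ℝ := if ρ = 0 then 0 else ρ / ((1 - ρ ^ 2) * A ρ) - 1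

/-- `Y(ρ) = - ρ w(ρ) - log (1 - ρ²)`. -/
noncomputable def Yf (ρ : ℝ) : ℝ := -(ρ * A ρ) - log (1 - ρ ^ 2)

/-- `A_f(ρ) = Y(ρ) + κ(ρ) h(ρ)`. -/
noncomputable def Af (ρ : ℝ) : ℝ := Yf ρ + kap ρ * ent ρ

/-- `L(ρ) = ρ w(ρ) + h(ρ)`. -/
noncomputable def Lf (ρ : ℝ) : ℝ := ρ * A ρ + ent ρ

/-- `c₃(ρ) = ρ² / ((1 - ρ²) L(ρ))`. -/
noncomputable def c3 (ρ : ℝ) : ℝ := ρ ^ 2 / ((1 - ρ ^ 2) * Lf ρ)

/-- `c₂(ρ) = w(ρ) + c₃(ρ) h(ρ) / ρ`. -/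
noncomputable def c2 (ρ : ℝ) : ℝ := A ρ + c3 ρ * ent ρ / ρ

/-- Inverse of the entropy on `[0,1)`; it is `0` when `log 2 ≤ u`. -/
noncomputable def rinv (u : ℝ) : ℝ :=
  if log 2 ≤ u then 0 else Function.invFunOn ent (Set.Ico 0 1) u

/-- `𝒴(u) = Y(rinv u)`. -/
noncomputable def YY (u : ℝ) : ℝ := Yf (rinv u)

/-- `𝒦(u) = κ(rinv u)`. -/
noncomputable def KK (u : ℝ) : ℝ := kap (rinv u)

/-- The perspective `P(r, x) = r 𝒴(x / r)`. -/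
noncomputable def PP (r x : ℝ) : ℝ := r * YY (x / r)

/-- The weight `T(m) = (1 - m²)(1 - m²/4)`. -/
noncomputable def Tm (m : ℝ) : ℝ := (1 - m ^ 2) * (1 - m ^ 2 / 4)

end Vale.Agent.CK
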