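import Vale.Agent.CK.Mono

/-!
The function `E(v, r)`.
-/

open Real Set

namespace Vale.Agent.CK

open Vale.Agent.P322

/-- `τ = V(1-q)/(1-Vq)`, where `V = v²` and `q = r²`. -/
noncomputable def tau (v r : ℝ) : ℝ := v ^ 2 * (1 - r ^ 2) / (1 - v ^ 2 * r ^ 2)

/-- `β = (1 - V)/(1 - Vq)`. -/
noncomputable def bet (v r : ℝ) : ℝ := (1 - v ^ 2) / (1 - v ^ 2 * r ^ 2)

/-- `m = v (1-q)/(1-Vq)`. -/
noncomputable def mean (v r : ℝ) : ℝ := v * (1 - r ^ 2) / (1 - v ^ 2 * r ^ 2)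

/-- The function `E(v,q)`: `- τ log(1-q) + log(1+qτ) - 2 m w(v q)`. -/
noncomputable def Ee (v r : ℝ) : ℝ :=
  -(tau v r * log (1 - r ^ 2)) + log (1 + r ^ 2 * tau v r) - 2 * mean v r * A (v * r ^ 2)

/-- `a`, in coordinates. -/
noncomputable def pa (v r : ℝ) : ℝ := (v + r) / (1 + v * r)

/-- `b`, in coordinates. -/
noncomputable def pb (v r : ℝ) : ℝ := (v - r) / (1 - v * r)

lemma D0_pos_ee {v r : ℝ} (hv0 : 0 ≤ v) (hv1 : v ≤ 1) (hr0 : 0 < r) (hr1 : r < 1) :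
    0 < 1 - v ^ 2 * r ^ 2 := by
  have h1 : v ^ 2 ≤ 1 := by nlinarith
  have h2 : r ^ 2 < 1 := by nlinarith
  have h3 : 0 < r ^ 2 := by positivity
  nlinarith

lemma pa_add_pb {v r : ℝ} (hv0 : 0 ≤ v) (hv1 : v < 1) (hr0 : 0 < r) (hr1 : r < 1) :
    (pa v r + pb v r) / 2 = mean v r := by
  have h1 : 0 < 1 + v * r := by positivity
  have h2 : 0 < 1 - v * r := by nlinarith
  have h3 : 0 < 1 - v ^ 2 * r ^ 2 := D0_pos_ee hv0 hv1.le hr0 hr1
  have h4 : 1 - v ^ 2 * r ^ 2 = (1 + v * r) * (1 - v * r) := by ring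
  unfold pa pb mean
  rw [h4]
  field_simp
  ring

lemma pa_sub_pb {v r : ℝ} (hv0 : 0 ≤ v) (hv1 : v < 1) (hr0 : 0 < r) (hr1 : r < 1) :
    (pa v r - pb v r) / 2 = bet v r * r := by
  have h1 : 0 < 1 + v * r := by positivity
  have h2 : 0 < 1 - v * r := by nlinarith
  have h3 : 0 < 1 - v ^ 2 * r ^ 2 := D0_pos_ee hv0 hv1.le hr0 hr1
  have h4 : 1 - v ^ 2 * r ^ 2 = (1 + v * r) * (1 - v * r) := by ring
  unfold pa pb bet
  rw [h4]
  field_simp
  ring

lemma A_neg_ee (x : ℝ) : A (-x) = -A x := by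
  unfold A
  rw [show 1 + -x = 1 - x by ring, show 1 - -x = 1 + x by ring]
  ring

lemma A_add_ee {v r : ℝ} (hv : |v| < 1) (hr : |r| < 1) :
    A ((v + r) / (1 + v * r)) = A v + A r := by
  obtain ⟨hv1, hv2⟩ := abs_lt.mp hv
  obtain ⟨hr1, hr2⟩ := abs_lt.mp hr
  have hvr : 0 < 1 + v * r := by nlinarith
  have h1 : 1 + (v + r) / (1 + v * r) = (1 + v) * (1 + r) / (1 + v * r) := by
    field_simp
    ring
  have h2 : 1 - (v + r) / (1 + v * r) = (1 - v) * (1 - r) / (1 + v * r) := by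
    field_simp
    ring
  have p1 : (1 + v) ≠ 0 := by linarith
  have p2 : (1 + r) ≠ 0 := by linarith
  have p3 : (1 - v) ≠ 0 := by linarith
  have p4 : (1 - r) ≠ 0 := by linarith
  unfold A
  rw [h1, h2, log_div (mul_ne_zero p1 p2) hvr.ne', log_div (mul_ne_zero p3 p4) hvr.ne',
    log_mul p1 p2, log_mul p3 p4]
  ring

lemma abs_lt_one_pa {v r : ℝ} (hv0 : 0 ≤ v) (hv1 : v < 1) (hr0 : 0 < r) (hr1 : r < 1) :
    |pa v r| < 1 := by
  have h1 : 0 < 1 + v * r := by positivity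
  unfold pa
  rw [abs_lt]
  constructor
  · rw [lt_div_iff₀ h1]
    nlinarith
  · rw [div_lt_one h1]
    nlinarith

lemma abs_lt_one_pb {v r : ℝ} (hv0 : 0 ≤ v) (hv1 : v < 1) (hr0 : 0 < r) (hr1 : r < 1) :
    |pb v r| < 1 := by
  have h1 : 0 < 1 - v * r := by nlinarith
  unfold pb
  rw [abs_lt]
  constructor
  · rw [lt_div_iff₀ h1]
    nlinarith
  · rw [div_lt_one h1]
    nlinarith

lemma abs_lt_one_mean {v r : ℝ} (hv0 : 0 ≤ v) (hv1 : v < 1) (hr0 : 0 < r) (hr1 : r < 1) :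
    |mean v r| < 1 := by
  have ha := abs_lt.mp (abs_lt_one_pa hv0 hv1 hr0 hr1)
  have hb := abs_lt.mp (abs_lt_one_pb hv0 hv1 hr0 hr1)
  rw [← pa_add_pb hv0 hv1 hr0 hr1, abs_lt]
  constructor <;> linarith

lemma one_add_q_tau {v r : ℝ} (hD : 1 - v ^ 2 * r ^ 2 ≠ 0) :
    1 + r ^ 2 * tau v r = (1 - v ^ 2 * (r ^ 2) ^ 2) / (1 - v ^ 2 * r ^ 2) := by
  have ht : tau v r * (1 - v ^ 2 * r ^ 2) = v ^ 2 * (1 - r ^ 2) := div_mul_cancel₀ _ hD
  rw [eq_div_iff hD]
  linear_combination r ^ 2 * ht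

lemma bet_add_tau {v r : ℝ} (hD : 1 - v ^ 2 * r ^ 2 ≠ 0) : bet v r + tau v r = 1 := by
  have ht : tau v r * (1 - v ^ 2 * r ^ 2) = v ^ 2 * (1 - r ^ 2) := div_mul_cancel₀ _ hD
  have hb : bet v r * (1 - v ^ 2 * r ^ 2) = 1 - v ^ 2 := div_mul_cancel₀ _ hD
  apply mul_right_cancel₀ hD
  linear_combination ht + hb

/-- Key identity: `J - f = β Y(r) + E`. -/
lemma J_sub_f {v r : ℝ} (hv0 : 0 ≤ v) (hv1 : v < 1) (hr0 : 0 < r) (hr1 : r < 1) :
    bet v r * r * A r - (2 * ent (mean v r) - ent (pa v r) - ent (pb v r)) =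
      bet v r * Yf r + Ee v r := by
  have hv : |v| < 1 := by rw [abs_of_nonneg hv0]; exact hv1
  have hr : |r| < 1 := by rw [abs_of_pos hr0]; exact hr1
  have hnr : |-r| < 1 := by rw [abs_neg]; exact hr
  have hq0 : 0 < r ^ 2 := by positivity
  have hq1 : r ^ 2 < 1 := by nlinarith
  have hV1 : v ^ 2 < 1 := by nlinarith
  have hz0 : 0 ≤ v * r ^ 2 := by positivity
  have hz1 : v * r ^ 2 < 1 := by nlinarith
  have hz : |-(v * r ^ 2)| < 1 := by rw [abs_neg, abs_of_nonneg hz0]; exact hz1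
  have hD : 0 < 1 - v ^ 2 * r ^ 2 := D0_pos_ee hv0 hv1.le hr0 hr1
  have hp : 0 < 1 + v * r := by positivity
  have hm : 0 < 1 - v * r := by nlinarith
  have hZ : 0 < 1 - v ^ 2 * (r ^ 2) ^ 2 := by nlinarith [mul_nonneg hz0 hz0]
  have hV : 0 < 1 - v ^ 2 := by linarith
  have hQ : 0 < 1 - r ^ 2 := by linarith
  -- the values of `A`
  have Aa : A (pa v r) = A v + A r := A_add_ee hv hr
  have Ab : A (pb v r) = A v - A r := by
    have := A_add_ee hv hnr
    rw [A_neg_ee] at this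
    have e : pb v r = (v + -r) / (1 + v * -r) := by
      unfold pb
      ring_nf
    rw [e, this]
    ring
  have Am : A (mean v r) = A v - A (v * r ^ 2) := by
    have := A_add_ee hv hz
    rw [A_neg_ee] at this
    have e : mean v r = (v + -(v * r ^ 2)) / (1 + v * -(v * r ^ 2)) := by
      unfold mean
      ring_nf
    rw [e, this]
    ring
  -- the logarithms
  have hLD : log (1 - v ^ 2 * r ^ 2) = log (1 + v * r) + log (1 - v * r) := by
    rw [← log_mul hp.ne' hm.ne']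
    ring_nf
  have h1a : log (1 - pa v r ^ 2) =
      log (1 - v ^ 2) + log (1 - r ^ 2) - 2 * log (1 + v * r) := by
    have e : 1 - pa v r ^ 2 = (1 - v ^ 2) * (1 - r ^ 2) / (1 + v * r) ^ 2 := by
      unfold pa
      field_simp
      ring
    rw [e, log_div (mul_ne_zero hV.ne' hQ.ne') (pow_ne_zero 2 hp.ne'), log_mul hV.ne' hQ.ne',
      log_pow]
    norm_num
  have h1b : log (1 - pb v r ^ 2) =
      log (1 - v ^ 2) + log (1 - r ^ 2) - 2 * log (1 - v * r) := by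
    have e : 1 - pb v r ^ 2 = (1 - v ^ 2) * (1 - r ^ 2) / (1 - v * r) ^ 2 := by
      unfold pb
      field_simp
      ring
    rw [e, log_div (mul_ne_zero hV.ne' hQ.ne') (pow_ne_zero 2 hm.ne'), log_mul hV.ne' hQ.ne',
      log_pow]
    norm_num
  have h1m : log (1 - mean v r ^ 2) =
      log (1 - v ^ 2) + log (1 - v ^ 2 * (r ^ 2) ^ 2) - 2 * log (1 - v ^ 2 * r ^ 2) := by
    have e : 1 - mean v r ^ 2 =
        (1 - v ^ 2) * (1 - v ^ 2 * (r ^ 2) ^ 2) / (1 - v ^ 2 * r ^ 2) ^ 2 := by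
      unfold mean
      field_simp
      ring
    rw [e, log_div (mul_ne_zero hV.ne' hZ.ne') (pow_ne_zero 2 hD.ne'), log_mul hV.ne' hZ.ne',
      log_pow]
    norm_num
  have hqt : log (1 + r ^ 2 * tau v r) =
      log (1 - v ^ 2 * (r ^ 2) ^ 2) - log (1 - v ^ 2 * r ^ 2) := by
    rw [one_add_q_tau hD.ne', log_div hZ.ne' hD.ne']
  -- entropies
  have ea := ent_formula (abs_lt_one_pa hv0 hv1 hr0 hr1)
  have eb := ent_formula (abs_lt_one_pb hv0 hv1 hr0 hr1)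
  have em := ent_formula (abs_lt_one_mean hv0 hv1 hr0 hr1)
  have hsum : pa v r + pb v r = 2 * mean v r := by
    have := pa_add_pb hv0 hv1 hr0 hr1
    linarith
  have hdif : pa v r - pb v r = 2 * (bet v r * r) := by
    have := pa_sub_pb hv0 hv1 hr0 hr1
    linarith
  have hbt : bet v r + tau v r = 1 := bet_add_tau hD.ne'
  rw [ea, eb, em, Aa, Ab, Am, h1a, h1b, h1m]
  unfold Ee Yf
  rw [hqt, hLD]
  have hb : tau v r = 1 - bet v r := by linarith
  rw [hb]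
  have hpa : pa v r = mean v r + bet v r * r := by linarith
  have hpb : pb v r = mean v r - bet v r * r := by linarith
  rw [hpa, hpb]
  ring

/-- The derivative of `τ`. -/
lemma hasDerivAt_tau {v r : ℝ} (hD : 1 - v ^ 2 * r ^ 2 ≠ 0) :
    HasDerivAt (fun u => tau u r) (2 * v * (1 - r ^ 2) / (1 - v ^ 2 * r ^ 2) ^ 2) v := by
  have h1 : HasDerivAt (fun u : ℝ => u ^ 2 * (1 - r ^ 2)) (2 * v * (1 - r ^ 2)) v := by
    have := (hasDerivAt_pow 2 v).mul_const (1 - r ^ 2)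
    simpa using this
  have h2 : HasDerivAt (fun u : ℝ => 1 - u ^ 2 * r ^ 2) (-(2 * v * r ^ 2)) v := by
    have := ((hasDerivAt_pow 2 v).mul_const (r ^ 2)).const_sub 1
    simpa using this
  have h3 := h1.div h2 hD
  refine h3.congr_deriv ?_
  field_simp
  ring

/-- The derivative of `m`. -/
lemma hasDerivAt_mean {v r : ℝ} (hD : 1 - v ^ 2 * r ^ 2 ≠ 0) :
    HasDerivAt (fun u => mean u r)
      ((1 - r ^ 2) * (1 + v ^ 2 * r ^ 2) / (1 - v ^ 2 * r ^ 2) ^ 2) v := by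
  have h1 : HasDerivAt (fun u : ℝ => u * (1 - r ^ 2)) (1 - r ^ 2) v := by
    have := (hasDerivAt_id v).mul_const (1 - r ^ 2)
    simpa using this
  have h2 : HasDerivAt (fun u : ℝ => 1 - u ^ 2 * r ^ 2) (-(2 * v * r ^ 2)) v := by
    have := ((hasDerivAt_pow 2 v).mul_const (r ^ 2)).const_sub 1
    simpa using this
  have h3 := h1.div h2 hD
  refine h3.congr_deriv ?_
  field_simp
  ring

/-- The function `E - E₀`. -/
noncomputable def EeDiff (r v : ℝ) : ℝ :=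
  Ee v r - tau v r * (1 - v ^ 2) * (-log (1 - r ^ 2) - r ^ 2)

lemma hasDerivAt_EeDiff {v r : ℝ} (hv0 : 0 ≤ v) (hv1 : v ≤ 1) (hr0 : 0 < r) (hr1 : r < 1) :
    HasDerivAt (EeDiff r)
      (2 * (1 - r ^ 2) / (1 - v ^ 2 * r ^ 2) ^ 2 *
        ((-log (1 - r ^ 2)) * v - (1 + v ^ 2 * r ^ 2) * A (v * r ^ 2) -
          v * (-log (1 - r ^ 2) - r ^ 2) * (1 - 2 * v ^ 2 + r ^ 2 * (v ^ 2) ^ 2))) v := by
  have hD : 0 < 1 - v ^ 2 * r ^ 2 := D0_pos_ee hv0 hv1 hr0 hr1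
  have hq0 : 0 < r ^ 2 := by positivity
  have hq1 : r ^ 2 < 1 := by nlinarith
  have hz0 : 0 ≤ v * r ^ 2 := by positivity
  have hz1 : v * r ^ 2 < 1 := by nlinarith
  have hz : |v * r ^ 2| < 1 := by rw [abs_of_nonneg hz0]; exact hz1
  have hZ : 0 < 1 - v ^ 2 * (r ^ 2) ^ 2 := by nlinarith [mul_nonneg hz0 hz0]
  have hZ' : 0 < 1 - (v * r ^ 2) ^ 2 := by nlinarith [mul_nonneg hz0 hz0]
  have ht := hasDerivAt_tau (v := v) (r := r) hD.ne'
  have hm := hasDerivAt_mean (v := v) (r := r) hD.ne'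
  have hA : HasDerivAt (fun u : ℝ => A (u * r ^ 2)) (1 / (1 - (v * r ^ 2) ^ 2) * r ^ 2) v := by
    have := (hasDerivAt_A hz).comp v ((hasDerivAt_id' v).mul_const (r ^ 2))
    exact this.congr_deriv (by ring)
  have hqt : 0 < 1 + r ^ 2 * tau v r := by
    have : 0 ≤ tau v r := by
      unfold tau
      have : 0 ≤ 1 - r ^ 2 := by linarith
      positivity
    positivity
  have hl : HasDerivAt (fun u : ℝ => log (1 + r ^ 2 * tau u r))
      ((r ^ 2 * (2 * v * (1 - r ^ 2) / (1 - v ^ 2 * r ^ 2) ^ 2)) / (1 + r ^ 2 * tau v r)) v := by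
    have := ((ht.const_mul (r ^ 2)).const_add 1).log hqt.ne'
    exact this
  have hV : HasDerivAt (fun u : ℝ => 1 - u ^ 2) (-(2 * v)) v := by
    have := (hasDerivAt_pow 2 v).const_sub 1
    simpa using this
  have hmain := (((ht.mul_const (log (1 - r ^ 2))).neg.add hl).sub
    ((hm.const_mul 2).mul hA)).sub
      ((ht.mul hV).mul_const (-log (1 - r ^ 2) - r ^ 2))
  have hfun : EeDiff r = (fun u => -(tau u r * log (1 - r ^ 2)) + log (1 + r ^ 2 * tau u r) -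
      2 * mean u r * A (u * r ^ 2) - tau u r * (1 - u ^ 2) * (-log (1 - r ^ 2) - r ^ 2)) := by
    funext u
    unfold EeDiff Ee
    ring
  rw [hfun]
  refine hmain.congr_deriv ?_
  have hD' := hD.ne'
  have hZ'' := hZ.ne'
  have e1 := one_add_q_tau (v := v) (r := r) hD'
  have e2 : 1 - (v * r ^ 2) ^ 2 = 1 - v ^ 2 * (r ^ 2) ^ 2 := by ring
  rw [e1, e2]
  have ht : tau v r = v ^ 2 * (1 - r ^ 2) / (1 - v ^ 2 * r ^ 2) := rfl
  have hme : mean v r = v * (1 - r ^ 2) / (1 - v ^ 2 * r ^ 2) := rfl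
  rw [ht, hme]
  generalize A (v * r ^ 2) = AA
  generalize log (1 - r ^ 2) = LL
  obtain ⟨D, hDe⟩ : ∃ D, D = 1 - v ^ 2 * r ^ 2 := ⟨_, rfl⟩
  obtain ⟨Z, hZe⟩ : ∃ Z, Z = 1 - v ^ 2 * (r ^ 2) ^ 2 := ⟨_, rfl⟩
  rw [← hDe, ← hZe]
  have hDn : D ≠ 0 := by rw [hDe]; exact hD'
  have hZn : Z ≠ 0 := by rw [hZe]; exact hZ''
  field_simp
  rw [hDe, hZe]
  ring

/-- A function vanishing at `0` and `1`, whose derivative is a nonnegative weight times an
antitone function, is nonnegative. -/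
lemma nonneg_of_up_down {F p g : ℝ → ℝ} (hc : ContinuousOn F (Icc 0 1))
    (hF : ∀ v ∈ Ioo (0 : ℝ) 1, HasDerivAt F (p v * g v) v)
    (hp : ∀ v ∈ Ioo (0 : ℝ) 1, 0 ≤ p v) (hg : AntitoneOn g (Ioo 0 1))
    (h0 : F 0 = 0) (h1 : F 1 = 0) {v : ℝ} (hv : v ∈ Icc (0 : ℝ) 1) : 0 ≤ F v := by
  rcases eq_or_lt_of_le hv.1 with h | hv0
  · rw [← h, h0]
  rcases eq_or_lt_of_le hv.2 with h | hv1
  · rw [h, h1]
  by_cases hgv : 0 ≤ g v
  · have hm : MonotoneOn F (Icc 0 v) := by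
      apply monotoneOn_of_deriv_nonneg (convex_Icc 0 v)
      · exact hc.mono (Icc_subset_Icc le_rfl hv1.le)
      · intro u hu
        rw [interior_Icc] at hu
        exact (hF u ⟨hu.1, hu.2.trans hv1⟩).differentiableAt.differentiableWithinAt
      · intro u hu
        rw [interior_Icc] at hu
        have hu' : u ∈ Ioo (0 : ℝ) 1 := ⟨hu.1, hu.2.trans hv1⟩
        rw [(hF u hu').deriv]
        exact mul_nonneg (hp u hu') (hgv.trans (hg hu' ⟨hv0, hv1⟩ hu.2.le))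
    have := hm (left_mem_Icc.2 hv0.le) (right_mem_Icc.2 hv0.le) hv0.le
    rwa [h0] at this
  · have hgv' := not_le.mp hgv
    have hm : AntitoneOn F (Icc v 1) := by
      apply antitoneOn_of_deriv_nonpos (convex_Icc v 1)
      · exact hc.mono (Icc_subset_Icc hv0.le le_rfl)
      · intro u hu
        rw [interior_Icc] at hu
        exact (hF u ⟨hv0.trans hu.1, hu.2⟩).differentiableAt.differentiableWithinAt
      · intro u hu
        rw [interior_Icc] at hu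
        have hu' : u ∈ Ioo (0 : ℝ) 1 := ⟨hv0.trans hu.1, hu.2⟩
        rw [(hF u hu').deriv]
        exact mul_nonpos_of_nonneg_of_nonpos (hp u hu')
          ((hg ⟨hv0, hv1⟩ hu' hu.1.le).trans hgv'.le)
    have := hm (left_mem_Icc.2 hv1.le) (right_mem_Icc.2 hv1.le) hv1.le
    rwa [h1] at this

/-- `atanh z / z` is monotone. -/
lemma atc_mono : MonotoneOn (fun z : ℝ => A z / z) (Ioo 0 1) := by
  apply monotoneOn_of_deriv_nonneg (convex_Ioo 0 1)
  · intro z hz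
    have hz' : |z| < 1 := by rw [abs_of_pos hz.1]; exact hz.2
    exact (((hasDerivAt_A hz').div (hasDerivAt_id' z) hz.1.ne').continuousAt).continuousWithinAt
  · intro z hz
    rw [interior_Ioo] at hz
    have hz' : |z| < 1 := by rw [abs_of_pos hz.1]; exact hz.2
    exact ((hasDerivAt_A hz').div (hasDerivAt_id' z) hz.1.ne').differentiableAt.differentiableWithinAt
  · intro z hz
    rw [interior_Ioo] at hz
    have hz' : |z| < 1 := by rw [abs_of_pos hz.1]; exact hz.2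
    have hdz : HasDerivAt (fun z : ℝ => A z / z) ((1 / (1 - z ^ 2) * z - A z * 1) / z ^ 2) z :=
      (hasDerivAt_A hz').div (hasDerivAt_id' z) hz.1.ne'
    rw [hdz.deriv]
    have h := A_le hz.1.le hz.2
    have h1 : 0 < 1 - z ^ 2 := by nlinarith [hz.1, hz.2]
    apply div_nonneg _ (by positivity)
    have e : 1 / (1 - z ^ 2) * z - A z * 1 = z / (1 - z ^ 2) - A z := by ring
    rw [e]
    linarith

/-- `3 (atanh z - z) ≤ z³/(1 - z²)`. -/
lemma three_atanh_le {z : ℝ} (h0 : 0 ≤ z) (h1 : z < 1) :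
    3 * (A z - z) ≤ z ^ 3 / (1 - z ^ 2) := by
  have hm : MonotoneOn (fun t : ℝ => t ^ 3 / (1 - t ^ 2) - 3 * (A t - t)) (Ico 0 1) := by
    have hd : ∀ t ∈ Ico (0 : ℝ) 1, HasDerivAt (fun t : ℝ => t ^ 3 / (1 - t ^ 2) - 3 * (A t - t))
        (2 * t ^ 4 / (1 - t ^ 2) ^ 2) t := by
      intro t ht
      have ht' : |t| < 1 := by rw [abs_of_nonneg ht.1]; exact ht.2
      have hD : 0 < 1 - t ^ 2 := by nlinarith [ht.1, ht.2]
      have hD' := hD.ne'
      have h1 : HasDerivAt (fun t : ℝ => t ^ 3) (3 * t ^ 2) t := by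
        simpa using hasDerivAt_pow 3 t
      have h2 : HasDerivAt (fun t : ℝ => 1 - t ^ 2) (-(2 * t)) t := by
        simpa using (hasDerivAt_pow 2 t).const_sub 1
      have h3 := ((h1.div h2 hD').sub (((hasDerivAt_A ht').sub (hasDerivAt_id' t)).const_mul 3))
      refine h3.congr_deriv ?_
      obtain ⟨D, hDe⟩ : ∃ D, D = 1 - t ^ 2 := ⟨_, rfl⟩
      rw [← hDe]
      have hDn : D ≠ 0 := by rw [hDe]; exact hD'
      field_simp
      rw [hDe]
      ring
    apply monotoneOn_of_deriv_nonneg (convex_Ico 0 1)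
    · intro t ht
      exact (hd t ht).continuousAt.continuousWithinAt
    · intro t ht
      rw [interior_Ico] at ht
      exact (hd t ⟨ht.1.le, ht.2⟩).differentiableAt.differentiableWithinAt
    · intro t ht
      rw [interior_Ico] at ht
      rw [(hd t ⟨ht.1.le, ht.2⟩).deriv]
      positivity
  have := hm (left_mem_Ico.2 (by norm_num : (0 : ℝ) < 1)) ⟨h0, h1⟩ h0
  simp only [A_zero] at this
  norm_num at this
  linarith

/-- `(atanh z - z)/z³` is monotone. -/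
lemma psi_mono : MonotoneOn (fun z : ℝ => (A z - z) / z ^ 3) (Ioo 0 1) := by
  have hd : ∀ z ∈ Ioo (0 : ℝ) 1, HasDerivAt (fun z : ℝ => (A z - z) / z ^ 3)
      ((z ^ 3 / (1 - z ^ 2) - 3 * (A z - z)) / z ^ 4) z := by
    intro z hz
    have hz' : |z| < 1 := by rw [abs_of_pos hz.1]; exact hz.2
    have hD : 0 < 1 - z ^ 2 := by nlinarith [hz.1, hz.2]
    have h1 : HasDerivAt (fun t : ℝ => t ^ 3) (3 * z ^ 2) z := by
      simpa using hasDerivAt_pow 3 z
    have h3 : HasDerivAt (fun z : ℝ => (A z - z) / z ^ 3)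
        (((1 / (1 - z ^ 2) - 1) * z ^ 3 - (A z - z) * (3 * z ^ 2)) / (z ^ 3) ^ 2) z :=
      ((hasDerivAt_A hz').sub (hasDerivAt_id' z)).div h1 (pow_ne_zero 3 hz.1.ne')
    refine h3.congr_deriv ?_
    obtain ⟨D, hDe⟩ : ∃ D, D = 1 - z ^ 2 := ⟨_, rfl⟩
    rw [← hDe]
    have hDn : D ≠ 0 := by rw [hDe]; exact hD.ne'
    have hzn := hz.1.ne'
    generalize A z = AA
    field_simp
    rw [hDe]
    ring
  apply monotoneOn_of_deriv_nonneg (convex_Ioo 0 1)
  · intro z hz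
    exact (hd z hz).continuousAt.continuousWithinAt
  · intro z hz
    rw [interior_Ioo] at hz
    exact (hd z hz).differentiableAt.differentiableWithinAt
  · intro z hz
    rw [interior_Ioo] at hz
    rw [(hd z hz).deriv]
    have := three_atanh_le hz.1.le hz.2
    apply div_nonneg _ (by positivity)
    linarith

lemma log_gap_nonneg {q : ℝ} (hq : q < 1) : 0 ≤ -log (1 - q) - q := by
  have := Real.log_le_sub_one_of_pos (by linarith : 0 < 1 - q)
  linarith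

lemma EeDiff_zero (r : ℝ) : EeDiff r 0 = 0 := by
  unfold EeDiff Ee tau mean
  simp

lemma EeDiff_one {r : ℝ} (hr0 : 0 < r) (hr1 : r < 1) : EeDiff r 1 = 0 := by
  have hq : 1 - r ^ 2 ≠ 0 := by nlinarith
  have ht : tau 1 r = 1 := by
    unfold tau
    rw [one_pow, one_mul, one_mul]
    exact div_self hq
  have hm : mean 1 r = 1 := by
    unfold mean
    rw [one_pow, one_mul, one_mul]
    exact div_self hq
  unfold EeDiff Ee A
  rw [ht, hm]
  norm_num
  ring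

/-- The stronger bound `E ≥ τ (1 - V) (Λ₀ - q)`, where `Λ₀ = - log (1 - q)`. -/
lemma Ee_ge {v r : ℝ} (hv0 : 0 ≤ v) (hv1 : v < 1) (hr0 : 0 < r) (hr1 : r < 1) :
    tau v r * (1 - v ^ 2) * (-log (1 - r ^ 2) - r ^ 2) ≤ Ee v r := by
  have hq0 : 0 < r ^ 2 := by positivity
  have hq1 : r ^ 2 < 1 := by nlinarith
  have hr00 : 0 ≤ -log (1 - r ^ 2) - r ^ 2 := log_gap_nonneg hq1
  have key : 0 ≤ EeDiff r v := by
    refine nonneg_of_up_down (p := fun u => 2 * (1 - r ^ 2) / (1 - u ^ 2 * r ^ 2) ^ 2 * u ^ 3)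
      (g := fun u => (-log (1 - r ^ 2) - r ^ 2) * (2 - r ^ 2 * u ^ 2)
        - (r ^ 2) ^ 3 * ((A (u * r ^ 2) - u * r ^ 2) / (u * r ^ 2) ^ 3)
        - (r ^ 2) ^ 2 * (A (u * r ^ 2) / (u * r ^ 2))) ?_ ?_ ?_ ?_ (EeDiff_zero r)
        (EeDiff_one hr0 hr1) ⟨hv0, hv1.le⟩
    · intro u hu
      exact (hasDerivAt_EeDiff hu.1 hu.2 hr0 hr1).continuousAt.continuousWithinAt
    · intro u hu
      have hu0 := hu.1
      refine (hasDerivAt_EeDiff hu.1.le hu.2.le hr0 hr1).congr_deriv ?_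
      have hD := D0_pos_ee hu.1.le hu.2.le hr0 hr1
      obtain ⟨D, hDe⟩ : ∃ D, D = 1 - u ^ 2 * r ^ 2 := ⟨_, rfl⟩
      rw [← hDe]
      have hDn : D ≠ 0 := by rw [hDe]; exact hD.ne'
      have hun := hu0.ne'
      have hrn := hr0.ne'
      generalize A (u * r ^ 2) = AA
      generalize log (1 - r ^ 2) = LL
      field_simp
      ring
    · intro u hu
      have hD := D0_pos_ee hu.1.le hu.2.le hr0 hr1
      have : 0 ≤ 1 - r ^ 2 := by linarith
      have hu0 := hu.1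
      positivity
    · intro x hx y hy hxy
      have hzx : x * r ^ 2 ∈ Ioo (0 : ℝ) 1 := ⟨by have := hx.1; positivity, by nlinarith [hx.1, hx.2]⟩
      have hzy : y * r ^ 2 ∈ Ioo (0 : ℝ) 1 := ⟨by have := hy.1; positivity, by nlinarith [hy.1, hy.2]⟩
      have hzz : x * r ^ 2 ≤ y * r ^ 2 := by nlinarith
      have h1 := psi_mono hzx hzy hzz
      have h2 := atc_mono hzx hzy hzz
      simp only at h1 h2
      have h3 : r ^ 2 * x ^ 2 ≤ r ^ 2 * y ^ 2 := by
        have : x ^ 2 ≤ y ^ 2 := by nlinarith [hx.1]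
        nlinarith
      have h4 := mul_le_mul_of_nonneg_left h3 hr00
      have h5 := mul_le_mul_of_nonneg_left h1 (by positivity : 0 ≤ (r ^ 2) ^ 3)
      have h6 := mul_le_mul_of_nonneg_left h2 (by positivity : 0 ≤ (r ^ 2) ^ 2)
      simp only
      nlinarith
  unfold EeDiff at key
  linarith

/-- `E ≥ 0`. -/
lemma Ee_nonneg {v r : ℝ} (hv0 : 0 ≤ v) (hv1 : v < 1) (hr0 : 0 < r) (hr1 : r < 1) :
    0 ≤ Ee v r := by
  have hq1 : r ^ 2 < 1 := by nlinarith
  have h := Ee_ge hv0 hv1 hr0 hr1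
  have h0 : 0 ≤ tau v r := by
    have hD := D0_pos_ee hv0 hv1.le hr0 hr1
    have : 0 ≤ 1 - r ^ 2 := by linarith
    unfold tau
    positivity
  have h1 : 0 ≤ 1 - v ^ 2 := by nlinarith
  have h2 := log_gap_nonneg hq1
  have := mul_nonneg (mul_nonneg h0 h1) h2
  linarith

end Vale.Agent.CK
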