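import Vale.Agent.CK.FactsQ

/-!
The facts `F1`, `F2`: bounds for `Q = h² κ' / w`.
-/

open Real Set

namespace Vale.Agent.CK

open Vale.Agent.P322

/-- `(w - x) / x³`. -/
noncomputable def E3 (x : ℝ) : ℝ := (A x - x) / x ^ 3

/-- `h / ((1 - x) w)`. -/
noncomputable def G1 (x : ℝ) : ℝ := ent x / ((1 - x) * A x)

lemma three_atanh_le0 {z : ℝ} (h0 : 0 ≤ z) (h1 : z < 1) :
    3 * (A z - z) ≤ z ^ 3 / (1 - z ^ 2) := by
  have hm : MonotoneOn (fun t : ℝ => t ^ 3 / (1 - t ^ 2) - 3 * (A t - t)) (Ico 0 1) := by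
    have hd : ∀ t ∈ Ico (0 : ℝ) 1, HasDerivAt (fun t : ℝ => t ^ 3 / (1 - t ^ 2) - 3 * (A t - t))
        (2 * t ^ 4 / (1 - t ^ 2) ^ 2) t := by
      intro t ht
      have ht' : |t| < 1 := by rw [abs_of_nonneg ht.1]; exact ht.2
      have hD : 0 < 1 - t ^ 2 := by nlinarith [ht.1, ht.2]
      have hD' := hD.ne'
      have h1 : HasDerivAt (fun t : ℝ => t ^ 3) (3 * t ^ 2) t := by
        simpa using hasDerivAt_pow 3 t
      have h2 : HasDerivAt (fun t : ℝ => 1 - t ^ 2) (-(2 * t)) t := by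
        simpa using (hasDerivAt_pow 2 t).const_sub 1
      have h3 := ((h1.div h2 hD').sub (((hasDerivAt_A ht').sub (hasDerivAt_id' t)).const_mul 3))
      refine h3.congr_deriv ?_
      obtain ⟨D, hDe⟩ : ∃ D, D = 1 - t ^ 2 := ⟨_, rfl⟩
      rw [← hDe]
      have hDn : D ≠ 0 := by rw [hDe]; exact hD'
      field_simp
      rw [hDe]
      ring
    apply monotoneOn_of_deriv_nonneg (convex_Ico 0 1)
    · intro t ht
      exact (hd t ht).continuousAt.continuousWithinAt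
    · intro t ht
      rw [interior_Ico] at ht
      exact (hd t ⟨ht.1.le, ht.2⟩).differentiableAt.differentiableWithinAt
    · intro t ht
      rw [interior_Ico] at ht
      rw [(hd t ⟨ht.1.le, ht.2⟩).deriv]
      positivity
  have := hm (left_mem_Ico.2 (by norm_num : (0 : ℝ) < 1)) ⟨h0, h1⟩ h0
  simp only [A_zero] at this
  norm_num at this
  linarith

/-- `(atanh z - z)/z³` is monotone. -/
lemma E3_mono {x y : ℝ} (h0 : 0 < x) (hxy : x ≤ y) (h1 : y < 1) : E3 x ≤ E3 y := by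
  have hm : MonotoneOn E3 (Ioo 0 1) := by
    have hd : ∀ z ∈ Ioo (0 : ℝ) 1, HasDerivAt (fun z : ℝ => (A z - z) / z ^ 3)
        ((z ^ 3 / (1 - z ^ 2) - 3 * (A z - z)) / z ^ 4) z := by
      intro z hz
      have hz' : |z| < 1 := by rw [abs_of_pos hz.1]; exact hz.2
      have hD : 0 < 1 - z ^ 2 := by nlinarith [hz.1, hz.2]
      have h1 : HasDerivAt (fun t : ℝ => t ^ 3) (3 * z ^ 2) z := by
        simpa using hasDerivAt_pow 3 z
      have h3 : HasDerivAt (fun z : ℝ => (A z - z) / z ^ 3)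
          (((1 / (1 - z ^ 2) - 1) * z ^ 3 - (A z - z) * (3 * z ^ 2)) / (z ^ 3) ^ 2) z :=
        ((hasDerivAt_A hz').sub (hasDerivAt_id' z)).div h1 (pow_ne_zero 3 hz.1.ne')
      refine h3.congr_deriv ?_
      obtain ⟨D, hDe⟩ : ∃ D, D = 1 - z ^ 2 := ⟨_, rfl⟩
      rw [← hDe]
      have hDn : D ≠ 0 := by rw [hDe]; exact hD.ne'
      have hzn := hz.1.ne'
      generalize A z = AA
      field_simp
      rw [hDe]
      ring
    unfold E3
    apply monotoneOn_of_deriv_nonneg (convex_Ioo 0 1)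
    · intro z hz
      exact (hd z hz).continuousAt.continuousWithinAt
    · intro z hz
      rw [interior_Ioo] at hz
      exact (hd z hz).differentiableAt.differentiableWithinAt
    · intro z hz
      rw [interior_Ioo] at hz
      rw [(hd z hz).deriv]
      have := three_atanh_le0 hz.1.le hz.2
      apply div_nonneg _ (by positivity)
      linarith
  exact hm ⟨h0, lt_of_le_of_lt hxy h1⟩ ⟨lt_of_lt_of_le h0 hxy, h1⟩ hxy

/-- The tail term `l / (1 - x)` is antitone. -/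
lemma tail_anti {x y : ℝ} (h0 : 0 ≤ x) (hxy : x ≤ y) (h1 : y < 1) :
    (log 2 - log (1 + y)) / (1 - y) ≤ (log 2 - log (1 + x)) / (1 - x) := by
  have hanti : AntitoneOn (fun z => (log 2 - log (1 + z)) / (1 - z)) (Icc x y) := by
    have hd : ∀ z, 0 ≤ z → z < 1 → HasDerivAt (fun z => (log 2 - log (1 + z)) / (1 - z))
        ((-(1 / (1 + z)) * (1 - z) + (log 2 - log (1 + z))) / (1 - z) ^ 2) z := by
      intro z hz0 hz1
      have hp : (1 : ℝ) + z ≠ 0 := by positivity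
      have hq : (1 : ℝ) - z ≠ 0 := by linarith
      have h2 : HasDerivAt (fun z : ℝ => 1 + z) 1 z := (hasDerivAt_id' z).const_add 1
      have h3 : HasDerivAt (fun z : ℝ => 1 - z) (-1) z := (hasDerivAt_id' z).const_sub 1
      have h4 := ((h2.log hp).const_sub (log 2)).div h3 hq
      refine h4.congr_deriv ?_
      ring
    apply anti_of_deriv (f' := fun z =>
      (-(1 / (1 + z)) * (1 - z) + (log 2 - log (1 + z))) / (1 - z) ^ 2)
    · intro z hz
      exact (hd z (le_trans h0 hz.1) (lt_of_le_of_lt hz.2 h1)).continuousAt.continuousWithinAt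
    · intro z hz
      exact hd z (le_trans h0 hz.1.le) (lt_trans hz.2 h1)
    · intro z hz
      have hz0 := le_trans h0 hz.1.le
      have hz1 := lt_trans hz.2 h1
      have h5 := log_two_sub_le hz0 hz1
      have hp : 0 < 1 + z := by linarith
      have e : -(1 / (1 + z)) * (1 - z) = -((1 - z) / (1 + z)) := by
        field_simp
      rw [e]
      apply div_nonpos_of_nonpos_of_nonneg (by linarith) (by positivity)
  have h := hanti (left_mem_Icc.mpr hxy) (right_mem_Icc.mpr hxy) hxy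
  exact h

lemma G1_eq {x : ℝ} (h0 : 0 < x) (h1 : x < 1) :
    G1 x = 1 + ((log 2 - log (1 + x)) / (1 - x)) / A x := by
  have hx := abs_lt_one_of h0.le h1
  have hA := A_pos h0 h1
  have hs : 0 < 1 - x := by linarith
  unfold G1
  rw [ent_eq_tail hx]
  field_simp

/-- `G1` is antitone. -/
lemma G1_anti {x y : ℝ} (h0 : 0 < x) (hxy : x ≤ y) (h1 : y < 1) : G1 y ≤ G1 x := by
  have hy0 : 0 < y := lt_of_lt_of_le h0 hxy
  rw [G1_eq h0 (lt_of_le_of_lt hxy h1), G1_eq hy0 h1]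
  have hA1 := A_pos h0 (lt_of_le_of_lt hxy h1)
  have hA2 := A_mono' h0.le hxy h1
  have hl := tail_anti h0.le hxy h1
  have hl0 : 0 ≤ (log 2 - log (1 + y)) / (1 - y) := by
    have := ell_lower hy0.le h1.le
    apply div_nonneg _ (by linarith)
    linarith
  have : ((log 2 - log (1 + y)) / (1 - y)) / A y ≤ ((log 2 - log (1 + x)) / (1 - x)) / A x :=
    div_le_div₀ (le_trans hl0 hl) hl hA1 hA2
  linarith

/-- First form of `Q`. -/
lemma Q_form1 {x : ℝ} (h0 : 0 < x) (h1 : x < 1) :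
    ent x ^ 2 * dkap x / A x =
      ent x ^ 2 * (x / A x) ^ 2 * (1 + (x / A x) * E3 x) / (1 - x ^ 2) ^ 2 := by
  have hA := A_pos h0 h1
  have hs := one_sub_sq_pos (abs_lt_one_of h0.le h1)
  unfold dkap E3
  field_simp
  ring

/-- Second form of `Q`. -/
lemma Q_form2 {x : ℝ} (h0 : 0 < x) (h1 : x < 1) :
    ent x ^ 2 * dkap x / A x =
      G1 x ^ 2 * ((1 + x ^ 2) / (1 + x) ^ 2 - x / (A x * (1 + x) ^ 2)) := by
  have hA := A_pos h0 h1
  have hs : 0 < 1 - x := by linarith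
  have hp : 0 < 1 + x := by linarith
  have e : 1 - x ^ 2 = (1 - x) * (1 + x) := by ring
  unfold dkap G1
  rw [e]
  field_simp

lemma prod_bound1 {h H r R e E s S : ℝ} (h0 : 0 ≤ h) (h1 : h ≤ H) (r0 : 0 ≤ r) (r1 : r ≤ R)
    (e0 : 0 ≤ e) (e1 : e ≤ E) (s0 : 0 < S) (s1 : S ≤ s) :
    h ^ 2 * r ^ 2 * (1 + r * e) / s ^ 2 ≤ H ^ 2 * R ^ 2 * (1 + R * E) / S ^ 2 := by
  have hs : 0 < s := lt_of_lt_of_le s0 s1
  have a1 : h ^ 2 ≤ H ^ 2 := pow_le_pow_left₀ h0 h1 2
  have a2 : r ^ 2 ≤ R ^ 2 := pow_le_pow_left₀ r0 r1 2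
  have a3 : r * e ≤ R * E := mul_le_mul r1 e1 e0 (le_trans r0 r1)
  have a4 : S ^ 2 ≤ s ^ 2 := pow_le_pow_left₀ s0.le s1 2
  have a5 : 0 ≤ r * e := mul_nonneg r0 e0
  have a6 : h ^ 2 * r ^ 2 ≤ H ^ 2 * R ^ 2 :=
    mul_le_mul a1 a2 (by positivity) (by positivity)
  have a7 : h ^ 2 * r ^ 2 * (1 + r * e) ≤ H ^ 2 * R ^ 2 * (1 + R * E) :=
    mul_le_mul a6 (by linarith) (by positivity) (by positivity)
  have hR0 : 0 ≤ R := le_trans r0 r1
  have hE0 : 0 ≤ E := le_trans e0 e1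
  exact div_le_div₀ (by positivity) a7 (by positivity) a4

/-- The upper bound on a cell, first form. -/
def Q1Hi (a b : ℚ) : ℚ :=
  qentHi a ^ 2 * (a / qALo a) ^ 2 * (1 + (a / qALo a) * ((qAHi b - b) / b ^ 3)) / (1 - b ^ 2) ^ 2

/-- The upper bound on a cell, second form. -/
def Q2Hi (a b : ℚ) : ℚ :=
  (qentHi a / ((1 - a) * qALo a)) ^ 2 * ((1 + a ^ 2) / (1 + a) ^ 2 - b / (qAHi b * (1 + b) ^ 2))

/-- The check of a cell, first form. -/
def Q1ok (L : ℚ) (a b : ℚ) : Bool :=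
  qOK a && qOK b && decide (a ≤ b) && decide (Q1Hi a b ≤ L)

/-- The check of a cell, second form. -/
def Q2ok (L : ℚ) (a b : ℚ) : Bool :=
  qOK a && qOK b && decide (a ≤ b) && decide (Q2Hi a b ≤ L)

lemma Q1_cell (L a b : ℚ) (h : Q1ok L a b = true) (x : ℝ) (h1 : (a : ℝ) ≤ x) (h2 : x ≤ (b : ℝ)) :
    ent x ^ 2 * dkap x / A x ≤ (L : ℝ) := by
  unfold Q1ok at h
  simp only [Bool.and_eq_true, decide_eq_true_eq] at h
  obtain ⟨⟨⟨ha, hb⟩, hab⟩, hL⟩ := h
  have ha0 := q_pos ha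
  have hb1 := q_lt hb
  have hb0 := q_pos hb
  have hx0 : 0 < x := lt_of_lt_of_le ha0 h1
  have hx1 : x < 1 := lt_of_le_of_lt h2 hb1
  have hAa := q_A ha
  have hAb := q_A hb
  have haL := q_ALo_pos ha
  have hAx := A_pos hx0 hx1
  rw [Q_form1 hx0 hx1]
  have he0 : 0 ≤ ent x := (ent_pos (abs_lt_one_of hx0.le hx1)).le
  have he1 : ent x ≤ ((qentHi a : ℚ) : ℝ) :=
    le_trans (ent_anti' ha0.le h1 hx1.le) (q_ent ha).2
  have hr0 : 0 ≤ x / A x := by positivity
  have hr1 : x / A x ≤ (a : ℝ) / ((qALo a : ℚ) : ℝ) := by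
    have h3 := A_div_mono ha0 h1 hx1
    have h4 : (a : ℝ) / A a ≤ (a : ℝ) / ((qALo a : ℚ) : ℝ) :=
      div_le_div_of_nonneg_left ha0.le haL hAa.1
    have hAa0 := lt_of_lt_of_le haL hAa.1
    have h5 : x / A x ≤ (a : ℝ) / A a := by
      rw [div_le_div_iff₀ hAx hAa0]
      rw [div_le_div_iff₀ ha0 hx0] at h3
      linarith
    exact le_trans h5 h4
  have hE0 : 0 ≤ E3 x := by
    unfold E3
    have := A_ge_self hx0.le hx1
    apply div_nonneg (by linarith) (by positivity)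
  have hE1 : E3 x ≤ (((qAHi b : ℚ) : ℝ) - b) / (b : ℝ) ^ 3 := by
    refine le_trans (E3_mono hx0 h2 hb1) ?_
    unfold E3
    apply div_le_div_of_nonneg_right _ (by positivity)
    linarith [hAb.2]
  have hS0 : (0 : ℝ) < 1 - (b : ℝ) ^ 2 := one_sub_sq_pos (abs_lt_one_of hb0.le hb1)
  have hS1 : 1 - (b : ℝ) ^ 2 ≤ 1 - x ^ 2 := by nlinarith
  have hP := prod_bound1 he0 he1 hr0 hr1 hE0 hE1 hS0 hS1
  refine le_trans hP ?_
  have hc := (Rat.cast_le (K := ℝ)).mpr hL
  unfold Q1Hi at hc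
  push_cast at hc
  exact hc

lemma Q2_cell (L a b : ℚ) (h : Q2ok L a b = true) (x : ℝ) (h1 : (a : ℝ) ≤ x) (h2 : x ≤ (b : ℝ)) :
    ent x ^ 2 * dkap x / A x ≤ (L : ℝ) := by
  unfold Q2ok at h
  simp only [Bool.and_eq_true, decide_eq_true_eq] at h
  obtain ⟨⟨⟨ha, hb⟩, hab⟩, hL⟩ := h
  have ha0 := q_pos ha
  have ha1 := q_lt ha
  have hb1 := q_lt hb
  have hb0 := q_pos hb
  have hx0 : 0 < x := lt_of_lt_of_le ha0 h1
  have hx1 : x < 1 := lt_of_le_of_lt h2 hb1
  have hAa := q_A ha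
  have hAb := q_A hb
  have haL := q_ALo_pos ha
  have hAx := A_pos hx0 hx1
  rw [Q_form2 hx0 hx1]
  have hG0 : 0 ≤ G1 x := by
    unfold G1
    have := ent_pos (abs_lt_one_of hx0.le hx1)
    have : 0 < 1 - x := by linarith
    positivity
  have hAa0 := lt_of_lt_of_le haL hAa.1
  have hG1 : G1 x ≤ ((qentHi a : ℚ) : ℝ) / ((1 - (a : ℝ)) * ((qALo a : ℚ) : ℝ)) := by
    refine le_trans (G1_anti ha0 h1 hx1) ?_
    unfold G1
    have hs : 0 < 1 - (a : ℝ) := by linarith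
    exact div_le_div₀ (le_trans (ent_pos (abs_lt_one_of ha0.le ha1)).le (q_ent ha).2) (q_ent ha).2
      (by positivity) (mul_le_mul_of_nonneg_left hAa.1 hs.le)
  have hp : 0 < 1 + x := by linarith
  -- the second factor
  have hF0 : 0 ≤ (1 + x ^ 2) / (1 + x) ^ 2 - x / (A x * (1 + x) ^ 2) := by
    have e : (1 + x ^ 2) / (1 + x) ^ 2 - x / (A x * (1 + x) ^ 2) =
        ((1 + x ^ 2) * A x - x) / (A x * (1 + x) ^ 2) := by
      field_simp
    rw [e]
    apply div_nonneg _ (by positivity)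
    have := A_ge_self hx0.le hx1
    nlinarith [sq_nonneg x]
  have hF1 : (1 + x ^ 2) / (1 + x) ^ 2 - x / (A x * (1 + x) ^ 2) ≤
      (1 + (a : ℝ) ^ 2) / (1 + a) ^ 2 - b / (((qAHi b : ℚ) : ℝ) * (1 + b) ^ 2) := by
    have hA0 : (0 : ℝ) < ((qAHi b : ℚ) : ℝ) := lt_of_lt_of_le (A_pos hb0 hb1) hAb.2
    have h3 : (1 + x ^ 2) / (1 + x) ^ 2 ≤ (1 + (a : ℝ) ^ 2) / (1 + a) ^ 2 := by
      rw [div_le_div_iff₀ (by positivity) (by positivity)]
      nlinarith [mul_nonneg (sub_nonneg.mpr h1) (sub_nonneg.mpr hx1.le), mul_pos ha0 hx0,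
        mul_nonneg (sub_nonneg.mpr h1) (mul_nonneg ha0.le hx0.le)]
    have h4 : (b : ℝ) / (((qAHi b : ℚ) : ℝ) * (1 + b) ^ 2) ≤ x / (A x * (1 + x) ^ 2) := by
      have h5 : (b : ℝ) / A b ≤ x / A x := by
        have h6 := A_div_mono hx0 h2 hb1
        have hAb0 := A_pos hb0 hb1
        rw [div_le_div_iff₀ hx0 hb0] at h6
        rw [div_le_div_iff₀ hAb0 hAx]
        linarith
      have h7 : (b : ℝ) / ((qAHi b : ℚ) : ℝ) ≤ (b : ℝ) / A b :=
        div_le_div_of_nonneg_left hb0.le (A_pos hb0 hb1) hAb.2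
      have h8 : (1 + x) ^ 2 ≤ (1 + (b : ℝ)) ^ 2 := pow_le_pow_left₀ hp.le (by linarith) 2
      have e1 : (b : ℝ) / (((qAHi b : ℚ) : ℝ) * (1 + b) ^ 2) =
          ((b : ℝ) / ((qAHi b : ℚ) : ℝ)) / (1 + b) ^ 2 := by
        rw [div_div]
      have e2 : x / (A x * (1 + x) ^ 2) = (x / A x) / (1 + x) ^ 2 := by
        rw [div_div]
      rw [e1, e2]
      exact div_le_div₀ (by positivity) (le_trans h7 h5) (by positivity) h8
    linarith
  have hG2 : G1 x ^ 2 ≤ (((qentHi a : ℚ) : ℝ) / ((1 - (a : ℝ)) * ((qALo a : ℚ) : ℝ))) ^ 2 :=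
    pow_le_pow_left₀ hG0 hG1 2
  have hP := mul_le_mul hG2 hF1 hF0 (by positivity)
  refine le_trans hP ?_
  have hc := (Rat.cast_le (K := ℝ)).mpr hL
  unfold Q2Hi at hc
  push_cast at hc
  exact hc

/-- The knots of the first chain, from `3/100`. -/
def knQ1 : List ℚ := [639/10000, 855/10000, 1029/10000, 1180/10000, 1316/10000, 1441/10000, 1557/10000, 1667/10000, 1772/10000, 1872/10000, 1969/10000, 2063/10000, 2154/10000, 2242/10000, 2328/10000, 2413/10000, 2496/10000, 2577/10000, 2657/10000, 2736/10000, 2814/10000, 2891/10000, 2967/10000, 3042/10000, 3116/10000, 3189/10000, 3262/10000, 3334/10000, 3406/10000, 3477/10000, 3548/10000, 3618/10000, 3688/10000, 3757/10000, 3826/10000, 3895/10000, 3963/10000, 4031/10000, 4099/10000, 4166/10000, 4233/10000, 4300/10000, 4366/10000, 4432/10000, 4498/10000, 4564/10000, 4630/10000, 4695/10000, 4760/10000, 4825/10000, 4890/10000, 4954/10000, 5000/10000]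

/-- The knots of the second chain, from `1/2`. -/
def knQ2 : List ℚ := [5040/10000, 5081/10000, 5123/10000, 5166/10000, 5211/10000, 5257/10000, 5305/10000, 5354/10000, 5405/10000, 5458/10000, 5513/10000, 5570/10000, 5629/10000, 5691/10000, 5755/10000, 5822/10000, 5892/10000, 5965/10000, 6042/10000, 6123/10000, 6208/10000, 6298/10000, 6393/10000, 6494/10000, 6601/10000, 6715/10000, 6837/10000, 6968/10000, 7110/10000, 7264/10000, 7431/10000, 7614/10000, 7816/10000, 8040/10000, 8290/10000, 8571/10000, 8886/10000, 9100/10000]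

/-- The knots of the third chain, from `91/100`. -/
def knQ3 : List ℚ := [910472/1000000, 911022/1000000, 911664/1000000, 912413/1000000, 913287/1000000, 914308/1000000, 915501/1000000, 916896/1000000, 918529/1000000, 920443/1000000, 922688/1000000, 925325/1000000, 928426/1000000, 932077/1000000, 936380/1000000, 941453/1000000, 947428/1000000, 954443/1000000, 962607/1000000, 971920/1000000, 982055/1000000, 990000/1000000]

lemma chainQ1 : cellsOK (Q1ok (645 / 1000)) knQ1 (3 / 100) = true := by decide +kernel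
lemma chainQ2 : cellsOK (Q2ok (645 / 1000)) knQ2 (1 / 2) = true := by decide +kernel
lemma chainQ3 : cellsOK (Q2ok (6025 / 10000)) knQ3 (91 / 100) = true := by decide +kernel
lemma lastQ1 : lastOf knQ1 (3 / 100) = 1 / 2 := by decide +kernel
lemma lastQ2 : lastOf knQ2 (1 / 2) = 91 / 100 := by decide +kernel
lemma lastQ3 : lastOf knQ3 (91 / 100) = 99 / 100 := by decide +kernel

/-- The first piece: `ρ ≤ 3/100`. -/
lemma num_first : qOK (3 / 100) = true ∧
    ln2Hi ^ 2 * (1 + ((qAHi (3 / 100) - 3 / 100) / (3 / 100) ^ 3)) / (1 - (3 / 100) ^ 2) ^ 2 ≤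
      645 / 1000 := by
  decide +kernel

lemma Q_first {x : ℝ} (h0 : 0 < x) (h1 : x ≤ 3 / 100) : ent x ^ 2 * dkap x / A x ≤ 645 / 1000 := by
  have hx1 : x < 1 := by linarith
  rw [Q_form1 h0 hx1]
  have hn := num_first
  have he0 : 0 ≤ ent x := (ent_pos (abs_lt_one_of h0.le hx1)).le
  have hl := ln2_bounds
  have he1 : ent x ≤ ((ln2Hi : ℚ) : ℝ) := le_trans (ent_le_log_two x) hl.2
  have hAx := A_pos h0 hx1
  have hr0 : 0 ≤ x / A x := by positivity
  have hr1 : x / A x ≤ 1 := by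
    rw [div_le_one hAx]
    exact A_ge_self h0.le hx1
  have hE0 : 0 ≤ E3 x := by
    unfold E3
    have := A_ge_self h0.le hx1
    apply div_nonneg (by linarith) (by positivity)
  have hq := q_A hn.1
  have hE1 : E3 x ≤ (((qAHi (3 / 100) : ℚ) : ℝ) - (3 / 100 : ℚ)) / (((3 / 100 : ℚ) : ℝ)) ^ 3 := by
    have hc : x ≤ ((3 / 100 : ℚ) : ℝ) := by
      push_cast
      exact h1
    have hc1 : ((3 / 100 : ℚ) : ℝ) < 1 := q_lt hn.1
    refine le_trans (E3_mono h0 hc hc1) ?_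
    unfold E3
    apply div_le_div_of_nonneg_right _ (by positivity)
    linarith [hq.2]
  have hS0 : (0 : ℝ) < 1 - (((3 / 100 : ℚ)) : ℝ) ^ 2 := by
    push_cast
    norm_num
  have hS1 : 1 - (((3 / 100 : ℚ)) : ℝ) ^ 2 ≤ 1 - x ^ 2 := by
    push_cast
    nlinarith
  have hP := prod_bound1 he0 he1 hr0 hr1 hE0 hE1 hS0 hS1
  refine le_trans hP ?_
  have hc := (Rat.cast_le (K := ℝ)).mpr hn.2
  push_cast at hc ⊢
  norm_num at hc ⊢
  linarith

/-- The tail `ρ ≥ 99/100`. -/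
lemma num_tail : qOK (99 / 100) = true ∧ 2646 / 1000 ≤ qALo (99 / 100) := by
  decide +kernel

lemma Q_tail {x : ℝ} (h0 : 99 / 100 ≤ x) (h1 : x < 1) : ent x ^ 2 * dkap x / A x ≤ 6025 / 10000 := by
  have hx0 : 0 < x := by linarith
  have hn := num_tail
  have hAx := A_pos hx0 h1
  have hA0 : (2646 / 1000 : ℝ) ≤ A x := by
    have h2 := q_A hn.1
    have h3 : A (((99 / 100 : ℚ)) : ℝ) ≤ A x := by
      apply A_mono' (by push_cast; norm_num) (by push_cast; linarith) h1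
    have h4 := (Rat.cast_le (K := ℝ)).mpr hn.2
    push_cast at h4 h2 h3
    linarith [h2.1]
  rw [Q_form2 hx0 h1, G1_eq hx0 h1]
  have hs : 0 < 1 - x := by linarith
  have hp : 0 < 1 + x := by linarith
  have hl := log_two_sub_le hx0.le h1
  have hl0 := ell_lower hx0.le h1.le
  set t := 1 / A x with ht
  have ht0 : 0 < t := by positivity
  have ht1 : t ≤ 38 / 100 := by
    rw [ht, div_le_iff₀ hAx]
    linarith
  have ha : (log 2 - log (1 + x)) / (1 - x) ≤ 503 / 1000 := by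
    rw [div_le_iff₀ hs]
    have h3 : (1 - x) / (1 + x) ≤ 503 / 1000 * (1 - x) := by
      rw [div_le_iff₀ hp]
      nlinarith
    linarith
  have ha0 : 0 ≤ (log 2 - log (1 + x)) / (1 - x) := by
    apply div_nonneg (by linarith) hs.le
  have e1 : ((log 2 - log (1 + x)) / (1 - x)) / A x = ((log 2 - log (1 + x)) / (1 - x)) * t := by
    rw [ht]
    ring
  have e2 : x / (A x * (1 + x) ^ 2) = t * (x / (1 + x) ^ 2) := by
    rw [ht]
    field_simp
  rw [e1, e2]
  have hc1 : (1 + x ^ 2) / (1 + x) ^ 2 ≤ 50003 / 100000 := by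
    rw [div_le_iff₀ (by positivity)]
    nlinarith
  have hc2 : 2499 / 10000 ≤ x / (1 + x) ^ 2 := by
    rw [le_div_iff₀ (by positivity)]
    nlinarith
  have hG : 1 + ((log 2 - log (1 + x)) / (1 - x)) * t ≤ 1 + 503 / 1000 * t := by
    have := mul_le_mul_of_nonneg_right ha ht0.le
    linarith
  have hG0 : 0 ≤ 1 + ((log 2 - log (1 + x)) / (1 - x)) * t := by positivity
  have hG2 : (1 + ((log 2 - log (1 + x)) / (1 - x)) * t) ^ 2 ≤ (1 + 503 / 1000 * t) ^ 2 :=
    pow_le_pow_left₀ hG0 hG 2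
  have hF : (1 + x ^ 2) / (1 + x) ^ 2 - t * (x / (1 + x) ^ 2) ≤ 50003 / 100000 - t * (2499 / 10000) := by
    have := mul_le_mul_of_nonneg_left hc2 ht0.le
    linarith
  have hF0 : 0 ≤ (1 + x ^ 2) / (1 + x) ^ 2 - t * (x / (1 + x) ^ 2) := by
    have e3 : (1 + x ^ 2) / (1 + x) ^ 2 - t * (x / (1 + x) ^ 2) =
        ((1 + x ^ 2) - t * x) / (1 + x) ^ 2 := by
      field_simp
    rw [e3]
    apply div_nonneg _ (by positivity)
    nlinarith
  have hP := mul_le_mul hG2 hF hF0 (by positivity)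
  refine le_trans hP ?_
  nlinarith [mul_nonneg ht0.le (sub_nonneg.mpr ht1), mul_nonneg (mul_nonneg ht0.le ht0.le) (sub_nonneg.mpr ht1)]

/-- `F2`. -/
theorem fact_F2b {ρ : ℝ} (h0 : 91 / 100 ≤ ρ) (h1 : ρ < 1) : ent ρ ^ 2 * dkap ρ / A ρ ≤ 6025 / 10000 := by
  rcases le_or_gt (99 / 100) ρ with h | h
  · exact Q_tail h h1
  · rcases eq_or_lt_of_le h0 with h2 | h2
    · have hc := Q2_cell (6025 / 10000) (91 / 100) (910472 / 1000000)
        (by decide +kernel) ρ (by push_cast; linarith) (by push_cast; norm_num; linarith)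
      push_cast at hc
      exact hc
    · have hs := cells_sound (G := fun x => ent x ^ 2 * dkap x / A x ≤ ((6025 / 10000 : ℚ) : ℝ))
        (Q2_cell (6025 / 10000)) knQ3 (91 / 100) chainQ3 ρ (by push_cast; linarith)
        (by rw [lastQ3]; push_cast; linarith)
      push_cast at hs
      exact hs

/-- `F1`. -/
theorem fact_F1 {ρ : ℝ} (h0 : 0 < ρ) (h1 : ρ < 1) : ent ρ ^ 2 * dkap ρ / A ρ ≤ 645 / 1000 := by
  rcases le_or_gt ρ (3 / 100) with h | h
  · exact Q_first h0 h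
  rcases le_or_gt ρ (1 / 2) with h2 | h2
  · have hs := cells_sound (G := fun x => ent x ^ 2 * dkap x / A x ≤ ((645 / 1000 : ℚ) : ℝ))
      (Q1_cell (645 / 1000)) knQ1 (3 / 100) chainQ1 ρ (by push_cast; linarith)
      (by rw [lastQ1]; push_cast; linarith)
    push_cast at hs
    exact hs
  rcases le_or_gt ρ (91 / 100) with h3 | h3
  · have hs := cells_sound (G := fun x => ent x ^ 2 * dkap x / A x ≤ ((645 / 1000 : ℚ) : ℝ))
      (Q2_cell (645 / 1000)) knQ2 (1 / 2) chainQ2 ρ (by push_cast; linarith)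
      (by rw [lastQ2]; push_cast; linarith)
    push_cast at hs
    exact hs
  have := fact_F2b h3.le h1
  linarith

end Vale.Agent.CK
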