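import Vale.Agent.CK.FactsQ

/-!
The fact `F2`: the bound of `Q` on `[.91, 1)`, by a polynomial argument.
-/

open Real Set

namespace Vale.Agent.CK

open Vale.Agent.P322

/-- The polynomial expression `Q (1+x)² w³ - (w+c)² ((1+x²) w - x)`. -/
noncomputable def F2G (x w : ℝ) : ℝ :=
  6025 / 10000 * (1 + x) ^ 2 * w ^ 3 - (w + 512 / 1000) ^ 2 * ((1 + x ^ 2) * w - x)

lemma F2G_base {s : ℝ} (h0 : 0 ≤ s) (h1 : s ≤ 9 / 100) :
    0 ≤ F2G (91 / 100 + s) (1527 / 1000 + 58 / 10 * s) := by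
  have e : F2G (91 / 100 + s) (1527 / 1000 + 58 / 10 * s) =
      14428197740743 / 4000000000000000 + 868940390883 / 625000000000 * s +
      11138869418719 / 400000000000 * s ^ 2 +
      s ^ 3 * (163073820423 / 2000000000 - 17478503 / 10000000 * s - 3877851 / 50000 * s ^ 2) := by
    unfold F2G
    ring
  rw [e]
  have h2 : 0 ≤ 163073820423 / 2000000000 - 17478503 / 10000000 * s - 3877851 / 50000 * s ^ 2 := by
    nlinarith
  positivity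

/-- `G` stays nonnegative when `w` grows. -/
lemma F2G_mono {x w W : ℝ} (hx0 : 91 / 100 ≤ x) (hx1 : x ≤ 1) (hW : 1527 / 1000 ≤ W) (hw : W ≤ w)
    (hG : 0 ≤ F2G x W) : 0 ≤ F2G x w := by
  have hW0 : 0 < W := by linarith
  have hw0 : 0 < w := by linarith
  obtain ⟨A1, hA1⟩ : ∃ A1, A1 = 1024 / 1000 * (1 + x ^ 2) - x := ⟨_, rfl⟩
  obtain ⟨A2, hA2⟩ : ∃ A2, A2 = 262144 / 1000000 * (1 + x ^ 2) - 1024 / 1000 * x := ⟨_, rfl⟩
  obtain ⟨A3, hA3⟩ : ∃ A3, A3 = -(262144 / 1000000 * x) := ⟨_, rfl⟩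
  have hA2n : A2 ≤ 0 := by
    rw [hA2]
    nlinarith
  have hA3n : A3 ≤ 0 := by
    rw [hA3]
    linarith
  have iden : W ^ 3 * F2G x w - w ^ 3 * F2G x W =
      (w - W) * (A1 * (w ^ 2 * W ^ 2) + A2 * (w * W * (w + W)) + A3 * (w ^ 2 + w * W + W ^ 2)) := by
    unfold F2G
    rw [hA1, hA2, hA3]
    ring
  -- the bracket is nonnegative
  set W0 : ℝ := 1527 / 1000 with hW00
  have hW0w : W0 ≤ w := le_trans hW hw
  have hb1 : W0 * (w + W) ≤ 2 * (w * W) := by nlinarith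
  have hb2 : W0 ^ 2 * (w ^ 2 + w * W + W ^ 2) ≤ 3 * (w ^ 2 * W ^ 2) := by
    have h1 : W0 ^ 2 ≤ W ^ 2 := pow_le_pow_left₀ (by norm_num [hW00]) hW 2
    have h2 : W0 ^ 2 ≤ w ^ 2 := pow_le_pow_left₀ (by norm_num [hW00]) hW0w 2
    have h3 : W0 ^ 2 ≤ w * W := by
      have : W0 * W0 ≤ w * W := mul_le_mul hW0w hW (by norm_num [hW00]) hw0.le
      nlinarith
    have h4 : W0 ^ 2 * w ^ 2 ≤ W ^ 2 * w ^ 2 := mul_le_mul_of_nonneg_right h1 (by positivity)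
    have h5 : W0 ^ 2 * W ^ 2 ≤ w ^ 2 * W ^ 2 := mul_le_mul_of_nonneg_right h2 (by positivity)
    have h6 : W0 ^ 2 * (w * W) ≤ (w * W) * (w * W) :=
      mul_le_mul_of_nonneg_right h3 (by positivity)
    nlinarith
  have hc : 0 ≤ A1 * W0 ^ 2 + 2 * A2 * W0 + 3 * A3 := by
    rw [hA1, hA2, hA3, hW00]
    nlinarith [sq_nonneg (1 - x)]
  have hB : 0 ≤ A1 * (w ^ 2 * W ^ 2) + A2 * (w * W * (w + W)) + A3 * (w ^ 2 + w * W + W ^ 2) := by
    have hW02 : (0 : ℝ) < W0 ^ 2 := by norm_num [hW00]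
    have h7 : A2 * (2 * (w * W)) ≤ A2 * (W0 * (w + W)) :=
      mul_le_mul_of_nonpos_left hb1 hA2n
    have h8 : A3 * (3 * (w ^ 2 * W ^ 2)) ≤ A3 * (W0 ^ 2 * (w ^ 2 + w * W + W ^ 2)) :=
      mul_le_mul_of_nonpos_left hb2 hA3n
    have h9 : 0 ≤ (A1 * W0 ^ 2 + 2 * A2 * W0 + 3 * A3) * (w ^ 2 * W ^ 2) :=
      mul_nonneg hc (by positivity)
    have h10 : A2 * (W0 * (w + W)) * (W0 * (w * W)) ≥ A2 * (2 * (w * W)) * (W0 * (w * W)) :=
      mul_le_mul_of_nonneg_right h7 (by positivity)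
    have h11 : 0 ≤ W0 ^ 2 * (A1 * (w ^ 2 * W ^ 2) + A2 * (w * W * (w + W)) +
        A3 * (w ^ 2 + w * W + W ^ 2)) := by
      nlinarith
    exact nonneg_of_mul_nonneg_right h11 hW02
  have h12 : 0 ≤ W ^ 3 * F2G x w := by
    have h13 : 0 ≤ (w - W) * (A1 * (w ^ 2 * W ^ 2) + A2 * (w * W * (w + W)) +
        A3 * (w ^ 2 + w * W + W ^ 2)) := mul_nonneg (by linarith) hB
    have h14 : 0 ≤ w ^ 3 * F2G x W := by positivity
    linarith
  exact nonneg_of_mul_nonneg_right h12 (by positivity)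

/-- `F2`, stated without `Qf`. -/
theorem fact_F2 {ρ : ℝ} (h0 : 91 / 100 ≤ ρ) (h1 : ρ < 1) :
    ent ρ ^ 2 * dkap ρ / A ρ ≤ 6025 / 10000 := by
  have hp0 : 0 < ρ := by linarith
  have hx := abs_lt_one_of hp0.le h1
  have hs := one_sub_sq_pos hx
  have hA := A_pos hp0 h1
  have hline := A_ge_line h0 h1
  have hup := ell_upper h0 h1.le
  have hlo := ell_lower hp0.le h1.le
  have he := ent_eq_tail hx
  have hself := A_ge_self hp0.le h1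
  have hG : 0 ≤ F2G ρ (A ρ) := by
    apply F2G_mono h0 h1.le (W := 1527 / 1000 + 58 / 10 * (ρ - 91 / 100)) _ hline
    · have := F2G_base (s := ρ - 91 / 100) (by linarith) (by linarith)
      have e : 91 / 100 + (ρ - 91 / 100) = ρ := by ring
      rw [e] at this
      exact this
    · nlinarith
  obtain ⟨w, hw⟩ : ∃ w, w = A ρ := ⟨_, rfl⟩
  obtain ⟨l, hl⟩ : ∃ l, l = log 2 - log (1 + ρ) := ⟨_, rfl⟩
  unfold dkap
  rw [← hw] at hG hA hself he ⊢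
  rw [← hl] at he hup hlo
  have hN : 0 ≤ (1 + ρ ^ 2) * w - ρ := by nlinarith [sq_nonneg ρ]
  have hε : 0 < 1 - ρ := by linarith
  have hq : 0 < 1 + ρ := by linarith
  have e1 : 1 - ρ ^ 2 = (1 - ρ) * (1 + ρ) := by ring
  rw [e1] at hs ⊢
  have hent0 : 0 ≤ ent ρ := by
    rw [he]
    have : 0 ≤ (1 - ρ) * w := by positivity
    linarith
  have hent : ent ρ ≤ (1 - ρ) * (w + 512 / 1000) := by
    rw [he]
    nlinarith
  have hent2 : ent ρ ^ 2 ≤ ((1 - ρ) * (w + 512 / 1000)) ^ 2 := pow_le_pow_left₀ hent0 hent 2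
  unfold F2G at hG
  have e2 : ent ρ ^ 2 * (((1 + ρ ^ 2) * w - ρ) / (((1 - ρ) * (1 + ρ)) ^ 2 * w ^ 2)) / w =
      (ent ρ ^ 2 * ((1 + ρ ^ 2) * w - ρ)) / (((1 - ρ) * (1 + ρ)) ^ 2 * w ^ 3) := by
    field_simp
  rw [e2, div_le_iff₀ (by positivity)]
  have h3 : ent ρ ^ 2 * ((1 + ρ ^ 2) * w - ρ) ≤
      ((1 - ρ) * (w + 512 / 1000)) ^ 2 * ((1 + ρ ^ 2) * w - ρ) :=
    mul_le_mul_of_nonneg_right hent2 hN
  have h4 : (1 - ρ) ^ 2 * ((w + 512 / 1000) ^ 2 * ((1 + ρ ^ 2) * w - ρ)) ≤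
      (1 - ρ) ^ 2 * (6025 / 10000 * (1 + ρ) ^ 2 * w ^ 3) :=
    mul_le_mul_of_nonneg_left (by linarith) (by positivity)
  nlinarith

end Vale.Agent.CK
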