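import Vale.Agent.CK.FactsA

/-!
Rational enclosures at knots, and chains of cells.
-/

open Real Set

namespace Vale.Agent.CK

open Vale.Agent.P322

/-- Lower bound for `log (1 + s)`. -/
def qlpLo (s : ℚ) : ℚ := ln2Lo + logLo ((1 + s) / 2)
/-- Upper bound for `log (1 + s)`. -/
def qlpHi (s : ℚ) : ℚ := ln2Hi + logHi ((1 + s) / 2)
/-- Lower bound for `log (1 - s)`. -/
def qlmLo (s : ℚ) : ℚ := logLo (1 - s)
/-- Upper bound for `log (1 - s)`. -/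
def qlmHi (s : ℚ) : ℚ := logHi (1 - s)
/-- Lower bound for `A s`. -/
def qALo (s : ℚ) : ℚ := (qlpLo s - qlmHi s) / 2
/-- Upper bound for `A s`. -/
def qAHi (s : ℚ) : ℚ := (qlpHi s - qlmLo s) / 2
/-- Lower bound for `h s`; `h = (1 - s) w + log 2 - log (1 + s)`. -/
def qentLo (s : ℚ) : ℚ := (1 - s) * qALo s + ln2Lo - qlpHi s
/-- Upper bound for `h s`. -/
def qentHi (s : ℚ) : ℚ := (1 - s) * qAHi s + ln2Hi - qlpLo s

/-- Side conditions at a knot. -/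
def qOK (s : ℚ) : Bool :=
  decide (0 < s) && decide (s < 1) && logOK ((1 + s) / 2) && logOK (1 - s) && decide (0 < qALo s)

section knot

variable {s : ℚ}

lemma q_pos (h : qOK s = true) : (0 : ℝ) < s := by
  unfold qOK at h
  simp only [Bool.and_eq_true, decide_eq_true_eq] at h
  exact_mod_cast h.1.1.1.1

lemma q_lt (h : qOK s = true) : (s : ℝ) < 1 := by
  unfold qOK at h
  simp only [Bool.and_eq_true, decide_eq_true_eq] at h
  exact_mod_cast h.1.1.1.2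

lemma q_lp (h : qOK s = true) :
    ((qlpLo s : ℚ) : ℝ) ≤ log (1 + s) ∧ log (1 + s) ≤ ((qlpHi s : ℚ) : ℝ) := by
  have h0 := q_pos h
  unfold qOK at h
  simp only [Bool.and_eq_true, decide_eq_true_eq] at h
  have h1 := log_bounds h.1.1.2
  have e : log (1 + (s : ℝ)) = log 2 + log (((1 + s) / 2 : ℚ) : ℝ) := by
    rw [← Real.log_mul (by norm_num) (by push_cast; positivity)]
    push_cast
    congr 1
    ring
  have hl := ln2_bounds
  rw [e]
  unfold qlpLo qlpHi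
  push_cast at h1 ⊢
  constructor <;> linarith [h1.1, h1.2, hl.1, hl.2]

lemma q_lm (h : qOK s = true) :
    ((qlmLo s : ℚ) : ℝ) ≤ log (1 - s) ∧ log (1 - s) ≤ ((qlmHi s : ℚ) : ℝ) := by
  unfold qOK at h
  simp only [Bool.and_eq_true, decide_eq_true_eq] at h
  have h1 := log_bounds h.1.2
  unfold qlmLo qlmHi
  push_cast at h1
  exact h1

lemma q_A (h : qOK s = true) :
    ((qALo s : ℚ) : ℝ) ≤ A s ∧ A s ≤ ((qAHi s : ℚ) : ℝ) := by
  have h1 := q_lp h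
  have h2 := q_lm h
  unfold A qALo qAHi
  push_cast
  constructor <;> linarith [h1.1, h1.2, h2.1, h2.2]

lemma q_ALo_pos (h : qOK s = true) : (0 : ℝ) < ((qALo s : ℚ) : ℝ) := by
  unfold qOK at h
  simp only [Bool.and_eq_true, decide_eq_true_eq] at h
  exact_mod_cast h.2

lemma q_ent (h : qOK s = true) :
    ((qentLo s : ℚ) : ℝ) ≤ ent s ∧ ent s ≤ ((qentHi s : ℚ) : ℝ) := by
  have h0 := q_pos h
  have h1 := q_lt h
  have hx := abs_lt_one_of h0.le h1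
  have hA := q_A h
  have hp := q_lp h
  have hl := ln2_bounds
  have hs : (0 : ℝ) ≤ 1 - s := by linarith
  have m1 := mul_le_mul_of_nonneg_left hA.1 hs
  have m2 := mul_le_mul_of_nonneg_left hA.2 hs
  rw [ent_eq_tail hx]
  unfold qentLo qentHi
  push_cast
  constructor <;> linarith [hp.1, hp.2, hl.1, hl.2]

end knot

/-- A chain of cells: the check `P a b` on consecutive knots, from the current knot. -/
def cellsOK (P : ℚ → ℚ → Bool) : List ℚ → ℚ → Bool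
  | [], _ => true
  | b :: l, a => P a b && cellsOK P l b

/-- The last knot of a chain. -/
def lastOf : List ℚ → ℚ → ℚ
  | [], a => a
  | b :: l, _ => lastOf l b

/-- A property which holds on each cell holds on the whole chain. -/
theorem cells_sound {P : ℚ → ℚ → Bool} {G : ℝ → Prop}
    (hcell : ∀ a b : ℚ, P a b = true → ∀ x : ℝ, (a : ℝ) ≤ x → x ≤ (b : ℝ) → G x) :
    ∀ (L : List ℚ) (a : ℚ), cellsOK P L a = true → ∀ x : ℝ, (a : ℝ) < x →
      x ≤ ((lastOf L a : ℚ) : ℝ) → G x := by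
  intro L
  induction L with
  | nil =>
    intro a _ x h1 h2
    exact absurd h1 (not_lt.mpr h2)
  | cons b l ih =>
    intro a h x h1 h2
    simp only [cellsOK, Bool.and_eq_true] at h
    rcases lt_or_ge (b : ℝ) x with hc | hc
    · exact ih b h.2 x hc h2
    · exact hcell a b h.1 x h1.le hc

/-- `A` is monotone. -/
lemma A_mono' {x y : ℝ} (h0 : 0 ≤ x) (hxy : x ≤ y) (h1 : y < 1) : A x ≤ A y := by
  have hm : MonotoneOn A (Icc x y) := by
    apply mono_of_deriv (f' := fun z => 1 / (1 - z ^ 2))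
    · intro z hz
      have hz' : |z| < 1 := abs_lt_one_of (by linarith [hz.1]) (lt_of_le_of_lt hz.2 h1)
      exact (hasDerivAt_A hz').continuousAt.continuousWithinAt
    · intro z hz
      exact hasDerivAt_A (abs_lt_one_of (by linarith [hz.1]) (lt_trans hz.2 h1))
    · intro z hz
      have hz' : |z| < 1 := abs_lt_one_of (by linarith [hz.1]) (lt_trans hz.2 h1)
      have := one_sub_sq_pos hz'
      positivity
  exact hm (left_mem_Icc.mpr hxy) (right_mem_Icc.mpr hxy) hxy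

lemma ent_anti' {x y : ℝ} (h0 : 0 ≤ x) (hxy : x ≤ y) (h1 : y ≤ 1) : ent y ≤ ent x :=
  ent_strictAntiOn.antitoneOn ⟨h0, by linarith⟩ ⟨by linarith, h1⟩ hxy

/-- The form of `F3` in terms of `w`. -/
lemma F3_reduce {ρ : ℝ} (h0 : 0 < ρ) (h1 : ρ < 1)
    (hΘ : (645 / 1000 * (5 / 4 - ρ ^ 2 / 4) * (1 + ρ) - 1) * A ρ ≤
      (1 - 645 / 1000 * (5 / 4 - ρ ^ 2 / 4) * (1 + ρ) * (1 - ρ)) / 2) :
    645 / 1000 * (ρ * (5 / 4 - ρ ^ 2 / 4)) ≤ c3 ρ * ent ρ / ρ := by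
  have hx := abs_lt_one_of h0.le h1
  have hs := one_sub_sq_pos hx
  have hL := Lf_pos hx
  have e : c3 ρ * ent ρ / ρ = ρ * ent ρ / ((1 - ρ ^ 2) * Lf ρ) := by
    unfold c3
    field_simp
  rw [e, le_div_iff₀ (by positivity)]
  have hlo := ell_lower h0.le h1.le
  have he := ent_eq_tail hx
  have hLf := Lf_eq_tail hx
  obtain ⟨w, hw⟩ : ∃ w, w = A ρ := ⟨_, rfl⟩
  obtain ⟨l, hl⟩ : ∃ l, l = log 2 - log (1 + ρ) := ⟨_, rfl⟩
  rw [← hw, ← hl] at he hLf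
  rw [← hl] at hlo
  rw [← hw] at hΘ
  rw [he, hLf]
  obtain ⟨C, hC⟩ : ∃ C, C = 645 / 1000 * (5 / 4 - ρ ^ 2 / 4) * (1 + ρ) := ⟨_, rfl⟩
  rw [← hC] at hΘ
  have hε0 : 0 < 1 - ρ := by linarith
  have e1 : 1 - ρ ^ 2 = (1 - ρ) * (1 + ρ) := by ring
  have hCε : 0 ≤ 1 - C * (1 - ρ) := by
    rw [hC]
    have h2 : 645 / 1000 * (5 / 4 - ρ ^ 2 / 4) * (1 + ρ) * (1 - ρ) =
        645 / 1000 * ((5 / 4 - ρ ^ 2 / 4) * (1 - ρ ^ 2)) := by ring
    rw [h2]
    have h3 : 0 < ρ ^ 2 := by positivity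
    have h4 : ρ ^ 2 < 1 := by nlinarith
    nlinarith
  have hkey : C * (1 - ρ) * (w + l) ≤ (1 - ρ) * w + l := by
    have h5 : (C - 1) * (1 - ρ) * w ≤ (1 - ρ) / 2 * (1 - C * (1 - ρ)) := by
      have := mul_le_mul_of_nonneg_left hΘ hε0.le
      nlinarith
    have h6 : (1 - ρ) / 2 * (1 - C * (1 - ρ)) ≤ l * (1 - C * (1 - ρ)) :=
      mul_le_mul_of_nonneg_right hlo hCε
    nlinarith
  have h7 := mul_le_mul_of_nonneg_left hkey h0.le
  rw [e1]
  have e2 : 645 / 1000 * (ρ * (5 / 4 - ρ ^ 2 / 4)) * ((1 - ρ) * (1 + ρ) * (w + l)) =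
      ρ * (C * (1 - ρ) * (w + l)) := by
    rw [hC]
    ring
  rw [e2]
  exact h7

/-- The cell check of `F3`: rational form. -/
def F3ok (a b : ℚ) : Bool :=
  qOK b && decide (0 < a) && decide (a ≤ b) &&
    decide (1 ≤ 645 / 1000 * (5 / 4 - b ^ 2 / 4) * (1 + b)) &&
    decide ((645 / 1000 * (5 / 4 - b ^ 2 / 4) * (1 + b) - 1) * qAHi b ≤
      (1 - 645 / 1000 * (5 / 4 - a ^ 2 / 4) * (1 + a) * (1 - a)) / 2)

lemma F3_cell (a b : ℚ) (h : F3ok a b = true) (x : ℝ) (h1 : (a : ℝ) ≤ x) (h2 : x ≤ (b : ℝ)) :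
    645 / 1000 * (x * (5 / 4 - x ^ 2 / 4)) ≤ c3 x * ent x / x := by
  unfold F3ok at h
  simp only [Bool.and_eq_true, decide_eq_true_eq] at h
  obtain ⟨⟨⟨⟨hb, ha0⟩, hab⟩, hC1⟩, hc⟩ := h
  have ha0' : (0 : ℝ) < a := by exact_mod_cast ha0
  have hb1 := q_lt hb
  have hx0 : 0 < x := by linarith
  have hx1 : x < 1 := by linarith
  have hAb := (q_A hb).2
  have hC1' : (1 : ℝ) ≤ 645 / 1000 * (5 / 4 - (b : ℝ) ^ 2 / 4) * (1 + b) := by
    have := (Rat.cast_le (K := ℝ)).mpr hC1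
    push_cast at this
    exact this
  have hc' : (645 / 1000 * (5 / 4 - (b : ℝ) ^ 2 / 4) * (1 + b) - 1) * ((qAHi b : ℚ) : ℝ) ≤
      (1 - 645 / 1000 * (5 / 4 - (a : ℝ) ^ 2 / 4) * (1 + a) * (1 - a)) / 2 := by
    have := (Rat.cast_le (K := ℝ)).mpr hc
    push_cast at this
    exact this
  apply F3_reduce hx0 hx1
  have hA0 := A_pos hx0 hx1
  have hAx : A x ≤ A b := A_mono' hx0.le h2 hb1
  -- monotonicity of the polynomial factors
  have hP1 : 645 / 1000 * (5 / 4 - x ^ 2 / 4) * (1 + x) ≤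
      645 / 1000 * (5 / 4 - (b : ℝ) ^ 2 / 4) * (1 + b) := by
    have e : 645 / 1000 * (5 / 4 - (b : ℝ) ^ 2 / 4) * (1 + b) -
        645 / 1000 * (5 / 4 - x ^ 2 / 4) * (1 + x) =
        645 / 1000 * (((b : ℝ) - x) * (5 / 4 - (x ^ 2 + x * b + b ^ 2) / 4 - (x + b) / 4)) := by ring
    have h3 : 0 ≤ 5 / 4 - (x ^ 2 + x * (b : ℝ) + (b : ℝ) ^ 2) / 4 - (x + (b : ℝ)) / 4 := by
      nlinarith
    have h4 : 0 ≤ ((b : ℝ) - x) * (5 / 4 - (x ^ 2 + x * b + b ^ 2) / 4 - (x + b) / 4) :=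
      mul_nonneg (by linarith) h3
    nlinarith
  have hP2 : 645 / 1000 * (5 / 4 - x ^ 2 / 4) * (1 + x) * (1 - x) ≤
      645 / 1000 * (5 / 4 - (a : ℝ) ^ 2 / 4) * (1 + a) * (1 - a) := by
    have e1 : 645 / 1000 * (5 / 4 - x ^ 2 / 4) * (1 + x) * (1 - x) =
        645 / 1000 * ((5 / 4 - x ^ 2 / 4) * (1 - x ^ 2)) := by ring
    have e2 : 645 / 1000 * (5 / 4 - (a : ℝ) ^ 2 / 4) * (1 + a) * (1 - a) =
        645 / 1000 * ((5 / 4 - (a : ℝ) ^ 2 / 4) * (1 - (a : ℝ) ^ 2)) := by ring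
    rw [e1, e2]
    have h5 : (a : ℝ) ^ 2 ≤ x ^ 2 := pow_le_pow_left₀ ha0'.le h1 2
    have h6 : x ^ 2 < 1 := by nlinarith
    have h7 : 0 < 1 - x ^ 2 := by linarith
    have h8 : (5 / 4 - x ^ 2 / 4) * (1 - x ^ 2) ≤ (5 / 4 - (a : ℝ) ^ 2 / 4) * (1 - (a : ℝ) ^ 2) :=
      mul_le_mul (by linarith) (by linarith) h7.le (by nlinarith)
    linarith
  have h9 : (645 / 1000 * (5 / 4 - x ^ 2 / 4) * (1 + x) - 1) * A x ≤
      (645 / 1000 * (5 / 4 - (b : ℝ) ^ 2 / 4) * (1 + b) - 1) * ((qAHi b : ℚ) : ℝ) := by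
    have h10 : (645 / 1000 * (5 / 4 - x ^ 2 / 4) * (1 + x) - 1) * A x ≤
        (645 / 1000 * (5 / 4 - (b : ℝ) ^ 2 / 4) * (1 + b) - 1) * A x :=
      mul_le_mul_of_nonneg_right (by linarith) hA0.le
    have h11 : (645 / 1000 * (5 / 4 - (b : ℝ) ^ 2 / 4) * (1 + b) - 1) * A x ≤
        (645 / 1000 * (5 / 4 - (b : ℝ) ^ 2 / 4) * (1 + b) - 1) * ((qAHi b : ℚ) : ℝ) :=
      mul_le_mul_of_nonneg_left (by linarith) (by linarith)
    linarith
  linarith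

/-- The knots for `F3`. -/
def F3knots : List ℚ := [56 / 100, 74 / 100, 84 / 100, 88 / 100, 90 / 100, 91 / 100]

lemma F3_chain : cellsOK F3ok F3knots (1 / 5) = true := by decide +kernel

lemma F3_last : ((lastOf F3knots (1 / 5) : ℚ) : ℝ) = 91 / 100 := by
  have : lastOf F3knots (1 / 5) = 91 / 100 := by decide +kernel
  rw [this]
  norm_num

/-- `F3`. -/
theorem fact_F3 {ρ : ℝ} (h0 : 0 < ρ) (h1 : ρ ≤ 91 / 100) :
    645 / 1000 * (ρ * (5 / 4 - ρ ^ 2 / 4)) ≤ c3 ρ * ent ρ / ρ := by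
  rcases le_or_gt ρ (1 / 5) with h | h
  · apply F3_reduce h0 (by linarith)
    have hA0 := A_pos h0 (by linarith)
    have h2 : 645 / 1000 * (5 / 4 - ρ ^ 2 / 4) * (1 + ρ) ≤ 1 := by nlinarith
    have h3 : (645 / 1000 * (5 / 4 - ρ ^ 2 / 4) * (1 + ρ) - 1) * A ρ ≤ 0 :=
      mul_nonpos_of_nonpos_of_nonneg (by linarith) hA0.le
    have h4 : 645 / 1000 * (5 / 4 - ρ ^ 2 / 4) * (1 + ρ) * (1 - ρ) ≤ 1 := by
      have e : 645 / 1000 * (5 / 4 - ρ ^ 2 / 4) * (1 + ρ) * (1 - ρ) =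
          (645 / 1000 * (5 / 4 - ρ ^ 2 / 4) * (1 + ρ)) * (1 - ρ) := by ring
      rw [e]
      nlinarith
    linarith
  · have hs := cells_sound (G := fun x => 645 / 1000 * (x * (5 / 4 - x ^ 2 / 4)) ≤ c3 x * ent x / x)
      F3_cell F3knots (1 / 5) F3_chain ρ (by push_cast; linarith)
      (by rw [F3_last]; exact h1)
    exact hs

end Vale.Agent.CK
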