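import Vale.Agent.CK.FactsQ

/-!
The facts `F4`, `F8`, `F2`, `F1`, proved with rational knots.
-/

open Real Set

namespace Vale.Agent.CK

open Vale.Agent.P322

/-- Lower bound for `κ s`. -/
def qkapLo (s : ℚ) : ℚ := s / ((1 - s ^ 2) * qAHi s) - 1
/-- Upper bound for `κ s`. -/
def qkapHi (s : ℚ) : ℚ := s / ((1 - s ^ 2) * qALo s) - 1

lemma q_kap {s : ℚ} (h : qOK s = true) :
    ((qkapLo s : ℚ) : ℝ) ≤ kap s ∧ kap s ≤ ((qkapHi s : ℚ) : ℝ) := by
  have h0 := q_pos h
  have h1 := q_lt h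
  have hA := q_A h
  have h2 := q_ALo_pos h
  have h3 := one_sub_sq_pos (abs_lt_one_of h0.le h1)
  rw [kap_of_pos h0]
  unfold qkapLo qkapHi
  push_cast
  have hA0 : 0 < A (s : ℝ) := lt_of_lt_of_le h2 hA.1
  constructor
  · have h4 : (s : ℝ) / ((1 - (s : ℝ) ^ 2) * ((qAHi s : ℚ) : ℝ)) ≤
        (s : ℝ) / ((1 - (s : ℝ) ^ 2) * A s) := by
      apply div_le_div_of_nonneg_left h0.le (by positivity)
      exact mul_le_mul_of_nonneg_left hA.2 h3.le
    linarith
  · have h4 : (s : ℝ) / ((1 - (s : ℝ) ^ 2) * A s) ≤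
        (s : ℝ) / ((1 - (s : ℝ) ^ 2) * ((qALo s : ℚ) : ℝ)) := by
      apply div_le_div_of_nonneg_left h0.le (by positivity)
      exact mul_le_mul_of_nonneg_left hA.1 h3.le
    linarith

/-- The exact form of `κ h`. -/
lemma kap_ent_eq {x : ℝ} (h0 : 0 < x) (h1 : x < 1) :
    kap x * ent x = x / (1 + x) + x * (log 2 - log (1 + x)) / ((1 - x ^ 2) * A x) -
      (1 - x) * A x - (log 2 - log (1 + x)) := by
  have hx := abs_lt_one_of h0.le h1
  have hA := A_pos h0 h1
  have hp : 0 < 1 - x := by linarith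
  have hq : 0 < 1 + x := by linarith
  rw [kap_of_pos h0, ent_eq_tail hx]
  have e : 1 - x ^ 2 = (1 - x) * (1 + x) := by ring
  rw [e]
  generalize log 2 - log (1 + x) = l
  generalize A x = w at hA
  field_simp
  ring

/-- `(1 - x) w(x)` is antitone on `[4/5, 1)`. -/
lemma one_sub_mul_A_anti {x y : ℝ} (h0 : 4 / 5 ≤ x) (hxy : x ≤ y) (h1 : y < 1) :
    (1 - y) * A y ≤ (1 - x) * A x := by
  have hm : AntitoneOn (fun z => (1 - z) * A z) (Icc x y) := by
    apply anti_of_deriv (f' := fun z => -A z + 1 / (1 + z))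
    · intro z hz
      have hz' : |z| < 1 := abs_lt_one_of (by linarith [hz.1]) (lt_of_le_of_lt hz.2 h1)
      have d := ((hasDerivAt_id' z).const_sub 1).fun_mul (hasDerivAt_A hz')
      exact d.continuousAt.continuousWithinAt
    · intro z hz
      have hz0 : 0 < z := by linarith [hz.1]
      have hz1 : z < 1 := lt_trans hz.2 h1
      have hz' : |z| < 1 := abs_lt_one_of hz0.le hz1
      have d := ((hasDerivAt_id' z).const_sub 1).fun_mul (hasDerivAt_A hz')
      have e : -1 * A z + (1 - z) * (1 / (1 - z ^ 2)) = -A z + 1 / (1 + z) := by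
        have hs : 1 - z ^ 2 = (1 - z) * (1 + z) := by ring
        have hp : 1 - z ≠ 0 := by linarith
        have hq : 1 + z ≠ 0 := by linarith
        rw [hs]
        field_simp
      rw [e] at d
      exact d
    · intro z hz
      have hz0 : 4 / 5 ≤ z := by linarith [hz.1]
      have hz1 : z < 1 := lt_trans hz.2 h1
      have h2 := one_le_A hz0 hz1
      have h3 : 1 / (1 + z) ≤ 1 := by
        rw [div_le_one (by linarith)]
        linarith
      linarith
  exact hm (left_mem_Icc.mpr hxy) (right_mem_Icc.mpr hxy) hxy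

/-! ### `F4` -/

/-- The cell check of `F4`. -/
def F4ok (a b : ℚ) : Bool :=
  qOK a && qOK b && decide (a ≤ b) && decide (0 ≤ qentLo b) &&
    decide (0 ≤ qkapLo a + 595 / 1000) &&
    decide (41 / 100 ≤ (qkapLo a + 595 / 1000) * qentLo b)

lemma F4_cell (a b : ℚ) (h : F4ok a b = true) (x : ℝ) (h1 : (a : ℝ) ≤ x) (h2 : x ≤ (b : ℝ)) :
    41 / 100 ≤ kap x * ent x + 595 / 1000 * ent x := by
  unfold F4ok at h
  simp only [Bool.and_eq_true, decide_eq_true_eq] at h
  obtain ⟨⟨⟨⟨⟨ha, hb⟩, _⟩, he⟩, hk⟩, hc⟩ := h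
  have ha0 := q_pos ha
  have hb1 := q_lt hb
  have hx0 : 0 < x := by linarith
  have hx1 : x < 1 := by linarith
  have hkx : kap a ≤ kap x := kap_mono ha0.le h1 hx1
  have hkq := (q_kap ha).1
  have hent : ent b ≤ ent x := ent_anti' hx0.le h2 hb1.le
  have hentq := (q_ent hb).1
  have he' : (0 : ℝ) ≤ ((qentLo b : ℚ) : ℝ) := by exact_mod_cast he
  have hk' : (0 : ℝ) ≤ ((qkapLo a : ℚ) : ℝ) + 595 / 1000 := by
    have := (Rat.cast_le (K := ℝ)).mpr hk
    push_cast at this
    exact this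
  have hc' : (41 / 100 : ℝ) ≤ (((qkapLo a : ℚ) : ℝ) + 595 / 1000) * ((qentLo b : ℚ) : ℝ) := by
    have := (Rat.cast_le (K := ℝ)).mpr hc
    push_cast at this
    exact this
  have h3 : (((qkapLo a : ℚ) : ℝ) + 595 / 1000) * ((qentLo b : ℚ) : ℝ) ≤
      (kap x + 595 / 1000) * ent x :=
    mul_le_mul (by linarith) (by linarith) he' (by linarith)
  nlinarith

/-- The knots of `F4`. -/
def F4knots : List ℚ :=
  [1327 / 10000, 1862 / 10000, 2455 / 10000, 3128 / 10000, 3889 / 10000, 4730 / 10000, 5624 / 10000,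
    6522 / 10000, 7362 / 10000, 8089 / 10000, 8669 / 10000, 9101 / 10000, 9404 / 10000, 9609 / 10000,
    9700 / 10000]

lemma F4_chain : cellsOK F4ok F4knots (8 / 100) = true := by decide +kernel

lemma F4_last : ((lastOf F4knots (8 / 100) : ℚ) : ℝ) = 97 / 100 := by
  have : lastOf F4knots (8 / 100) = 97 / 100 := by decide +kernel
  rw [this]
  norm_num

lemma F4_first : 41 / 100 ≤ 595 / 1000 * ent (8 / 100) := by
  have hk : qOK (8 / 100) = true := by decide +kernel
  have h := (q_ent hk).1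
  have hc : (41 / 100 : ℚ) ≤ 595 / 1000 * qentLo (8 / 100) := by decide +kernel
  have hc' := (Rat.cast_le (K := ℝ)).mpr hc
  push_cast at hc' h
  nlinarith

lemma F4_tail {x : ℝ} (h0 : 97 / 100 ≤ x) (h1 : x < 1) : 41 / 100 ≤ kap x * ent x := by
  have hx0 : 0 < x := by linarith
  have hx := abs_lt_one_of hx0.le h1
  have hA := A_pos hx0 h1
  have hs := one_sub_sq_pos hx
  rw [kap_ent_eq hx0 h1]
  have h2 := log_two_sub_le hx0.le h1
  have h3 := ell_lower hx0.le h1.le
  have h4 : 0 ≤ x * (log 2 - log (1 + x)) / ((1 - x ^ 2) * A x) := by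
    apply div_nonneg _ (by positivity)
    apply mul_nonneg hx0.le
    linarith
  have h5 := one_sub_mul_A_anti (by norm_num : (4 / 5 : ℝ) ≤ 97 / 100) h0 h1
  have hk : qOK (97 / 100) = true := by decide +kernel
  have h6 := (q_A hk).2
  have hc : (3 / 100 : ℚ) * qAHi (97 / 100) ≤ 63 / 1000 := by decide +kernel
  have hc' := (Rat.cast_le (K := ℝ)).mpr hc
  push_cast at hc' h6
  have e : ((97 : ℝ) / 100) = (97 : ℝ) / 100 := rfl
  have h7 : (1 - (97 / 100 : ℝ)) * A (97 / 100) ≤ 63 / 1000 := by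
    norm_num at h6 ⊢
    nlinarith
  have h8 : x / (1 + x) - (1 - x) / (1 + x) ≥ 477 / 1000 := by
    have : x / (1 + x) - (1 - x) / (1 + x) = (2 * x - 1) / (1 + x) := by
      field_simp
      ring
    rw [this, ge_iff_le, le_div_iff₀ (by linarith)]
    linarith
  linarith

/-- `F4`. -/
theorem fact_F4 {ρ : ℝ} (h0 : 0 ≤ ρ) (h1 : ρ < 1) :
    41 / 100 ≤ kap ρ * ent ρ + 595 / 1000 * ent ρ := by
  have hent : 0 < ent ρ := ent_pos_of h0 h1
  have hk := kap_nonneg h0 h1
  have hm : 0 ≤ kap ρ * ent ρ := mul_nonneg hk hent.le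
  rcases le_or_gt ρ (8 / 100) with h | h
  · have h2 := ent_anti' h0 h (by norm_num)
    have h3 := F4_first
    nlinarith
  rcases le_or_gt ρ (97 / 100) with h' | h'
  · exact cells_sound (G := fun x => 41 / 100 ≤ kap x * ent x + 595 / 1000 * ent x)
      F4_cell F4knots (8 / 100) F4_chain ρ (by push_cast; linarith) (by rw [F4_last]; exact h')
  · have := F4_tail h'.le h1
    nlinarith

/-! ### `F8` -/

/-- The cell check of `F8` on the low part. -/
def F8lo (a b : ℚ) : Bool :=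
  qOK a && qOK b && decide (a ≤ b) && decide (0 ≤ qentHi a) &&
    decide (qkapHi b * qentHi a ≤ 57 / 100)

lemma F8lo_cell (a b : ℚ) (h : F8lo a b = true) (x : ℝ) (h1 : (a : ℝ) ≤ x) (h2 : x ≤ (b : ℝ)) :
    kap x * ent x ≤ 57 / 100 := by
  unfold F8lo at h
  simp only [Bool.and_eq_true, decide_eq_true_eq] at h
  obtain ⟨⟨⟨⟨ha, hb⟩, _⟩, he⟩, hc⟩ := h
  have ha0 := q_pos ha
  have hb1 := q_lt hb
  have hx0 : 0 < x := by linarith
  have hx1 : x < 1 := by linarith
  have hkx : kap x ≤ kap b := kap_mono hx0.le h2 hb1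
  have hkq := (q_kap hb).2
  have hent : ent x ≤ ent a := ent_anti' ha0.le h1 hx1.le
  have hentq := (q_ent ha).2
  have hc' := (Rat.cast_le (K := ℝ)).mpr hc
  push_cast at hc'
  have h3 : kap x * ent x ≤ ((qkapHi b : ℚ) : ℝ) * ((qentHi a : ℚ) : ℝ) :=
    mul_le_mul (by linarith) (by linarith) (ent_pos_of hx0.le hx1).le
      (le_trans (kap_nonneg hx0.le hx1) (by linarith))
  linarith

/-- The bound of `κ h` on a cell, for large arguments. -/
lemma F8hi_bound {a b x α β : ℝ} (ha : 4 / 5 ≤ a) (h1 : a ≤ x) (h2 : x ≤ b) (hb : b < 1)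
    (hα : α ≤ A a) (hα0 : 0 < α) (hβ : β ≤ A b) :
    kap x * ent x ≤ b / (1 + b) * (1 + 1 / ((1 + a) * α)) - (1 - b) * β - (1 - b) / 2 := by
  have hx0 : 0 < x := by linarith
  have hx1 : x < 1 := by linarith
  have hx := abs_lt_one_of hx0.le hx1
  have hA := A_pos hx0 hx1
  have hb0 : 0 < b := by linarith
  rw [kap_ent_eq hx0 hx1]
  have hup := log_two_sub_le hx0.le hx1
  have hlo := ell_lower hx0.le hx1.le
  have hAa : A a ≤ A x := A_mono' (by linarith) h1 hx1
  have hp : 0 < 1 - x := by linarith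
  have hq : 0 < 1 + x := by linarith
  have hr : x / (1 + x) ≤ b / (1 + b) := by
    rw [div_le_div_iff₀ hq (by linarith)]
    nlinarith
  have hT2 : x * (log 2 - log (1 + x)) / ((1 - x ^ 2) * A x) ≤
      b / (1 + b) * (1 / ((1 + a) * α)) := by
    have e1 : 1 - x ^ 2 = (1 - x) * (1 + x) := by ring
    have h3 : x * (log 2 - log (1 + x)) / ((1 - x ^ 2) * A x) ≤
        x * ((1 - x) / (1 + x)) / ((1 - x ^ 2) * A x) := by
      apply div_le_div_of_nonneg_right _ (by rw [e1]; positivity)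
      exact mul_le_mul_of_nonneg_left hup hx0.le
    have h4 : x * ((1 - x) / (1 + x)) / ((1 - x ^ 2) * A x) = x / (1 + x) * (1 / ((1 + x) * A x)) := by
      rw [e1]
      field_simp
    rw [h4] at h3
    refine le_trans h3 ?_
    apply mul_le_mul hr _ (by positivity) (by positivity)
    apply one_div_le_one_div_of_le (by positivity)
    apply mul_le_mul (by linarith) (by linarith) hα0.le (by linarith)
  have hT3 : (1 - b) * β ≤ (1 - x) * A x := by
    have h5 := one_sub_mul_A_anti (by linarith) h2 hb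
    have h6 : (1 - b) * β ≤ (1 - b) * A b := mul_le_mul_of_nonneg_left hβ (by linarith)
    linarith
  have e : b / (1 + b) * (1 + 1 / ((1 + a) * α)) =
      b / (1 + b) + b / (1 + b) * (1 / ((1 + a) * α)) := by ring
  rw [e]
  linarith

/-- The cell check of `F8` on the high part. -/
def F8hi (a b : ℚ) : Bool :=
  qOK a && qOK b && decide (4 / 5 ≤ a) && decide (a ≤ b) &&
    decide (b / (1 + b) * (1 + 1 / ((1 + a) * qALo a)) - (1 - b) * qALo b - (1 - b) / 2 ≤ 57 / 100)

lemma F8hi_cell (a b : ℚ) (h : F8hi a b = true) (x : ℝ) (h1 : (a : ℝ) ≤ x) (h2 : x ≤ (b : ℝ)) :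
    kap x * ent x ≤ 57 / 100 := by
  unfold F8hi at h
  simp only [Bool.and_eq_true, decide_eq_true_eq] at h
  obtain ⟨⟨⟨⟨ha, hb⟩, ha5⟩, _⟩, hc⟩ := h
  have ha5' : (4 / 5 : ℝ) ≤ (a : ℝ) := by
    have := (Rat.cast_le (K := ℝ)).mpr ha5
    push_cast at this
    exact this
  have hc' := (Rat.cast_le (K := ℝ)).mpr hc
  push_cast at hc'
  have := F8hi_bound ha5' h1 h2 (q_lt hb) (q_A ha).1 (q_ALo_pos ha) (q_A hb).1
  linarith

/-- The tail of `F8`. -/
lemma F8_tail {a x α : ℝ} (ha : 4 / 5 ≤ a) (h1 : a ≤ x) (hx1 : x < 1)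
    (hα : α ≤ A a) (hα0 : 0 < α) :
    kap x * ent x ≤ 1 / 2 * (1 + 1 / ((1 + a) * α)) := by
  have hx0 : 0 < x := by linarith
  have hx := abs_lt_one_of hx0.le hx1
  have hA := A_pos hx0 hx1
  rw [kap_ent_eq hx0 hx1]
  have hup := log_two_sub_le hx0.le hx1
  have hlo := ell_lower hx0.le hx1.le
  have hAa : A a ≤ A x := A_mono' (by linarith) h1 hx1
  have hp : 0 < 1 - x := by linarith
  have hq : 0 < 1 + x := by linarith
  have hr : x / (1 + x) ≤ 1 / 2 := by
    rw [div_le_div_iff₀ hq (by norm_num)]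
    linarith
  have hT2 : x * (log 2 - log (1 + x)) / ((1 - x ^ 2) * A x) ≤ 1 / 2 * (1 / ((1 + a) * α)) := by
    have e1 : 1 - x ^ 2 = (1 - x) * (1 + x) := by ring
    have h3 : x * (log 2 - log (1 + x)) / ((1 - x ^ 2) * A x) ≤
        x * ((1 - x) / (1 + x)) / ((1 - x ^ 2) * A x) := by
      apply div_le_div_of_nonneg_right _ (by rw [e1]; positivity)
      exact mul_le_mul_of_nonneg_left hup hx0.le
    have h4 : x * ((1 - x) / (1 + x)) / ((1 - x ^ 2) * A x) = x / (1 + x) * (1 / ((1 + x) * A x)) := by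
      rw [e1]
      field_simp
    rw [h4] at h3
    refine le_trans h3 ?_
    apply mul_le_mul hr _ (by positivity) (by norm_num)
    apply one_div_le_one_div_of_le (by positivity)
    apply mul_le_mul (by linarith) (by linarith) hα0.le (by linarith)
  have h5 : 0 ≤ (1 - x) * A x := by positivity
  have e : 1 / 2 * (1 + 1 / ((1 + a) * α)) = 1 / 2 + 1 / 2 * (1 / ((1 + a) * α)) := by ring
  rw [e]
  linarith

/-- The knots of `F8`, low part. -/
def F8loKnots : List ℚ := [8563 / 10000, 8993 / 10000, 9000 / 10000]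

/-- The knots of `F8`, high part. -/
def F8hiKnots : List ℚ :=
  [96106 / 100000, 98065 / 100000, 98826 / 100000, 99198 / 100000, 99420 / 100000, 99577 / 100000,
    99706 / 100000, 99831 / 100000, 99976 / 100000, 99980 / 100000]

lemma F8lo_chain : cellsOK F8lo F8loKnots (3 / 4) = true := by decide +kernel

lemma F8hi_chain : cellsOK F8hi F8hiKnots (9 / 10) = true := by decide +kernel

/-- `F8`. -/
theorem fact_F8 {ρ : ℝ} (h0 : 0 ≤ ρ) (h1 : ρ < 1) : kap ρ * ent ρ ≤ 57 / 100 := by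
  have hent : 0 < ent ρ := ent_pos_of h0 h1
  rcases le_or_gt ρ (3 / 4) with h | h
  · have hk : qOK (3 / 4) = true := by decide +kernel
    have h2 : kap ρ ≤ kap (3 / 4) := kap_mono h0 h (by norm_num)
    have h3 := (q_kap hk).2
    have hc : qkapHi (3 / 4) * ln2Hi ≤ 57 / 100 := by decide +kernel
    have hc' := (Rat.cast_le (K := ℝ)).mpr hc
    push_cast at hc' h3
    have h4 := ent_le_log_two ρ
    have h5 := ln2_bounds.2
    have h6 : kap ρ * ent ρ ≤ ((qkapHi (3 / 4) : ℚ) : ℝ) * ((ln2Hi : ℚ) : ℝ) :=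
      mul_le_mul (by norm_num at h3 ⊢; linarith) (by linarith) hent.le
        (le_trans (kap_nonneg h0 h1) (by norm_num at h3 ⊢; linarith))
    norm_num at hc' ⊢
    norm_num at h6
    linarith
  rcases le_or_gt ρ (9 / 10) with h' | h'
  · have hl : ((lastOf F8loKnots (3 / 4) : ℚ) : ℝ) = 9 / 10 := by
      have : lastOf F8loKnots (3 / 4) = 9 / 10 := by decide +kernel
      rw [this]
      norm_num
    exact cells_sound (G := fun x => kap x * ent x ≤ 57 / 100)
      F8lo_cell F8loKnots (3 / 4) F8lo_chain ρ (by push_cast; linarith) (by rw [hl]; exact h')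
  rcases le_or_gt ρ (99980 / 100000) with h'' | h''
  · have hl : ((lastOf F8hiKnots (9 / 10) : ℚ) : ℝ) = 99980 / 100000 := by
      have : lastOf F8hiKnots (9 / 10) = 99980 / 100000 := by decide +kernel
      rw [this]
      norm_num
    exact cells_sound (G := fun x => kap x * ent x ≤ 57 / 100)
      F8hi_cell F8hiKnots (9 / 10) F8hi_chain ρ (by push_cast; linarith) (by rw [hl]; exact h'')
  · have hk : qOK (99980 / 100000) = true := by decide +kernel
    have hq := q_A hk
    have hp := q_ALo_pos hk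
    have hc : (1 / 2 : ℚ) * (1 + 1 / ((1 + 99980 / 100000) * qALo (99980 / 100000))) ≤ 57 / 100 := by
      decide +kernel
    have hc' := (Rat.cast_le (K := ℝ)).mpr hc
    push_cast at hc' hq hp
    have hb := F8_tail (a := 99980 / 100000) (α := ((qALo (99980 / 100000) : ℚ) : ℝ)) (by norm_num)
      h''.le h1 (by norm_num at hq ⊢; linarith [hq.1]) (by norm_num at hp ⊢; linarith)
    norm_num at hc' hb ⊢
    linarith

end Vale.Agent.CK
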