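import Vale.Agent.CK.FactsA
import Vale.Agent.CK.FactsB
import Vale.Agent.CK.FactsQ
import Vale.Agent.CK.FactsR
import Vale.Agent.CK.FactsF2

/-!
One-variable numerical facts.
-/

open Real Set

namespace Vale.Agent.CK

open Vale.Agent.P322

/-- `Q(ρ) = h² ((1+ρ²) w - ρ) / ((1-ρ²)² w³)`, the derivative of `κ` with respect to `1/h`. -/
noncomputable def Qf (ρ : ℝ) : ℝ := ent ρ ^ 2 * dkap ρ / A ρ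

lemma F1 {ρ : ℝ} (h0 : 0 < ρ) (h1 : ρ < 1) : Qf ρ ≤ 645 / 1000 := by
  unfold Qf
  exact fact_F1 h0 h1

lemma F2 {ρ : ℝ} (h0 : 91 / 100 ≤ ρ) (h1 : ρ < 1) : Qf ρ ≤ 6025 / 10000 := by
  unfold Qf
  exact fact_F2 h0 h1

lemma F3 {ρ : ℝ} (h0 : 0 < ρ) (h1 : ρ ≤ 91 / 100) :
    645 / 1000 * (ρ * (5 / 4 - ρ ^ 2 / 4)) ≤ c3 ρ * ent ρ / ρ := by
  exact fact_F3 h0 h1

lemma F3b {ρ : ℝ} (h0 : 91 / 100 ≤ ρ) (h1 : ρ < 1) : 645 / 1000 * (3 / 4) ≤ c3 ρ * ent ρ / ρ := by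
  exact fact_F3b h0 h1

lemma F4 {ρ : ℝ} (h0 : 0 ≤ ρ) (h1 : ρ < 1) : 41 / 100 ≤ kap ρ * ent ρ + 595 / 1000 * ent ρ := by
  exact fact_F4 h0 h1

lemma F6 {ρ : ℝ} (h0 : 91 / 100 ≤ ρ) (h1 : ρ < 1) : 595 / 1000 ≤ c3 ρ - kap ρ := by
  exact fact_F6 h0 h1

lemma F7 {ρ : ℝ} (h0 : 0 < ρ) (h1 : ρ < 1) : kap ρ ≤ c3 ρ := by
  exact fact_F7 h0 h1

lemma F8 {ρ : ℝ} (h0 : 0 ≤ ρ) (h1 : ρ < 1) : kap ρ * ent ρ ≤ 57 / 100 := by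
  exact fact_F8 h0 h1

end Vale.Agent.CK
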