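import Vale.Agent.CK.Persp
import Vale.Agent.CK.LogQ

/-!
Analytic proofs of some one-variable facts.
-/

open Real Set

namespace Vale.Agent.CK

open Vale.Agent.P322

/-- The numerator of `c₃ - κ`. -/
noncomputable def Gc (x : ℝ) : ℝ := (1 - x ^ 2) * A x * Lf x - x * ent x

/-- `c₃ - κ = G / ((1-ρ²) w L)`. -/
lemma c3_sub_kap {x : ℝ} (h0 : 0 < x) (h1 : x < 1) :
    c3 x - kap x = Gc x / ((1 - x ^ 2) * A x * Lf x) := by
  have hx := abs_lt_one_of h0.le h1
  have hs := one_sub_sq_pos hx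
  have hA := A_pos h0 h1
  have hL := Lf_pos hx
  rw [kap_of_pos h0]
  unfold c3 Gc
  have he : ent x = Lf x - x * A x := by
    unfold Lf
    ring
  rw [he]
  field_simp
  ring

lemma hasDerivAt_Gc {x : ℝ} (hx : |x| < 1) :
    HasDerivAt Gc (x * A x * (3 - 2 * Lf x)) x := by
  have hs := one_sub_sq_pos hx
  have d1 : HasDerivAt (fun z : ℝ => 1 - z ^ 2) (-(2 * x)) x := by
    have := (hasDerivAt_pow 2 x).const_sub 1
    simpa using this
  have d2 := (d1.fun_mul (hasDerivAt_A hx)).fun_mul (hasDerivAt_Lf hx)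
  have d3 := (hasDerivAt_id' x).fun_mul (hasDerivAt_ent hx)
  have d4 := d2.fun_sub d3
  have e : (-(2 * x) * A x + (1 - x ^ 2) * (1 / (1 - x ^ 2))) * Lf x +
      (1 - x ^ 2) * A x * (x / (1 - x ^ 2)) - (1 * ent x + x * -A x) =
      x * A x * (3 - 2 * Lf x) := by
    have he : ent x = Lf x - x * A x := by
      unfold Lf
      ring
    rw [he]
    field_simp
    ring
  rw [e] at d4
  exact d4

lemma Lf_le_of_sq {x : ℝ} (hx : x ^ 2 ≤ 3 / 4) : Lf x ≤ 3 / 2 := by
  have hx1 : |x| < 1 := by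
    rw [← sq_lt_one_iff_abs_lt_one]
    linarith
  rw [Lf_eq hx1]
  have h1 : (1 / 4 : ℝ) ≤ 1 - x ^ 2 := by linarith
  have h2 : log (1 / 4) ≤ log (1 - x ^ 2) := log_le_log (by norm_num) h1
  have h3 : log (1 / 4 : ℝ) = -(2 * log 2) := by
    rw [show (1 / 4 : ℝ) = (2 ^ 2)⁻¹ by norm_num, log_inv, log_pow]
    norm_num
  rw [h3] at h2
  have h4 := Real.log_two_lt_d9
  linarith

lemma Gc_nonneg_of_sq {x : ℝ} (h0 : 0 < x) (hx : x ^ 2 ≤ 3 / 4) : 0 ≤ Gc x := by
  have hab : ∀ z ∈ Icc (0 : ℝ) x, z ^ 2 ≤ 3 / 4 := fun z hz => by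
    have := pow_le_pow_left₀ hz.1 hz.2 2
    linarith
  have habs : ∀ z ∈ Icc (0 : ℝ) x, |z| < 1 := fun z hz => by
    rw [← sq_lt_one_iff_abs_lt_one]
    linarith [hab z hz]
  have hm : MonotoneOn Gc (Icc 0 x) := by
    apply mono_of_deriv (f' := fun z => z * A z * (3 - 2 * Lf z))
    · intro z hz
      exact (hasDerivAt_Gc (habs z hz)).continuousAt.continuousWithinAt
    · intro z hz
      exact hasDerivAt_Gc (habs z ⟨hz.1.le, hz.2.le⟩)
    · intro z hz
      have hz' : z ∈ Icc (0 : ℝ) x := ⟨hz.1.le, hz.2.le⟩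
      have h1 := Lf_le_of_sq (hab z hz')
      have hz1 : z < 1 := by
        by_contra hc
        push Not at hc
        nlinarith [hab z hz']
      have h2 := A_pos hz.1 hz1
      have h3 : 0 ≤ z * A z := (mul_pos hz.1 h2).le
      exact mul_nonneg h3 (by linarith)
  have h := hm (left_mem_Icc.mpr h0.le) (right_mem_Icc.mpr h0.le) h0.le
  have e : Gc 0 = 0 := by
    unfold Gc
    rw [A_zero]
    ring
  rw [e] at h
  exact h

/-- `h(ρ) = (1-ρ) w(ρ) + log (2 / (1+ρ))`, with the logarithm written as a difference. -/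
lemma ent_eq_tail {x : ℝ} (hx : |x| < 1) : ent x = (1 - x) * A x + (log 2 - log (1 + x)) := by
  have h := abs_lt.mp hx
  have h1 : 0 < 1 + x := by linarith
  have h2 : 0 < 1 - x := by linarith
  rw [ent_formula hx]
  have e : log (1 - x ^ 2) = log (1 + x) + log (1 - x) := by
    rw [← Real.log_mul h1.ne' h2.ne']
    congr 1
    ring
  rw [e]
  unfold A
  ring

lemma log_two_sub_le {x : ℝ} (h0 : 0 ≤ x) (h1 : x < 1) :
    log 2 - log (1 + x) ≤ (1 - x) / (1 + x) := by
  have hp : 0 < 1 + x := by linarith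
  rw [← Real.log_div (by norm_num) hp.ne']
  have h := Real.log_le_sub_one_of_pos (div_pos (by norm_num : (0 : ℝ) < 2) hp)
  refine le_trans h (le_of_eq ?_)
  field_simp
  ring

lemma one_le_A {x : ℝ} (h0 : 4 / 5 ≤ x) (h1 : x < 1) : 1 ≤ A x := by
  have hp : 0 < 1 - x := by linarith
  have hq : 0 < 1 + x := by linarith
  have h2 : (2 : ℝ) ≤ log (1 + x) - log (1 - x) := by
    rw [← Real.log_div hq.ne' hp.ne', Real.le_log_iff_exp_le (div_pos hq hp)]
    rw [le_div_iff₀ hp]
    have h3 : exp 2 = exp 1 * exp 1 := by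
      rw [← Real.exp_add]
      norm_num
    have h4 := Real.exp_one_lt_d9
    have h5 := Real.exp_pos 1
    have h6 : exp 2 ≤ 9 := by
      rw [h3]
      nlinarith
    have h7 := Real.exp_pos 2
    nlinarith
  unfold A
  linarith

lemma Gc_nonneg_of_large {x : ℝ} (h0 : 4 / 5 ≤ x) (h1 : x < 1) : 0 ≤ Gc x := by
  have hx := abs_lt_one_of (by linarith : (0 : ℝ) ≤ x) h1
  have hw := one_le_A h0 h1
  have he := ent_eq_tail hx
  have hl := log_two_sub_le (by linarith : (0 : ℝ) ≤ x) h1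
  have hs := one_sub_sq_pos hx
  have hent := ent_pos hx
  have hp : 0 < 1 - x := by linarith
  have hq : 0 < 1 + x := by linarith
  have key : ent x ≤ (1 - x ^ 2) * A x ^ 2 := by
    rw [he]
    have h2 : (1 - x) * A x + (log 2 - log (1 + x)) ≤ (1 - x) * (A x + 1 / (1 + x)) := by
      have : (1 - x) * (A x + 1 / (1 + x)) = (1 - x) * A x + (1 - x) / (1 + x) := by ring
      rw [this]
      linarith
    refine le_trans h2 ?_
    have e : (1 - x ^ 2) * A x ^ 2 = (1 - x) * ((1 + x) * A x ^ 2) := by ring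
    rw [e]
    apply mul_le_mul_of_nonneg_left _ hp.le
    have h3 : 1 / (1 + x) ≤ x := by
      rw [div_le_iff₀ hq]
      nlinarith
    have h6 : A x ≤ A x ^ 2 := by nlinarith
    have h7 : x ≤ x * A x ^ 2 := by
      have : (1 : ℝ) ≤ A x ^ 2 := by nlinarith
      nlinarith
    have e2 : (1 + x) * A x ^ 2 = A x ^ 2 + x * A x ^ 2 := by ring
    rw [e2]
    linarith
  have e : Gc x = x * ((1 - x ^ 2) * A x ^ 2 - ent x) + (1 - x ^ 2) * A x * ent x := by
    unfold Gc Lf
    ring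
  rw [e]
  have h4 : 0 ≤ x * ((1 - x ^ 2) * A x ^ 2 - ent x) :=
    mul_nonneg (by linarith) (by linarith)
  have h5 : 0 ≤ (1 - x ^ 2) * A x * ent x := by positivity
  linarith

lemma Gc_nonneg {x : ℝ} (h0 : 0 < x) (h1 : x < 1) : 0 ≤ Gc x := by
  rcases le_total (x ^ 2) (3 / 4) with h | h
  · exact Gc_nonneg_of_sq h0 h
  · apply Gc_nonneg_of_large _ h1
    nlinarith

/-- `F7`. -/
theorem fact_F7 {ρ : ℝ} (h0 : 0 < ρ) (h1 : ρ < 1) : kap ρ ≤ c3 ρ := by
  have h := c3_sub_kap h0 h1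
  have hx := abs_lt_one_of h0.le h1
  have hs := one_sub_sq_pos hx
  have hA := A_pos h0 h1
  have hL := Lf_pos hx
  have h2 : 0 ≤ Gc ρ / ((1 - ρ ^ 2) * A ρ * Lf ρ) := div_nonneg (Gc_nonneg h0 h1) (by positivity)
  linarith

lemma log_ge_of {y c : ℚ} (h : logOK y = true) (hc : c ≤ logLo y) : (c : ℝ) ≤ log (y : ℝ) := by
  have h1 := (log_bounds h).1
  have h2 : (c : ℝ) ≤ ((logLo y : ℚ) : ℝ) := by exact_mod_cast hc
  linarith

lemma log_le_of {y c : ℚ} (h : logOK y = true) (hc : logHi y ≤ c) : log (y : ℝ) ≤ (c : ℝ) := by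
  have h1 := (log_bounds h).2
  have h2 : ((logHi y : ℚ) : ℝ) ≤ (c : ℝ) := by exact_mod_cast hc
  linarith

/-- `log (191/200) ≥ -0.04605`. -/
lemma log_191 : -(4605 / 100000 : ℝ) ≤ log (191 / 200) := by
  have h := log_ge_of (y := 191 / 200) (c := -(4605 / 100000)) (by decide +kernel) (by decide +kernel)
  have e : (((191 / 200 : ℚ)) : ℝ) = 191 / 200 := by norm_num
  rw [e] at h
  have e2 : ((-(4605 / 100000 : ℚ) : ℚ) : ℝ) = -(4605 / 100000) := by norm_num
  rw [e2] at h
  exact h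

/-- `log (9/100) ≤ -2.4079`. -/
lemma log_9 : log (9 / 100) ≤ -(24079 / 10000 : ℝ) := by
  have h := log_le_of (y := 9 / 100) (c := -(24079 / 10000)) (by decide +kernel) (by decide +kernel)
  have e : (((9 / 100 : ℚ)) : ℝ) = 9 / 100 := by norm_num
  rw [e] at h
  have e2 : ((-(24079 / 10000 : ℚ) : ℚ) : ℝ) = -(24079 / 10000) := by norm_num
  rw [e2] at h
  exact h

/-- The value of `log 2 - log (1 + x)` at the knot `x = 91/100`. -/
lemma ell_91 : log 2 - log (1 + 91 / 100) ≤ 4605 / 100000 := by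
  have h := log_191
  have e : log (191 / 200) = log (1 + 91 / 100) - log 2 := by
    rw [← Real.log_div (by norm_num) (by norm_num)]
    norm_num
  rw [e] at h
  linarith

lemma A_91 : 1527 / 1000 ≤ A (91 / 100) := by
  have h1 := ell_91
  have h2 := log_9
  have h3 := Real.log_two_gt_d9
  have e : (1 - 91 / 100 : ℝ) = 9 / 100 := by norm_num
  unfold A
  rw [e]
  norm_num at h1 h2 h3 ⊢
  linarith

lemma ell_lower {x : ℝ} (h0 : 0 ≤ x) (h1 : x ≤ 1) : (1 - x) / 2 ≤ log 2 - log (1 + x) := by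
  have hm : AntitoneOn (fun z => log 2 - log (1 + z) - (1 - z) / 2) (Icc x 1) := by
    apply anti_of_deriv (f' := fun z => -(1 / (1 + z)) + 1 / 2)
    · intro z hz
      have hz0 : 1 + z ≠ 0 := by linarith [hz.1]
      have : ContinuousAt (fun z : ℝ => log 2 - log (1 + z) - (1 - z) / 2) z := by
        apply ContinuousAt.sub
        · exact continuousAt_const.sub
            (Real.continuousAt_log hz0 |>.comp (continuousAt_const.add continuousAt_id))
        · exact (continuousAt_const.sub continuousAt_id).div_const 2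
      exact this.continuousWithinAt
    · intro z hz
      have hz0 : 1 + z ≠ 0 := by linarith [hz.1]
      have d1 : HasDerivAt (fun z : ℝ => 1 + z) 1 z := by
        simpa using (hasDerivAt_id' z).const_add 1
      have d2 := ((d1.log hz0).const_sub (log 2)).sub
        (((hasDerivAt_id' z).const_sub 1).div_const 2)
      have e : -(1 / (1 + z)) - -1 / 2 = -(1 / (1 + z)) + 1 / 2 := by ring
      rw [e] at d2
      exact d2
    · intro z hz
      have hz1 : 0 < 1 + z := by linarith [hz.1]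
      have : 1 / 2 ≤ 1 / (1 + z) := by
        rw [div_le_div_iff₀ (by norm_num) hz1]
        linarith [hz.2]
      linarith
  have h := hm (left_mem_Icc.mpr h1) (right_mem_Icc.mpr h1) h1
  simp only at h
  have e : log (1 + 1 : ℝ) = log 2 := by norm_num
  rw [e] at h
  linarith

lemma ell_upper {x : ℝ} (h0 : 91 / 100 ≤ x) (h1 : x ≤ 1) : log 2 - log (1 + x) ≤ 512 / 1000 * (1 - x) := by
  have hk := nonneg_of_updown (a := 91 / 100) (b := 1)
    (g := fun z => 512 / 1000 * (1 - z) - (log 2 - log (1 + z)))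
    (g' := fun z => -(512 / 1000) + 1 / (1 + z)) ?_ ?_ ?_ ?_ ?_ x ⟨h0, h1⟩
  · beta_reduce at hk
    linarith
  · intro z hz
    have hz0 : 1 + z ≠ 0 := by linarith [hz.1]
    have : ContinuousAt (fun z : ℝ => 512 / 1000 * (1 - z) - (log 2 - log (1 + z))) z := by
      apply ContinuousAt.sub
      · exact continuousAt_const.mul (continuousAt_const.sub continuousAt_id)
      · exact continuousAt_const.sub
            (Real.continuousAt_log hz0 |>.comp (continuousAt_const.add continuousAt_id))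
    exact this.continuousWithinAt
  · intro z hz
    have hz0 : 1 + z ≠ 0 := by linarith [hz.1]
    have d1 : HasDerivAt (fun z : ℝ => 1 + z) 1 z := by
      simpa using (hasDerivAt_id' z).const_add 1
    have d2 := (((hasDerivAt_id' z).const_sub 1).const_mul (512 / 1000 : ℝ)).sub
      ((d1.log hz0).const_sub (log 2))
    have e : 512 / 1000 * -1 - -(1 / (1 + z)) = -(512 / 1000) + 1 / (1 + z) := by ring
    rw [e] at d2
    exact d2
  · have := ell_91
    beta_reduce
    norm_num at this ⊢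
    linarith
  · beta_reduce
    have e : log (1 + 1 : ℝ) = log 2 := by norm_num
    rw [e]
    norm_num
  · intro s hs t ht hst hd
    have h1s : 0 < 1 + s := by linarith [hs.1]
    have h1t : 0 < 1 + t := by linarith [ht.1]
    have : 1 / (1 + t) ≤ 1 / (1 + s) := by
      apply one_div_le_one_div_of_le h1s
      linarith
    beta_reduce at hd ⊢
    linarith

/-- Exact forms at `ρ`: `h = ε w + ℓ`, `L = w + ℓ`. -/
lemma Lf_eq_tail {x : ℝ} (hx : |x| < 1) : Lf x = A x + (log 2 - log (1 + x)) := by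
  unfold Lf
  rw [ent_eq_tail hx]
  ring

/-- The lower bound of `w` on `[.91, 1)`. -/
lemma A_ge_line {x : ℝ} (h0 : 91 / 100 ≤ x) (h1 : x < 1) :
    1527 / 1000 + 58 / 10 * (x - 91 / 100) ≤ A x := by
  have hm : MonotoneOn (fun z => A z - 58 / 10 * z) (Icc (91 / 100) x) := by
    apply mono_of_deriv (f' := fun z => 1 / (1 - z ^ 2) - 58 / 10)
    · intro z hz
      have hz' : |z| < 1 := abs_lt_one_of (by linarith [hz.1]) (lt_of_le_of_lt hz.2 h1)
      have := ((hasDerivAt_A hz').sub ((hasDerivAt_id' z).const_mul (58 / 10 : ℝ))).continuousAt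
      exact this.continuousWithinAt
    · intro z hz
      have hz' : |z| < 1 := abs_lt_one_of (by linarith [hz.1]) (lt_trans hz.2 h1)
      have := (hasDerivAt_A hz').fun_sub ((hasDerivAt_id' z).const_mul (58 / 10 : ℝ))
      simpa using this
    · intro z hz
      have hz1 : z < 1 := lt_trans hz.2 h1
      have hs : 0 < 1 - z ^ 2 := by nlinarith [hz.1]
      have h3 : 58 / 10 ≤ 1 / (1 - z ^ 2) := by
        rw [le_div_iff₀ hs]
        nlinarith [hz.1]
      beta_reduce
      linarith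
  have h := hm (left_mem_Icc.mpr h0) (right_mem_Icc.mpr h0) h0
  simp only at h
  have h2 := A_91
  linarith

/-- `F6`. -/
theorem fact_F6 {ρ : ℝ} (h0 : 91 / 100 ≤ ρ) (h1 : ρ < 1) : 595 / 1000 ≤ c3 ρ - kap ρ := by
  have hp0 : 0 < ρ := by linarith
  have hx := abs_lt_one_of hp0.le h1
  have hs := one_sub_sq_pos hx
  have hA := A_pos hp0 h1
  have hL := Lf_pos hx
  rw [c3_sub_kap hp0 h1, le_div_iff₀ (by positivity)]
  have hlo := ell_lower hp0.le h1.le
  have hup := ell_upper h0 h1.le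
  have hW := A_ge_line h0 h1
  obtain ⟨w, hw⟩ : ∃ w, w = A ρ := ⟨_, rfl⟩
  obtain ⟨l, hl⟩ : ∃ l, l = log 2 - log (1 + ρ) := ⟨_, rfl⟩
  rw [← hw] at hW hA
  rw [← hl] at hlo hup
  have he := ent_eq_tail hx
  have hLf := Lf_eq_tail hx
  rw [← hw, ← hl] at he hLf
  unfold Gc
  rw [he, hLf, ← hw]
  set ε := 1 - ρ with hε
  have hε0 : 0 < ε := by rw [hε]; linarith
  have hε1 : ε ≤ 9 / 100 := by rw [hε]; linarith
  -- reduce to `ρ (w + .512) ≤ .405 (1 + ρ) w (w + ε / 2)`
  have hkey : ρ * (w + 512 / 1000) ≤ 405 / 1000 * (1 + ρ) * (w * (w + ε / 2)) := by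
    set s := ρ - 91 / 100 with hs'
    have hs0 : 0 ≤ s := by rw [hs']; linarith
    have hρ : ρ = 91 / 100 + s := by rw [hs']; ring
    have hε' : ε = 9 / 100 - s := by rw [hε, hρ]; ring
    set W := 1527 / 1000 + 58 / 10 * s with hWd
    have hWw : W ≤ w := by
      rw [hWd, hs']
      exact hW
    have hW0 : 0 < W := by rw [hWd]; positivity
    have hpoly : ρ * (W + 512 / 1000) ≤ 405 / 1000 * (1 + ρ) * (W * (W + ε / 2)) := by
      rw [hρ, hε', hWd]
      have h2 := mul_nonneg hs0 hs0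
      have h3 := mul_nonneg h2 hs0
      nlinarith
    have hmono : 405 / 1000 * (1 + ρ) * (W * (W + ε / 2)) - ρ * W ≤
        405 / 1000 * (1 + ρ) * (w * (w + ε / 2)) - ρ * w := by
      have h4 : 0 ≤ (w - W) * (405 / 1000 * (1 + ρ) * (w + W + ε / 2) - ρ) := by
        apply mul_nonneg (by linarith)
        have : (2 : ℝ) * W ≤ w + W := by linarith
        have h5 : (1527 / 1000 : ℝ) ≤ W := by rw [hWd]; linarith
        nlinarith
      nlinarith
    nlinarith
  have h5 : ρ * (ε * w + l) ≤ 405 / 1000 * ((1 - ρ ^ 2) * w * (w + l)) := by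
    have e1 : 1 - ρ ^ 2 = ε * (1 + ρ) := by rw [hε]; ring
    rw [e1]
    have h6 : ρ * (ε * w + l) ≤ ρ * (ε * w + 512 / 1000 * ε) :=
      mul_le_mul_of_nonneg_left (by linarith) hp0.le
    have h7 : w * (w + ε / 2) ≤ w * (w + l) :=
      mul_le_mul_of_nonneg_left (by linarith) hA.le
    have h8 : ε * (405 / 1000 * (1 + ρ) * (w * (w + ε / 2))) ≤
        ε * (405 / 1000 * (1 + ρ) * (w * (w + l))) := by
      apply mul_le_mul_of_nonneg_left _ hε0.le
      apply mul_le_mul_of_nonneg_left h7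
      positivity
    have h9 : ε * (ρ * (w + 512 / 1000)) ≤ ε * (405 / 1000 * (1 + ρ) * (w * (w + ε / 2))) :=
      mul_le_mul_of_nonneg_left hkey hε0.le
    nlinarith
  nlinarith

/-- `F3b`. -/
theorem fact_F3b {ρ : ℝ} (h0 : 91 / 100 ≤ ρ) (h1 : ρ < 1) :
    645 / 1000 * (3 / 4) ≤ c3 ρ * ent ρ / ρ := by
  have hp0 : 0 < ρ := by linarith
  have hx := abs_lt_one_of hp0.le h1
  have hs := one_sub_sq_pos hx
  have hA := A_pos hp0 h1
  have hL := Lf_pos hx
  have e : c3 ρ * ent ρ / ρ = ρ * ent ρ / ((1 - ρ ^ 2) * Lf ρ) := by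
    unfold c3
    field_simp
  rw [e, le_div_iff₀ (by positivity)]
  have hlo := ell_lower hp0.le h1.le
  have hup := ell_upper h0 h1.le
  have he := ent_eq_tail hx
  have hLf := Lf_eq_tail hx
  obtain ⟨w, hw⟩ : ∃ w, w = A ρ := ⟨_, rfl⟩
  obtain ⟨l, hl⟩ : ∃ l, l = log 2 - log (1 + ρ) := ⟨_, rfl⟩
  rw [← hw, ← hl] at he hLf
  rw [← hl] at hlo hup
  rw [← hw] at hA
  rw [he, hLf]
  set ε := 1 - ρ with hε
  have hε0 : 0 < ε := by rw [hε]; linarith
  have hε1 : ε ≤ 9 / 100 := by rw [hε]; linarith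
  have e1 : 1 - ρ ^ 2 = ε * (1 + ρ) := by rw [hε]; ring
  rw [e1]
  have hl0 : 0 ≤ l := by linarith
  rcases le_total ρ (94 / 100) with hc | hc
  · -- `w` is bounded
    have hwle : w ≤ 808 / 100 := by
      have h2 := A_le hp0.le h1
      rw [← hw] at h2
      refine le_trans h2 ?_
      have hd : 0 < 1 - ρ ^ 2 := hs
      rw [div_le_iff₀ hd]
      nlinarith
    have h3 : 0 ≤ ε * (w * (48375 / 100000 * (1 + ρ) - ρ)) + 0 ∨ True := Or.inr trivial
    clear h3
    -- write the difference as a sum of nonnegative terms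
    have hq : 0 ≤ ρ - 645 / 1000 * (3 / 4) * ε * (1 + ρ) := by nlinarith
    have hq2 : 82 / 100 ≤ ρ - 645 / 1000 * (3 / 4) * ε * (1 + ρ) := by nlinarith
    have h4 : (82 / 100) * (ε / 2) ≤ (ρ - 645 / 1000 * (3 / 4) * ε * (1 + ρ)) * l := by
      apply mul_le_mul hq2 hlo (by positivity) hq
    have h5 : -(1397 / 100000) ≤ ρ - 645 / 1000 * (3 / 4) * (1 + ρ) := by nlinarith
    have h6 : -(1397 / 100000) * w ≤ (ρ - 645 / 1000 * (3 / 4) * (1 + ρ)) * w :=
      mul_le_mul_of_nonneg_right h5 hA.le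
    have h7 : -(1397 / 100000) * (808 / 100) ≤ -(1397 / 100000) * w := by nlinarith
    have h8 : -(1397 / 100000) * (808 / 100) * ε ≤ (ρ - 645 / 1000 * (3 / 4) * (1 + ρ)) * w * ε :=
      mul_le_mul_of_nonneg_right (by linarith) hε0.le
    nlinarith
  · have hq : 0 ≤ ρ - 645 / 1000 * (3 / 4) * (1 + ρ) := by nlinarith
    have hq2 : 0 ≤ ρ - 645 / 1000 * (3 / 4) * ε * (1 + ρ) := by nlinarith
    have h4 := mul_nonneg (mul_nonneg hq hA.le) hε0.le
    have h5 := mul_nonneg hq2 hl0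
    nlinarith

end Vale.Agent.CK
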