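import Vale.Agent.CK.TNLSI

/-!
From the Courtade-Kumar bound at `ρ = 3/10` to every smaller `ρ`, through `tnlsi`.
-/

open Real Set

namespace Vale.Agent.CK

open Vale.Agent.P322

lemma ent_of_abs_one {a : ℝ} (h : |a| = 1) : ent a = 0 := by
  rcases abs_eq (by norm_num : (0 : ℝ) ≤ 1) |>.mp h with h1 | h1
  · rw [h1, ent_one]
  · rw [h1, ent_symm, ent_one]

lemma abs_lt_or_eq_one {a : ℝ} (h : |a| ≤ 1) : |a| < 1 ∨ |a| = 1 := lt_or_eq_of_le h

/-- `tnlsi` along the noise flow. -/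
lemma tn_noise {n : ℕ} {F : Cube n → ℝ} {r : ℝ} (hw : ∀ y, |noise F r y| < 1) :
    2 * (ent (avg F) - Hn F r) + yc (ent (avg F) - Hn F r) ≤ Dir (noise F r) / 4 := by
  have h := tnlsi n (noise F r) hw
  rw [avg_noise] at h
  exact h

/-- The comparison below `3/10`. -/
theorem Hn_below {n : ℕ} {F : Cube n → ℝ} (hF : ∀ x, F x = 1 ∨ F x = -1) {x₀ x₁ : Cube n}
    (h₀ : F x₀ = 1) (h₁ : F x₁ = -1) (hs : ent (avg F) - Hn F s1 ≤ log 2 - ent s1)
    {ρ : ℝ} (hρ0 : 0 < ρ) (hρ1 : ρ ≤ s1) : ent (avg F) - Hn F ρ ≤ log 2 - ent ρ := by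
  by_contra hcon
  push Not at hcon
  obtain ⟨e, he⟩ : ∃ e, e = log 2 - ent (avg F) := ⟨_, rfl⟩
  have hs1lt := s1_lt
  let x : ℝ → ℝ := fun r => Hn F r + e
  have hxρ : x ρ < ent ρ := by
    simp only [x]
    rw [he]
    linarith
  have hxs : ent s1 ≤ x s1 := by
    simp only [x]
    rw [he]
    linarith
  have hw : ∀ r, 0 < r → r ≤ s1 → ∀ y, |noise F r y| < 1 := fun r h0 h1 y =>
    abs_noise_lt hF h₀ h₁ (abs_lt_one_of h0.le (lt_of_le_of_lt h1 hs1lt)) y
  have hx_hi : ∀ r, ρ ≤ r → r ≤ s1 → x r < log 2 := by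
    intro r h0 h1
    have h2 := Hn_antitone hF h₀ h₁ hρ0 h0 (lt_of_le_of_lt h1 hs1lt)
    have h3 := ent_le_log_two ρ
    simp only [x] at hxρ ⊢
    linarith
  have hx_lo : ∀ r, ρ ≤ r → r ≤ s1 → ent s1 ≤ x r := by
    intro r h0 h1
    have h2 := Hn_antitone hF h₀ h₁ (lt_of_lt_of_le hρ0 h0) h1 hs1lt
    simp only [x] at hxs ⊢
    linarith
  have hxpos : ∀ r, ρ ≤ r → r ≤ s1 → 0 < x r := fun r h0 h1 =>
    lt_of_lt_of_le ent_s1_pos (hx_lo r h0 h1)
  have hxd : ∀ r, ρ ≤ r → r ≤ s1 → HasDerivAt x (-(Dir (noise F r) / 4) / r) r := by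
    intro r h0 h1
    have hr : 0 < r := lt_of_lt_of_le hρ0 h0
    exact (hasDerivAt_Hn' hF h₀ h₁ hr (lt_of_le_of_lt h1 hs1lt)).add_const e
  have hσd : ∀ r, ρ ≤ r → r ≤ s1 → HasDerivAt (fun z => rinv (x z))
      (-(1 / A (rinv (x r))) * (-(Dir (noise F r) / 4) / r)) r := by
    intro r h0 h1
    exact HasDerivAt.comp (h₂ := rinv) (h := x) r (hasDerivAt_rinv (hxpos r h0 h1) (hx_hi r h0 h1))
      (hxd r h0 h1)
  let φ : ℝ → ℝ := fun z => rinv (x z) / z
  let φ' : ℝ → ℝ := fun r =>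
    ((-(1 / A (rinv (x r))) * (-(Dir (noise F r) / 4) / r)) * r - rinv (x r) * 1) / r ^ 2
  have hφd : ∀ r, ρ ≤ r → r ≤ s1 → HasDerivAt φ (φ' r) r := by
    intro r h0 h1
    have hr : 0 < r := lt_of_lt_of_le hρ0 h0
    exact (hσd r h0 h1).div (hasDerivAt_id' r) hr.ne'
  have hφ'nn : ∀ r, ρ ≤ r → r ≤ s1 → 0 ≤ φ' r := by
    intro r h0 h1
    have hr : 0 < r := lt_of_lt_of_le hρ0 h0
    have hp := hxpos r h0 h1
    have hl := hx_hi r h0 h1
    have hσpos : 0 < rinv (x r) := rinv_pos hp hl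
    have hσlt : rinv (x r) < 1 := (rinv_mem hp).2
    have hA := A_pos hσpos hσlt
    have hB := tn_noise (hw r hr h1)
    -- the argument of `yc`
    have hu : ent (avg F) - Hn F r = log 2 - x r := by
      simp only [x]
      rw [he]
      ring
    have hule : log 2 - x r ≤ u1 := by
      have := hx_lo r h0 h1
      unfold u1
      linarith
    rw [hu] at hB
    have hyc : yc (log 2 - x r) = Yf (rinv (x r)) := by
      unfold yc
      rw [if_pos hule]
      have e2 : log 2 - (log 2 - x r) = x r := by ring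
      rw [e2]
      rfl
    rw [hyc] at hB
    have hid := psi_identity' (abs_lt_one_of hσpos.le hσlt)
    rw [ent_rinv hp hl.le] at hid
    rw [hid] at hB
    simp only [φ']
    apply div_nonneg _ (by positivity)
    have e3 : (-(1 / A (rinv (x r))) * (-(Dir (noise F r) / 4) / r)) * r - rinv (x r) * 1 =
        (Dir (noise F r) / 4 - rinv (x r) * A (rinv (x r))) / A (rinv (x r)) := by
      field_simp
    rw [e3]
    apply div_nonneg _ hA.le
    linarith
  have hm : MonotoneOn φ (Icc ρ s1) := by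
    apply mono_of_deriv (f' := φ')
    · intro z hz
      exact (hφd z hz.1 hz.2).continuousAt.continuousWithinAt
    · intro z hz
      exact hφd z hz.1.le hz.2.le
    · intro z hz
      exact hφ'nn z hz.1.le hz.2.le
  have h1 := hm (left_mem_Icc.mpr hρ1) (right_mem_Icc.mpr hρ1) hρ1
  simp only [φ] at h1
  have hs1pos := s1_pos
  have h2 : rinv (x s1) ≤ s1 := by
    have h3 := rinv_anti ent_s1_pos hxs
    rwa [rinv_ent s1_nonneg hs1lt] at h3
  have h3 : rinv (x s1) / s1 ≤ 1 := by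
    rw [div_le_one hs1pos]
    exact h2
  have h4 : rinv (x ρ) ≤ ρ := by
    have h5 := le_trans h1 h3
    rwa [div_le_one hρ0] at h5
  have hpρ := hxpos ρ le_rfl hρ1
  have hlρ := hx_hi ρ le_rfl hρ1
  have hm0 := rinv_mem hpρ
  have h5 : ent ρ ≤ ent (rinv (x ρ)) :=
    ent_strictAntiOn.antitoneOn ⟨hm0.1, hm0.2.le⟩ ⟨hρ0.le, (lt_of_le_of_lt hρ1 hs1lt).le⟩ h4
  rw [ent_rinv hpρ hlρ.le] at h5
  linarith

/-- **Full Courtade-Kumar from the high-correlation range `3/10 ≤ ρ < 1`.** -/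
theorem CK_of_high {n : ℕ} (f : (Fin n → Bool) → Bool)
    (hH : ∀ r, s1 ≤ r → r < 1 → ent (avg (sgnF f)) - Hn (sgnF f) r ≤ log 2 - ent r)
    {ε : ℝ} (h0 : 0 < ε) (h1 : ε ≤ 1 / 2) : mutualInfo f ε ≤ 1 - binEntropy ε / log 2 := by
  have hlog2 : 0 < log 2 := Real.log_pos (by norm_num)
  have hid := mutualInfo_eq f h0 (by linarith)
  have hρ0 : 0 ≤ 1 - 2 * ε := by linarith
  have hρ1 : 1 - 2 * ε < 1 := by linarith
  have hall : ∀ r, 0 < r → r < 1 → ent (avg (sgnF f)) - Hn (sgnF f) r ≤ log 2 - ent r := by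
    intro r hr0 hr1
    have hr : |r| < 1 := abs_lt_one_of hr0.le hr1
    rcases abs_lt_or_eq_one (avg_sgnF_abs f) with hav | hav
    · obtain ⟨x₀, x₁, h₀, h₁⟩ := exists_both f hav
      rcases le_total s1 r with h | h
      · exact hH r h hr1
      · exact Hn_below (sgnF_cases f) h₀ h₁ (hH s1 le_rfl s1_lt) hr0 h
    · have h3 := Hn_sgnF_nonneg f hr
      have h4 : ent (avg (sgnF f)) = 0 := ent_of_abs_one hav
      have h5 := ent_le_log_two r
      linarith
  have hcl : IsClosed {r : ℝ | ent (avg (sgnF f)) - Hn (sgnF f) r ≤ log 2 - ent r} :=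
    isClosed_le (continuous_const.sub (continuous_Hn _)) (continuous_const.sub continuous_ent)
  have hsub : Ioo (0 : ℝ) 1 ⊆ {r : ℝ | ent (avg (sgnF f)) - Hn (sgnF f) r ≤ log 2 - ent r} :=
    fun r hr => hall r hr.1 hr.2
  have h2 := hcl.closure_subset_iff.mpr hsub
  rw [closure_Ioo zero_ne_one] at h2
  have hge : ent (avg (sgnF f)) - Hn (sgnF f) (1 - 2 * ε) ≤ log 2 - ent (1 - 2 * ε) :=
    h2 ⟨hρ0, hρ1.le⟩
  have he : ent (1 - 2 * ε) = binEntropy ε := by
    unfold ent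
    have e : (1 + (1 - 2 * ε)) / 2 = 1 - ε := by ring
    rw [e, binEntropy_one_sub]
  rw [he] at hge
  have h3 : mutualInfo f ε * log 2 ≤ log 2 - binEntropy ε := by linarith
  have h4 : 1 - binEntropy ε / log 2 = (log 2 - binEntropy ε) / log 2 := by
    field_simp
  rw [h4, le_div_iff₀ hlog2]
  exact h3

end Vale.Agent.CK
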