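import Vale.Agent.CK.AllFNum
import Vale.Agent.CK.Full

/-!
The Courtade-Kumar inequality for every Boolean function and every noise level.
-/

open Real Set

namespace Vale.Agent.CK

open Vale.Agent.P322

/-- The Courtade-Kumar inequality on the range `3/10 ≤ ρ < 1`. -/
theorem high_range {n : ℕ} (f : (Fin n → Bool) → Bool) {r : ℝ} (h0 : 3 / 10 ≤ r) (h1 : r < 1) :
    ent (avg (sgnF f)) - Hn (sgnF f) r ≤ log 2 - ent r := by
  have hr : |r| < 1 := abs_lt_one_of (by linarith) h1
  rcases abs_lt_or_eq_one (avg_sgnF_abs f) with hav | hav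
  · obtain ⟨x₀, x₁, h₀, h₁⟩ := exists_both f hav
    exact upperRange n (sgnF f) (sgnF_cases f) ⟨x₀, h₀⟩ ⟨x₁, h₁⟩ r h0 h1
  · have h3 := Hn_sgnF_nonneg f hr
    have h4 : ent (avg (sgnF f)) = 0 := ent_of_abs_one hav
    have h5 := ent_le_log_two r
    linarith

/-- The Courtade-Kumar inequality at every noise level, for every Boolean function. -/
theorem ck_full {n : ℕ} (f : (Fin n → Bool) → Bool) {ε : ℝ} (h0 : 0 < ε) (h1 : ε ≤ 1 / 2) :
    mutualInfo f ε ≤ 1 - binEntropy ε / log 2 :=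
  CK_of_high f (fun r hr hr1 => high_range f (by rw [s1] at hr; exact hr) hr1) h0 h1

end Vale.Agent.CK
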