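import Vale.Agent.CK.Final

/-!
The noiseless endpoint `ε = 0` of the Courtade-Kumar inequality.
-/

open Real Finset

namespace Vale.Agent.CK

open Vale.Agent.P322

lemma channel_zero {n : ℕ} (x y : Fin n → Bool) : channel 0 x y = if x = y then 1 else 0 := by
  unfold channel
  split_ifs with h
  · subst h
    simp
  · obtain ⟨i, hi⟩ := Function.ne_iff.mp h
    apply Finset.prod_eq_zero (mem_univ i)
    simp [hi]

lemma jointLaw_zero {n : ℕ} (f : (Fin n → Bool) → Bool) (b : Bool) (y : Fin n → Bool) :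
    jointLaw f 0 b y = if f y = b then 1 / 2 ^ n else 0 := by
  unfold jointLaw
  rw [Finset.sum_eq_single y]
  · rw [channel_zero, if_pos rfl, mul_one]
  · intro x _ hx
    rw [channel_zero, if_neg hx]
    simp
  · intro h
    exact absurd (mem_univ y) h

lemma sum_jointLaw_zero {n : ℕ} (f : (Fin n → Bool) → Bool) (y : Fin n → Bool) :
    ∑ b', jointLaw f 0 b' y = 1 / 2 ^ n := by
  simp only [jointLaw_zero]
  rw [Fintype.sum_bool]
  cases f y <;> simp

/-- The term of a fixed `b`, at `ε = 0`. -/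
lemma term_zero {n : ℕ} (f : (Fin n → Bool) → Bool) (b : Bool) :
    ∑ y, jointLaw f 0 b y *
        logb 2 (jointLaw f 0 b y / ((∑ y', jointLaw f 0 b y') * (∑ b', jointLaw f 0 b' y))) =
      (∑ y', jointLaw f 0 b y') * logb 2 (1 / ∑ y', jointLaw f 0 b y') := by
  rw [Finset.sum_mul]
  apply Finset.sum_congr rfl
  intro y _
  rw [sum_jointLaw_zero]
  have hS : (1 / 2 ^ n : ℝ) ≠ 0 := by positivity
  by_cases h : f y = b
  · have e : jointLaw f 0 b y = 1 / 2 ^ n := by
      rw [jointLaw_zero, if_pos h]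
    rw [e]
    obtain ⟨A, hA⟩ : ∃ A, A = ∑ y', jointLaw f 0 b y' := ⟨_, rfl⟩
    rw [← hA]
    congr 2
    by_cases hA0 : A = 0
    · rw [hA0]
      simp
    · field_simp
  · have e : jointLaw f 0 b y = 0 := by
      rw [jointLaw_zero, if_neg h]
    rw [e]
    simp

/-- At `ε = 0`, the mutual information is at most one bit. -/
lemma mutualInfo_zero_le {n : ℕ} (f : (Fin n → Bool) → Bool) : mutualInfo f 0 ≤ 1 := by
  unfold mutualInfo
  simp only [term_zero]
  rw [Fintype.sum_bool]
  obtain ⟨A, hA⟩ : ∃ A, A = ∑ y', jointLaw f 0 true y' := ⟨_, rfl⟩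
  obtain ⟨B, hB⟩ : ∃ B, B = ∑ y', jointLaw f 0 false y' := ⟨_, rfl⟩
  rw [← hA, ← hB]
  have hAB : A + B = 1 := by
    rw [hA, hB, ← Finset.sum_add_distrib]
    have h : ∀ y : Fin n → Bool, jointLaw f 0 true y + jointLaw f 0 false y = 1 / 2 ^ n := by
      intro y
      have := sum_jointLaw_zero f y
      rwa [Fintype.sum_bool] at this
    simp only [h]
    rw [Finset.sum_const, Finset.card_univ]
    simp
  have e : B = 1 - A := by linarith
  rw [e]
  have h2 := Real.binEntropy_le_log_two (p := A)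
  have hlog : 0 < log 2 := Real.log_pos one_lt_two
  have h3 : A * logb 2 (1 / A) + (1 - A) * logb 2 (1 / (1 - A)) = binEntropy A / log 2 := by
    unfold logb
    rw [Real.binEntropy_eq_negMulLog_add_negMulLog_one_sub]
    unfold Real.negMulLog
    rw [one_div, one_div, Real.log_inv, Real.log_inv]
    ring
  rw [h3, div_le_one hlog]
  exact h2

/-- The Courtade-Kumar inequality on the closed range `0 ≤ ε ≤ 1/2`. -/
theorem ck_full_closed {n : ℕ} (f : (Fin n → Bool) → Bool) {ε : ℝ} (h0 : 0 ≤ ε) (h1 : ε ≤ 1 / 2) :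
    mutualInfo f ε ≤ 1 - binEntropy ε / log 2 := by
  rcases eq_or_lt_of_le h0 with h | h
  · rw [← h, Real.binEntropy_zero]
    simpa using mutualInfo_zero_le f
  · exact ck_full f h h1

end Vale.Agent.CK
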