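import Vale.Agent.CK.IADefs
import Vale.Agent.CK.Basic

/-!
Soundness of the interval arithmetic of `IADefs`.
-/

open Real

namespace Vale.Agent.CK

open Vale.Agent.P322

lemma nat_div_eq (a b : ℕ) : Nat.div a b = a / b := rfl
lemma nat_mul_eq (a b : ℕ) : Nat.mul a b = a * b := rfl
lemma nat_add_eq (a b : ℕ) : Nat.add a b = a + b := rfl
lemma nat_sub_eq (a b : ℕ) : Nat.sub a b = a - b := rfl
lemma nat_succ_eq (a : ℕ) : Nat.succ a = a + 1 := rfl

/-- `S` as a real. -/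
lemma SN_real : ((SN : ℕ) : ℝ) = 1073741824 := by norm_num [SN]

lemma SN_pos' : (0 : ℝ) < (SN : ℕ) := by rw [SN_real]; norm_num

/-- Meaning of a scaled natural. -/
noncomputable def rl (n : ℕ) : ℝ := (n : ℝ) / (SN : ℕ)

lemma rl_nonneg (n : ℕ) : 0 ≤ rl n := div_nonneg (Nat.cast_nonneg _) SN_pos'.le

lemma rl_mono {a b : ℕ} (h : a ≤ b) : rl a ≤ rl b :=
  div_le_div_of_nonneg_right (Nat.cast_le.mpr h) SN_pos'.le

lemma rl_add (a b : ℕ) : rl (Nat.add a b) = rl a + rl b := by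
  unfold rl
  simp only [nat_add_eq, Nat.cast_add, add_div]

lemma rl_SN : rl SN = 1 := by
  unfold rl
  exact div_self SN_pos'.ne'

lemma le_rl_sub (a b : ℕ) : rl a - rl b ≤ rl (Nat.sub a b) := by
  unfold rl
  rw [← sub_div]
  apply div_le_div_of_nonneg_right _ SN_pos'.le
  have h : (a : ℝ) ≤ ((a - b : ℕ) : ℝ) + b := by
    have : a ≤ (a - b) + b := by omega
    exact_mod_cast this
  simp only [nat_sub_eq]
  linarith

lemma rl_sub_eq {a b : ℕ} (h : b ≤ a) : rl (Nat.sub a b) = rl a - rl b := by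
  unfold rl
  simp only [nat_sub_eq]
  rw [Nat.cast_sub h, sub_div]

/-- `floor (a * b / S)`. -/
lemma rl_div_mul_le (a b : ℕ) : rl (Nat.div (Nat.mul a b) SN) ≤ rl a * rl b := by
  unfold rl
  have h := @Nat.cast_div_le ℝ _ _ _ (a * b) SN
  simp only [Nat.cast_mul] at h
  simp only [nat_div_eq, nat_mul_eq]
  have hS := SN_pos'
  rw [div_mul_div_comm, le_div_iff₀ (by positivity)]
  have h2 := (div_le_div_iff_of_pos_right hS).mpr h
  calc (((a * b / SN : ℕ) : ℝ) / (SN : ℕ)) * (((SN : ℕ) : ℝ) * (SN : ℕ))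
      = ((a * b / SN : ℕ) : ℝ) * (SN : ℕ) := by field_simp
    _ ≤ ((a : ℝ) * b / (SN : ℕ)) * (SN : ℕ) := mul_le_mul_of_nonneg_right h hS.le
    _ = (a : ℝ) * b := by field_simp

lemma le_rl_succ_div_mul (a b : ℕ) : rl a * rl b ≤ rl (Nat.succ (Nat.div (Nat.mul a b) SN)) := by
  unfold rl
  have hS := SN_pos'
  have h1 : a * b < (a * b / SN + 1) * SN := by
    have hp : 0 < SN := by norm_num [SN]
    have := Nat.lt_succ_of_le (Nat.le_refl (a * b / SN))
    exact (Nat.div_lt_iff_lt_mul hp).mp this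
  have h2 : (a : ℝ) * b ≤ (((a * b / SN + 1 : ℕ) : ℝ)) * (SN : ℕ) := by
    exact_mod_cast h1.le
  simp only [nat_div_eq, nat_mul_eq, nat_succ_eq]
  rw [div_mul_div_comm, div_le_iff₀ (by positivity)]
  calc (a : ℝ) * b ≤ (((a * b / SN + 1 : ℕ) : ℝ)) * (SN : ℕ) := h2
    _ = _ := by field_simp

/-- `floor (a * S / b)`. -/
lemma rl_div_le {a b : ℕ} (hb : 0 < b) : rl (Nat.div (Nat.mul a SN) b) ≤ rl a / rl b := by
  unfold rl
  have hS := SN_pos'
  have hb' : (0 : ℝ) < b := by exact_mod_cast hb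
  have h := @Nat.cast_div_le ℝ _ _ _ (a * SN) b
  simp only [Nat.cast_mul] at h
  simp only [nat_div_eq, nat_mul_eq]
  have e : (a : ℝ) / (SN : ℕ) / ((b : ℝ) / (SN : ℕ)) = ((a : ℝ) * (SN : ℕ) / b) / (SN : ℕ) * 1 := by
    field_simp
  rw [e, mul_one]
  exact div_le_div_of_nonneg_right h hS.le

lemma le_rl_succ_div {a b : ℕ} (hb : 0 < b) : rl a / rl b ≤ rl (Nat.succ (Nat.div (Nat.mul a SN) b)) := by
  unfold rl
  have hS := SN_pos'
  have hb' : (0 : ℝ) < b := by exact_mod_cast hb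
  have h1 : a * SN < (a * SN / b + 1) * b := by
    have := Nat.lt_succ_of_le (Nat.le_refl (a * SN / b))
    exact (Nat.div_lt_iff_lt_mul hb).mp this
  have h2 : (a : ℝ) * (SN : ℕ) ≤ (((a * SN / b + 1 : ℕ) : ℝ)) * b := by
    exact_mod_cast h1.le
  simp only [nat_div_eq, nat_mul_eq, nat_succ_eq]
  have e : (a : ℝ) / (SN : ℕ) / ((b : ℝ) / (SN : ℕ)) = (a : ℝ) * (SN : ℕ) / b / (SN : ℕ) := by
    field_simp
  rw [e]
  apply div_le_div_of_nonneg_right _ hS.le
  rw [div_le_iff₀ hb']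
  exact h2

/-- A floored quotient by a natural: `pw / d`. -/
lemma rl_div_nat_le (a d : ℕ) : rl (Nat.div a d) ≤ rl a / d := by
  unfold rl
  have hS := SN_pos'
  have h := @Nat.cast_div_le ℝ _ _ _ a d
  simp only [nat_div_eq]
  rw [div_div, mul_comm, ← div_div]
  exact div_le_div_of_nonneg_right h hS.le

lemma le_rl_succ_div_nat (a : ℕ) {d : ℕ} (hd : 0 < d) : rl a / d ≤ rl (Nat.succ (Nat.div a d)) := by
  unfold rl
  have hS := SN_pos'
  have hd' : (0 : ℝ) < d := by exact_mod_cast hd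
  have h1 : a < (a / d + 1) * d := by
    have := Nat.lt_succ_of_le (Nat.le_refl (a / d))
    exact (Nat.div_lt_iff_lt_mul hd).mp this
  have h2 : (a : ℝ) ≤ (((a / d + 1 : ℕ) : ℝ)) * d := by
    exact_mod_cast h1.le
  simp only [nat_div_eq, nat_succ_eq]
  rw [div_div, mul_comm, ← div_div]
  apply div_le_div_of_nonneg_right _ hS.le
  rw [div_le_iff₀ hd']
  exact h2

/-! ### The series `T y d = ∑ y^k / (d + 2 k)` -/

/-- The series. -/
noncomputable def Tser (y d : ℝ) : ℝ := ∑' k : ℕ, y ^ k / (d + 2 * k)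

lemma Tser_summable {y d : ℝ} (h0 : 0 ≤ y) (h1 : y < 1) (hd : 0 < d) :
    Summable (fun k : ℕ => y ^ k / (d + 2 * k)) := by
  have hg := summable_geometric_of_lt_one h0 h1
  refine Summable.of_nonneg_of_le (fun k => by positivity) (fun k => ?_) (hg.mul_right (1 / d))
  rw [div_eq_mul_one_div]
  apply mul_le_mul_of_nonneg_left _ (by positivity)
  apply one_div_le_one_div_of_le hd
  have : (0 : ℝ) ≤ k := Nat.cast_nonneg k
  linarith

lemma Tser_nonneg {y d : ℝ} (h0 : 0 ≤ y) (hd : 0 < d) : 0 ≤ Tser y d :=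
  tsum_nonneg fun k => by positivity

lemma Tser_step {y d : ℝ} (h0 : 0 ≤ y) (h1 : y < 1) (hd : 0 < d) :
    Tser y d = 1 / d + y * Tser y (d + 2) := by
  unfold Tser
  rw [(Tser_summable h0 h1 hd).tsum_eq_zero_add, ← tsum_mul_left]
  simp only [pow_zero, Nat.cast_zero, mul_zero, add_zero]
  congr 1
  apply tsum_congr
  intro k
  rw [pow_succ]
  push_cast
  have h2 : d + 2 * ((k : ℝ) + 1) = d + 2 + 2 * k := by ring
  rw [h2]
  ring

lemma Tser_le {y d : ℝ} (h0 : 0 ≤ y) (h1 : y < 1) (hd : 0 < d) :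
    Tser y d ≤ 1 / (d * (1 - y)) := by
  have hg := hasSum_geometric_of_lt_one h0 h1
  have hs := hg.mul_right (1 / d)
  have e : (1 - y)⁻¹ * (1 / d) = 1 / (d * (1 - y)) := by
    have : 1 - y ≠ 0 := by linarith
    field_simp
  rw [e] at hs
  rw [← hs.tsum_eq]
  apply (Tser_summable h0 h1 hd).tsum_le_tsum _ hs.summable
  intro k
  rw [div_eq_mul_one_div]
  apply mul_le_mul_of_nonneg_left _ (by positivity)
  apply one_div_le_one_div_of_le hd
  have : (0 : ℝ) ≤ k := Nat.cast_nonneg k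
  linarith

lemma Tser_mono {y y' d : ℝ} (h0 : 0 ≤ y) (hyy : y ≤ y') (h1 : y' < 1) (hd : 0 < d) :
    Tser y d ≤ Tser y' d := by
  apply (Tser_summable h0 (by linarith) hd).tsum_le_tsum _ (Tser_summable (by linarith) h1 hd)
  intro k
  apply div_le_div_of_nonneg_right (pow_le_pow_left₀ h0 hyy k)
  have : (0 : ℝ) ≤ k := Nat.cast_nonneg k
  positivity

/-- `A z = z * T(z², 1)`. -/
lemma A_eq_Tser {z : ℝ} (hz : |z| < 1) : A z = z * Tser (z ^ 2) 1 := by
  have h := Real.hasSum_log_sub_log_of_abs_lt_one hz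
  have hz2 : z ^ 2 < 1 := by
    rw [sq_lt_one_iff_abs_lt_one]
    exact hz
  have hs := Tser_summable (y := z ^ 2) (d := 1) (by positivity) hz2 one_pos
  have h2 := (hs.hasSum.mul_left z).mul_left 2
  have e : (fun k : ℕ => (2 : ℝ) * (z * ((z ^ 2) ^ k / (1 + 2 * (k : ℝ))))) =
      fun k : ℕ => (2 : ℝ) * (1 / (2 * (k : ℝ) + 1)) * z ^ (2 * k + 1) := by
    funext k
    have e1 : z ^ (2 * k + 1) = (z ^ 2) ^ k * z := by rw [pow_succ, pow_mul]
    have e2 : (1 + 2 * (k : ℝ)) = 2 * k + 1 := by ring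
    rw [e1, e2]
    ring
  rw [e] at h2
  have h3 := h.unique h2
  unfold A
  rw [h3]
  unfold Tser
  ring

/-- `atanh x / x`, extended by `1` at `0`. -/
noncomputable def atcf (z : ℝ) : ℝ := Tser (z ^ 2) 1

/-- `(atanh x / x - 1) / x²`, extended by `1/3` at `0`. -/
noncomputable def psf (z : ℝ) : ℝ := Tser (z ^ 2) 3

lemma A_eq_mul_atcf {z : ℝ} (hz : |z| < 1) : A z = z * atcf z := A_eq_Tser hz

lemma atcf_eq_div {z : ℝ} (hz : |z| < 1) (h0 : z ≠ 0) : atcf z = A z / z := by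
  rw [A_eq_mul_atcf hz]
  field_simp

lemma atcf_step {z : ℝ} (hz : |z| < 1) : atcf z = 1 + z ^ 2 * psf z := by
  have hz2 : z ^ 2 < 1 := by
    rw [sq_lt_one_iff_abs_lt_one]
    exact hz
  unfold atcf psf
  rw [Tser_step (by positivity) hz2 one_pos]
  norm_num

lemma psf_eq_div {z : ℝ} (hz : |z| < 1) (h0 : z ≠ 0) : psf z = (atcf z - 1) / z ^ 2 := by
  rw [atcf_step hz]
  field_simp
  ring

lemma atcf_mono {x y : ℝ} (h0 : 0 ≤ x) (hxy : x ≤ y) (h1 : y < 1) : atcf x ≤ atcf y := by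
  have hy : y ^ 2 < 1 := by nlinarith
  exact Tser_mono (by positivity) (by nlinarith) hy one_pos

lemma psf_mono {x y : ℝ} (h0 : 0 ≤ x) (hxy : x ≤ y) (h1 : y < 1) : psf x ≤ psf y := by
  have hy : y ^ 2 < 1 := by nlinarith
  exact Tser_mono (by positivity) (by nlinarith) hy (by norm_num)

/-! ### Soundness of the series -/

lemma serLo_sound : ∀ (n z2 pw d : ℕ) (P y : ℝ), 0 < d → rl pw ≤ P → 0 ≤ P → 0 ≤ y → y < 1 → rl z2 ≤ y →
    rl (serLo n z2 pw d) ≤ P * Tser y d := by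
  intro n
  induction n with
  | zero =>
    intro z2 pw d P y hd _ hP hy hy1 _
    have hd' : (0 : ℝ) < d := by exact_mod_cast hd
    have : rl 0 = 0 := by simp [rl]
    show rl 0 ≤ _
    rw [this]
    exact mul_nonneg hP (Tser_nonneg hy hd')
  | succ n ih =>
    intro z2 pw d P y hd hpw hP hy hy1 hz2
    have hd' : (0 : ℝ) < d := by exact_mod_cast hd
    show rl (Nat.add (Nat.div pw d) (serLo n z2 (Nat.div (Nat.mul pw z2) SN) (Nat.add d 2))) ≤ _
    rw [rl_add, Tser_step hy hy1 hd']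
    have h1 : rl (Nat.div pw d) ≤ P * (1 / d) := by
      have := rl_div_nat_le pw d
      have h2 : rl pw / d ≤ P / d := div_le_div_of_nonneg_right hpw hd'.le
      calc rl (Nat.div pw d) ≤ P / d := this.trans h2
        _ = P * (1 / d) := by ring
    have h2 : rl (Nat.div (Nat.mul pw z2) SN) ≤ P * y := by
      have := rl_div_mul_le pw z2
      exact this.trans (mul_le_mul hpw hz2 (rl_nonneg _) hP)
    have h3 := ih z2 (Nat.div (Nat.mul pw z2) SN) (Nat.add d 2) (P * y) y (by simp only [nat_add_eq]; omega) h2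
      (mul_nonneg hP hy) hy hy1 hz2
    have e : ((Nat.add d 2 : ℕ) : ℝ) = (d : ℝ) + 2 := by
      simp only [nat_add_eq]
      push_cast
      ring
    rw [e] at h3
    calc _ ≤ P * (1 / d) + P * y * Tser y (d + 2) := add_le_add h1 h3
      _ = _ := by ring

lemma serHi_sound : ∀ (n z2 pw d : ℕ) (P y : ℝ), 0 < d → 17 ≤ d + 2 * n → P ≤ rl pw → 0 ≤ P → 0 ≤ y → y ≤ 3 / 20 →
    y ≤ rl z2 → P * Tser y d ≤ rl (serHi n z2 pw d) := by
  intro n
  induction n with
  | zero =>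
    intro z2 pw d P y _ hd hpw hP hy hy1 hz2
    have hdd : 17 ≤ d := by omega
    have hd' : (17 : ℝ) ≤ d := by exact_mod_cast hdd
    have hy1' : y < 1 := by linarith
    have h1 := Tser_le hy hy1' (d := d) (by linarith)
    have h2 : 1 / ((d : ℝ) * (1 - y)) ≤ 1 / 14 := by
      apply one_div_le_one_div_of_le (by norm_num)
      nlinarith
    show _ ≤ rl (Nat.succ (Nat.div pw 14))
    have h3 := le_rl_succ_div_nat pw (d := 14) (by norm_num)
    have h4 : rl pw / ((14 : ℕ) : ℝ) = rl pw * (1 / 14) := by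
      push_cast
      ring
    rw [h4] at h3
    refine le_trans ?_ h3
    exact mul_le_mul hpw (h1.trans h2) (Tser_nonneg hy (by linarith)) (rl_nonneg _)
  | succ n ih =>
    intro z2 pw d P y hdp hd hpw hP hy hy1 hz2
    have hd' : (0 : ℝ) < d := by exact_mod_cast hdp
    have hy1' : y < 1 := by linarith
    show _ ≤ rl (Nat.add (Nat.succ (Nat.div pw d)) (serHi n z2 (Nat.succ (Nat.div (Nat.mul pw z2) SN)) (Nat.add d 2)))
    rw [rl_add, Tser_step hy hy1' hd']
    have h1 : P * (1 / d) ≤ rl (Nat.succ (Nat.div pw d)) := by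
      have := le_rl_succ_div_nat pw hdp
      have h2 : P / d ≤ rl pw / d := div_le_div_of_nonneg_right hpw hd'.le
      calc P * (1 / d) = P / d := by ring
        _ ≤ _ := h2.trans this
    have h2 : P * y ≤ rl (Nat.succ (Nat.div (Nat.mul pw z2) SN)) :=
      (mul_le_mul hpw hz2 hy (rl_nonneg _)).trans (le_rl_succ_div_mul pw z2)
    have h3 := ih z2 (Nat.succ (Nat.div (Nat.mul pw z2) SN)) (Nat.add d 2) (P * y) y
      (by simp only [nat_add_eq]; omega) (by simp only [nat_add_eq]; omega) h2 (mul_nonneg hP hy) hy hy1 hz2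
    have e : ((Nat.add d 2 : ℕ) : ℝ) = (d : ℝ) + 2 := by
      simp only [nat_add_eq]
      push_cast
      ring
    rw [e] at h3
    calc P * (1 / d + y * Tser y (d + 2)) = P * (1 / d) + P * y * Tser y (d + 2) := by ring
      _ ≤ _ := add_le_add h1 h3

/-! ### Logarithm of a natural number -/

lemma L2lo_le : rl L2lo ≤ log 2 := by
  have := Real.log_two_gt_d9
  unfold rl
  rw [SN_real]
  have e : ((L2lo : ℕ) : ℝ) = 744261117 := by norm_num [L2lo]
  rw [e]
  norm_num at this ⊢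
  linarith

lemma le_L2hi : log 2 ≤ rl L2hi := by
  have := Real.log_two_lt_d9
  unfold rl
  rw [SN_real]
  have e : ((L2hi : ℕ) : ℝ) = 744261119 := by norm_num [L2hi]
  rw [e]
  norm_num at this ⊢
  linarith

/-- The fractional part: `log (n / 2^e) = 2 A z`, with `z = (n - m)/(n + m)`. -/
lemma log_frac {n : ℕ} (hn : n ≠ 0) :
    let m : ℕ := 2 ^ Nat.log2 n
    let z : ℝ := ((n : ℝ) - m) / ((n : ℝ) + m)
    0 ≤ z ∧ z < 1 / 3 ∧ log ((n : ℝ) / m) = 2 * A z := by
  intro m z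
  have h1 : m ≤ n := Nat.log2_self_le hn
  have h2 : n < 2 * m := by
    have := @Nat.lt_log2_self n
    rw [pow_succ] at this
    show n < 2 * 2 ^ Nat.log2 n
    omega
  have hm : (0 : ℝ) < m := by
    have : 0 < m := by positivity
    exact_mod_cast this
  have h1' : (m : ℝ) ≤ n := by exact_mod_cast h1
  have h2' : (n : ℝ) < 2 * m := by exact_mod_cast h2
  have hn' : (0 : ℝ) < n := by linarith
  refine ⟨div_nonneg (by linarith) (by linarith), ?_, ?_⟩
  · rw [div_lt_iff₀ (by linarith)]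
    linarith
  · unfold A
    have e1 : 1 + z = 2 * n / ((n : ℝ) + m) := by
      simp only [z]
      field_simp
      ring
    have e2 : 1 - z = 2 * m / ((n : ℝ) + m) := by
      simp only [z]
      field_simp
      ring
    have h3 : (0 : ℝ) < n + m := by linarith
    rw [e1, e2, log_div (by positivity) h3.ne', log_div (by positivity) h3.ne',
      log_mul (by norm_num) hn'.ne', log_mul (by norm_num) hm.ne', log_div hn'.ne' hm.ne']
    ring

lemma fracLo_le {n : ℕ} (hn : n ≠ 0) :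
    rl (fracLo n) ≤ log ((n : ℝ) / (2 ^ Nat.log2 n : ℕ)) := by
  obtain ⟨hz0, hz1, hlog⟩ := log_frac hn
  set m : ℕ := 2 ^ Nat.log2 n with hm
  set z : ℝ := ((n : ℝ) - m) / ((n : ℝ) + m) with hz
  rw [hlog]
  have hzabs : |z| < 1 := by
    rw [abs_of_nonneg hz0]
    linarith
  rw [A_eq_Tser hzabs]
  -- the scaled `z`
  have hmpos : 0 < m := by positivity
  have h1 : m ≤ n := Nat.log2_self_le hn
  set zt : ℕ := (n - m) * SN / (n + m) with hzt
  have hztz : rl zt ≤ z := by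
    have hc := @Nat.cast_div_le ℝ _ _ _ ((n - m) * SN) (n + m)
    unfold rl
    have hS := SN_pos'
    rw [div_le_iff₀ hS]
    refine hc.trans ?_
    push_cast [Nat.cast_sub h1]
    rw [hz]
    apply le_of_eq
    ring
  have hsq : rl (sqLo zt) ≤ z ^ 2 := by
    have := rl_div_mul_le zt zt
    unfold sqLo
    refine this.trans ?_
    have := rl_nonneg zt
    nlinarith
  have hy1 : z ^ 2 < 1 := by nlinarith
  have := serLo_sound KN (sqLo zt) zt 1 z (z ^ 2) one_pos hztz hz0 (by positivity) hy1 hsq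
  have e : ((1 : ℕ) : ℝ) = 1 := by norm_num
  rw [e] at this
  have e2 : rl (fracLo n) = 2 * rl (serLo KN (sqLo zt) zt 1) := by
    show rl (Nat.mul 2 (serLo KN (sqLo zt) zt 1)) = _
    unfold rl
    simp only [nat_mul_eq]
    push_cast
    ring
  rw [e2]
  linarith

lemma le_fracHi {n : ℕ} (hn : n ≠ 0) :
    log ((n : ℝ) / (2 ^ Nat.log2 n : ℕ)) ≤ rl (fracHi n) := by
  obtain ⟨hz0, hz1, hlog⟩ := log_frac hn
  set m : ℕ := 2 ^ Nat.log2 n with hm
  set z : ℝ := ((n : ℝ) - m) / ((n : ℝ) + m) with hz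
  rw [hlog]
  have hzabs : |z| < 1 := by
    rw [abs_of_nonneg hz0]
    linarith
  rw [A_eq_Tser hzabs]
  have hmpos : 0 < m := by positivity
  have h1 : m ≤ n := Nat.log2_self_le hn
  set zt : ℕ := (n - m) * SN / (n + m) + 1 with hzt
  have hztz : z ≤ rl zt := by
    have hS := SN_pos'
    have hnm : 0 < n + m := by omega
    have hnm' : (0 : ℝ) < (n : ℝ) + m := by exact_mod_cast hnm
    have h3 : (n - m) * SN < ((n - m) * SN / (n + m) + 1) * (n + m) := by
      have := Nat.lt_succ_of_le (Nat.le_refl ((n - m) * SN / (n + m)))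
      exact (Nat.div_lt_iff_lt_mul hnm).mp this
    have h4 : (((n - m : ℕ) : ℝ)) * (SN : ℕ) ≤ (zt : ℝ) * ((n : ℝ) + m) := by
      rw [hzt]
      exact_mod_cast h3.le
    rw [Nat.cast_sub h1] at h4
    unfold rl
    rw [hz, div_le_div_iff₀ hnm' hS]
    exact h4
  have hsq : z ^ 2 ≤ rl (sqHi zt) := by
    have := le_rl_succ_div_mul zt zt
    unfold sqHi
    refine le_trans ?_ this
    have := rl_nonneg zt
    nlinarith
  have hy1 : z ^ 2 ≤ 3 / 20 := by nlinarith
  have := serHi_sound KN (sqHi zt) zt 1 z (z ^ 2) one_pos (by norm_num [KN]) hztz hz0 (by positivity) hy1 hsq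
  have e : ((1 : ℕ) : ℝ) = 1 := by norm_num
  rw [e] at this
  have e2 : rl (fracHi n) = 2 * rl (serHi KN (sqHi zt) zt 1) := by
    show rl (Nat.mul 2 (serHi KN (sqHi zt) zt 1)) = _
    unfold rl
    simp only [nat_mul_eq]
    push_cast
    ring
  rw [e2]
  linarith

/-- Splitting `n / S`. -/
lemma log_split {n : ℕ} (hn : n ≠ 0) :
    log (rl n) = log ((n : ℝ) / (2 ^ Nat.log2 n : ℕ)) + ((Nat.log2 n : ℝ) - 30) * log 2 := by
  have hn' : (0 : ℝ) < n := by
    have : 0 < n := Nat.pos_of_ne_zero hn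
    exact_mod_cast this
  have hm : (0 : ℝ) < ((2 ^ Nat.log2 n : ℕ) : ℝ) := by positivity
  unfold rl
  rw [log_div hn'.ne' SN_pos'.ne', log_div hn'.ne' hm.ne', SN_real]
  have e1 : (1073741824 : ℝ) = 2 ^ 30 := by norm_num
  have e2 : ((2 ^ Nat.log2 n : ℕ) : ℝ) = 2 ^ Nat.log2 n := by push_cast; ring
  rw [e1, e2, log_pow, log_pow]
  push_cast
  ring

lemma plogLo_le {n : ℕ} (hn : SN ≤ n) : rl (plogLo n) ≤ log (rl n) := by
  have hn0 : n ≠ 0 := by
    have : 0 < SN := by norm_num [SN]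
    omega
  rw [log_split hn0]
  have hlog : 30 ≤ Nat.log2 n := by
    have := (Nat.le_log2 hn0 (k := 30)).mpr (by simpa [SN] using hn)
    exact this
  show rl (Nat.add (Nat.mul (Nat.sub (Nat.log2 n) PN) L2lo) (fracLo n)) ≤ _
  rw [rl_add]
  have h1 := fracLo_le hn0
  have h2 : rl (Nat.mul (Nat.sub (Nat.log2 n) PN) L2lo) ≤ ((Nat.log2 n : ℝ) - 30) * log 2 := by
    have e : rl (Nat.mul (Nat.sub (Nat.log2 n) PN) L2lo) = ((Nat.log2 n : ℝ) - 30) * rl L2lo := by
      unfold rl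
      simp only [nat_mul_eq, nat_sub_eq, PN]
      rw [Nat.cast_mul, Nat.cast_sub hlog]
      push_cast
      ring
    rw [e]
    apply mul_le_mul_of_nonneg_left L2lo_le
    have : (30 : ℝ) ≤ Nat.log2 n := by exact_mod_cast hlog
    linarith
  linarith

lemma le_plogHi {n : ℕ} (hn : SN ≤ n) : log (rl n) ≤ rl (plogHi n) := by
  have hn0 : n ≠ 0 := by
    have : 0 < SN := by norm_num [SN]
    omega
  rw [log_split hn0]
  have hlog : 30 ≤ Nat.log2 n := by
    have := (Nat.le_log2 hn0 (k := 30)).mpr (by simpa [SN] using hn)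
    exact this
  show _ ≤ rl (Nat.add (Nat.mul (Nat.sub (Nat.log2 n) PN) L2hi) (fracHi n))
  rw [rl_add]
  have h1 := le_fracHi hn0
  have h2 : ((Nat.log2 n : ℝ) - 30) * log 2 ≤ rl (Nat.mul (Nat.sub (Nat.log2 n) PN) L2hi) := by
    have e : rl (Nat.mul (Nat.sub (Nat.log2 n) PN) L2hi) = ((Nat.log2 n : ℝ) - 30) * rl L2hi := by
      unfold rl
      simp only [nat_mul_eq, nat_sub_eq, PN]
      rw [Nat.cast_mul, Nat.cast_sub hlog]
      push_cast
      ring
    rw [e]
    apply mul_le_mul_of_nonneg_left le_L2hi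
    have : (30 : ℝ) ≤ Nat.log2 n := by exact_mod_cast hlog
    linarith
  linarith

lemma log2_le_thirty {n : ℕ} (hn0 : n ≠ 0) (hn : n ≤ SN) : Nat.log2 n ≤ 30 := by
  have h1 := @Nat.lt_log2_self n
  by_contra hcon
  push Not at hcon
  have h2 : (2 : ℕ) ^ 31 ≤ 2 ^ Nat.log2 n := Nat.pow_le_pow_right (by norm_num) hcon
  have h3 := Nat.log2_self_le hn0
  have h4 : n ≤ 1073741824 := by simpa [SN] using hn
  norm_num at h2
  omega

lemma mlogLo_le {n : ℕ} (hn0 : n ≠ 0) (hn : n ≤ SN) : rl (mlogLo n) ≤ -log (rl n) := by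
  have hlog := log2_le_thirty hn0 hn
  have hnn : 0 ≤ -log (rl n) := by
    have h1 : rl n ≤ 1 := by
      have := rl_mono hn
      rwa [rl_SN] at this
    have := log_nonpos (rl_nonneg n) h1
    linarith
  show rl (Nat.sub (Nat.mul (Nat.sub PN (Nat.log2 n)) L2lo) (fracHi n)) ≤ _
  by_cases hle : fracHi n ≤ Nat.mul (Nat.sub PN (Nat.log2 n)) L2lo
  · rw [rl_sub_eq hle, log_split hn0]
    have h1 := le_fracHi hn0
    have e : rl (Nat.mul (Nat.sub PN (Nat.log2 n)) L2lo) = (30 - (Nat.log2 n : ℝ)) * rl L2lo := by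
      unfold rl
      simp only [nat_mul_eq, nat_sub_eq, PN]
      rw [Nat.cast_mul, Nat.cast_sub hlog]
      push_cast
      ring
    rw [e]
    have h3 : (Nat.log2 n : ℝ) ≤ 30 := by exact_mod_cast hlog
    have h2 := mul_le_mul_of_nonneg_left L2lo_le (by linarith : (0 : ℝ) ≤ 30 - (Nat.log2 n : ℝ))
    nlinarith
  · have : Nat.sub (Nat.mul (Nat.sub PN (Nat.log2 n)) L2lo) (fracHi n) = 0 := by
      simp only [nat_sub_eq] at hle ⊢
      omega
    rw [this]
    simpa [rl] using hnn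

lemma le_mlogHi {n : ℕ} (hn0 : n ≠ 0) (hn : n ≤ SN) : -log (rl n) ≤ rl (mlogHi n) := by
  have hlog := log2_le_thirty hn0 hn
  show _ ≤ rl (Nat.sub (Nat.mul (Nat.sub PN (Nat.log2 n)) L2hi) (fracLo n))
  refine le_trans ?_ (le_rl_sub _ _)
  rw [log_split hn0]
  have h1 := fracLo_le hn0
  have e : rl (Nat.mul (Nat.sub PN (Nat.log2 n)) L2hi) = (30 - (Nat.log2 n : ℝ)) * rl L2hi := by
    unfold rl
    simp only [nat_mul_eq, nat_sub_eq, PN]
    rw [Nat.cast_mul, Nat.cast_sub hlog]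
    push_cast
    ring
  rw [e]
  have h3 : (Nat.log2 n : ℝ) ≤ 30 := by exact_mod_cast hlog
  have h2 := mul_le_mul_of_nonneg_left le_L2hi (by linarith : (0 : ℝ) ≤ 30 - (Nat.log2 n : ℝ))
  nlinarith


end Vale.Agent.CK
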