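import Vale.Agent.CK.IA1

/-!
Soundness for `atanh`, `atanh x / x`, `(atanh x / x - 1) / x²`.
-/

open Real

namespace Vale.Agent.CK

open Vale.Agent.P322

attribute [local irreducible] SN smallZ

lemma cond_cases {α : Type} {b : Bool} {x y : α} {P : α → Prop} (h1 : b = true → P x)
    (h2 : b = false → P y) : P (bif b then x else y) := by
  cases b
  · exact h2 rfl
  · exact h1 rfl

lemma sq_le_of_le_35 {x : ℝ} (h0 : 0 ≤ x) (h : x ≤ 35 / 100) : x ^ 2 ≤ 3 / 20 := by nlinarith

lemma lt_of_ble_false {a b : ℕ} (h : Nat.ble a b = false) : b < a := by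
  by_contra hc
  have := Nat.ble_eq_true_of_le (Nat.le_of_not_lt hc)
  rw [this] at h
  exact absurd h (by simp)

/-! ### `atanh`, `atanh x / x`, `(atanh x / x - 1) / x²` -/

lemma rl_lt_one {z : ℕ} (hz : z < SN) : rl z < 1 := by
  unfold rl
  rw [div_lt_one SN_pos']
  exact_mod_cast hz

lemma rl_pos {z : ℕ} (hz : 0 < z) : 0 < rl z := by
  unfold rl
  have : (0 : ℝ) < z := by exact_mod_cast hz
  exact div_pos this SN_pos'

lemma abs_rl_lt {z : ℕ} (hz : z < SN) : |rl z| < 1 := by
  rw [abs_of_nonneg (rl_nonneg z)]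
  exact rl_lt_one hz

lemma rl_S_add (z : ℕ) : rl (Nat.add SN z) = 1 + rl z := by rw [rl_add, rl_SN]

lemma rl_S_sub {z : ℕ} (hz : z ≤ SN) : rl (Nat.sub SN z) = 1 - rl z := by
  rw [rl_sub_eq hz, rl_SN]

lemma atanLo_le {z : ℕ} (hz : z < SN) : rl (atanLo z) ≤ A (rl z) := by
  have h1 := plogLo_le (n := Nat.add SN z) (by simp only [nat_add_eq]; omega)
  have hne : Nat.sub SN z ≠ 0 := by simp only [nat_sub_eq]; omega
  have h2 := mlogLo_le (n := Nat.sub SN z) hne (by simp only [nat_sub_eq]; omega)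
  rw [rl_S_add] at h1
  rw [rl_S_sub hz.le] at h2
  show rl (Nat.div (Nat.add (plogLo (Nat.add SN z)) (mlogLo (Nat.sub SN z))) 2) ≤ _
  refine (rl_div_nat_le _ 2).trans ?_
  rw [rl_add]
  unfold A
  push_cast
  linarith

lemma le_atanHi {z : ℕ} (hz : z < SN) : A (rl z) ≤ rl (atanHi z) := by
  have h1 := le_plogHi (n := Nat.add SN z) (by simp only [nat_add_eq]; omega)
  have hne : Nat.sub SN z ≠ 0 := by simp only [nat_sub_eq]; omega
  have h2 := le_mlogHi (n := Nat.sub SN z) hne (by simp only [nat_sub_eq]; omega)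
  rw [rl_S_add] at h1
  rw [rl_S_sub hz.le] at h2
  show _ ≤ rl (Nat.succ (Nat.div (Nat.add (plogHi (Nat.add SN z)) (mlogHi (Nat.sub SN z))) 2))
  refine le_trans ?_ (le_rl_succ_div_nat _ (d := 2) (by norm_num))
  rw [rl_add]
  unfold A
  push_cast
  linarith

lemma atcf_ge_one {x : ℝ} (hx : |x| < 1) : 1 ≤ atcf x := by
  rw [atcf_step hx]
  have hx2 : x ^ 2 < 1 := by
    rw [sq_lt_one_iff_abs_lt_one]
    exact hx
  have : 0 ≤ psf x := Tser_nonneg (by positivity) (by norm_num)
  have h2 : 0 ≤ x ^ 2 * psf x := by positivity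
  linarith

lemma abs_of_mem {x : ℝ} (h0 : 0 ≤ x) (h1 : x < 1) : |x| < 1 := by
  rw [abs_of_nonneg h0]
  exact h1

lemma sqLo_le {z : ℕ} {x : ℝ} (hz : rl z ≤ x) : rl (sqLo z) ≤ x ^ 2 := by
  have := rl_div_mul_le z z
  unfold sqLo
  refine this.trans ?_
  have := rl_nonneg z
  nlinarith

lemma le_sqHi {z : ℕ} {x : ℝ} (h0 : 0 ≤ x) (hz : x ≤ rl z) : x ^ 2 ≤ rl (sqHi z) := by
  have := le_rl_succ_div_mul z z
  unfold sqHi
  refine le_trans ?_ this
  have := rl_nonneg z
  nlinarith

lemma smallZ_rl : rl smallZ ≤ 35 / 100 := by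
  unfold rl
  rw [SN_real]
  have e : ((smallZ : ℕ) : ℝ) = 375809638 := by norm_num [smallZ]
  rw [e]
  norm_num

lemma smallZ_lt : smallZ < SN := by norm_num [smallZ, SN]

lemma lt_smallZ_of_rl {z : ℕ} (h : smallZ < z) : 35 / 100 ≤ rl z + 1 / 1000 := by
  have := rl_mono h.le
  have h2 : 349 / 1000 ≤ rl smallZ := by
    unfold rl
    rw [SN_real]
    have e : ((smallZ : ℕ) : ℝ) = 375809638 := by norm_num [smallZ]
    rw [e]
    norm_num
  linarith

lemma atcLo_le {z : ℕ} {x : ℝ} (hz : rl z ≤ x) (hx : x < 1) : rl (atcLo z) ≤ atcf x := by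
  have hx0 : 0 ≤ x := (rl_nonneg z).trans hz
  have hx2 : x ^ 2 < 1 := by nlinarith
  unfold atcLo
  cases hb : Nat.ble z smallZ with
  | true =>
    simp only [cond_true]
    have := serLo_sound KN (sqLo z) SN 1 1 (x ^ 2) one_pos (by rw [rl_SN]) zero_le_one (by positivity) hx2 (sqLo_le hz)
    have e1 : ((1 : ℕ) : ℝ) = 1 := Nat.cast_one
    rw [e1, one_mul] at this
    exact this
  | false =>
    simp only [cond_false]
    have hz1 : smallZ < z := lt_of_ble_false hb
    have hz0 : 0 < z := by omega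
    have hzS : z < SN := by
      have : rl z < 1 := lt_of_le_of_lt hz hx
      by_contra hcon
      push Not at hcon
      have := rl_mono hcon
      rw [rl_SN] at this
      linarith
    have hrl := rl_pos hz0
    refine (rl_div_le hz0).trans ?_
    refine le_trans ?_ (atcf_mono (rl_nonneg z) hz hx)
    rw [atcf_eq_div (abs_rl_lt hzS) hrl.ne']
    exact div_le_div_of_nonneg_right (atanLo_le hzS) hrl.le

lemma le_atcHi {z : ℕ} {x : ℝ} (hx0 : 0 ≤ x) (hz : x ≤ rl z) (hz1 : z < SN) : atcf x ≤ rl (atcHi z) := by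
  refine cond_cases (b := Nat.ble z smallZ) (x := serHi KN (sqHi z) SN 1)
    (y := Nat.succ (Nat.div (Nat.mul (atanHi z) SN) z)) (P := fun t => atcf x ≤ rl t) ?_ ?_
  · intro hb
    have hzs : z ≤ smallZ := Nat.le_of_ble_eq_true hb
    have hxs : x ≤ 35 / 100 := hz.trans ((rl_mono hzs).trans smallZ_rl)
    have := serHi_sound KN (sqHi z) SN 1 1 (x ^ 2) one_pos (by norm_num [KN]) (by rw [rl_SN]) zero_le_one (by positivity)
      (sq_le_of_le_35 hx0 hxs) (le_sqHi hx0 hz)
    have e1 : ((1 : ℕ) : ℝ) = 1 := Nat.cast_one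
    rw [e1, one_mul] at this
    exact this
  · intro hb
    have hz2 : smallZ < z := lt_of_ble_false hb
    have hz0 : 0 < z := by omega
    have hrl := rl_pos hz0
    refine (atcf_mono hx0 hz (rl_lt_one hz1)).trans ?_
    rw [atcf_eq_div (abs_rl_lt hz1) hrl.ne']
    refine le_trans ?_ (le_rl_succ_div hz0)
    exact div_le_div_of_nonneg_right (le_atanHi hz1) hrl.le

lemma psf_nonneg (x : ℝ) : 0 ≤ psf x := Tser_nonneg (by positivity) (by norm_num)

lemma psLo_le {z : ℕ} {x : ℝ} (hz : rl z ≤ x) (hx : x < 1) : rl (psLo z) ≤ psf x := by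
  have hx0 : 0 ≤ x := (rl_nonneg z).trans hz
  have hx2 : x ^ 2 < 1 := by nlinarith
  unfold psLo
  cases hb : Nat.ble z smallZ with
  | true =>
    simp only [cond_true]
    have := serLo_sound KN (sqLo z) SN 3 1 (x ^ 2) (by norm_num) (by rw [rl_SN]) zero_le_one (by positivity) hx2 (sqLo_le hz)
    have e1 : ((3 : ℕ) : ℝ) = 3 := by norm_num
    rw [e1, one_mul] at this
    exact this
  | false =>
    simp only [cond_false]
    have hz1 : smallZ < z := lt_of_ble_false hb
    have hz0 : 0 < z := by omega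
    have hzS : z < SN := by
      have : rl z < 1 := lt_of_le_of_lt hz hx
      by_contra hcon
      push Not at hcon
      have := rl_mono hcon
      rw [rl_SN] at this
      linarith
    have hrl := rl_pos hz0
    refine le_trans ?_ (psf_mono (rl_nonneg z) hz hx)
    rw [psf_eq_div (abs_rl_lt hzS) hrl.ne']
    have h1 := atcLo_le (le_refl (rl z)) (rl_lt_one hzS)
    set a := atcLo z with ha
    by_cases hle : SN ≤ a
    · have e1 : rl (Nat.div (Nat.mul (Nat.mul (Nat.sub a SN) SN) SN) (Nat.mul z z)) ≤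
          (rl a - 1) / rl z ^ 2 := by
        unfold rl at h1 ⊢
        have hS := SN_pos'
        have hzz : (0 : ℝ) < z := by exact_mod_cast hz0
        have hc := @Nat.cast_div_le ℝ _ _ _ ((a - SN) * SN * SN) (z * z)
        simp only [nat_div_eq, nat_mul_eq, nat_sub_eq]
        push_cast [Nat.cast_sub hle] at hc ⊢
        have e : ((a : ℝ) / (SN : ℕ) - 1) / ((z : ℝ) / (SN : ℕ)) ^ 2 =
            (((a : ℝ) - (SN : ℕ)) * (SN : ℕ) * (SN : ℕ) / ((z : ℝ) * z)) / (SN : ℕ) := by
          field_simp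
        rw [e]
        exact div_le_div_of_nonneg_right hc hS.le
      refine e1.trans ?_
      apply div_le_div_of_nonneg_right _ (by positivity)
      linarith
    · have : Nat.sub a SN = 0 := by
        simp only [nat_sub_eq]
        omega
      rw [this]
      have e0 : Nat.div (Nat.mul (Nat.mul 0 SN) SN) (Nat.mul z z) = 0 := by
        simp [nat_div_eq, nat_mul_eq]
      rw [e0]
      have e1 : rl 0 = 0 := by simp [rl]
      rw [e1]
      apply div_nonneg _ (by positivity)
      have := atcf_ge_one (abs_rl_lt hzS)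
      linarith

lemma le_psHi {z : ℕ} {x : ℝ} (hx0 : 0 ≤ x) (hz : x ≤ rl z) (hz1 : z < SN) : psf x ≤ rl (psHi z) := by
  refine cond_cases (b := Nat.ble z smallZ) (x := serHi KN (sqHi z) SN 3)
    (y := Nat.succ (Nat.div (Nat.mul (Nat.mul (Nat.sub (atcHi z) SN) SN) SN) (Nat.mul z z)))
    (P := fun t => psf x ≤ rl t) ?_ ?_
  · intro hb
    have hzs : z ≤ smallZ := Nat.le_of_ble_eq_true hb
    have hxs : x ≤ 35 / 100 := hz.trans ((rl_mono hzs).trans smallZ_rl)
    have := serHi_sound KN (sqHi z) SN 3 1 (x ^ 2) (by norm_num) (by norm_num [KN]) (by rw [rl_SN]) zero_le_one (by positivity)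
      (sq_le_of_le_35 hx0 hxs) (le_sqHi hx0 hz)
    have e1 : ((3 : ℕ) : ℝ) = 3 := by norm_num
    rw [e1, one_mul] at this
    exact this
  · intro hb
    have hz2 : smallZ < z := lt_of_ble_false hb
    have hz0 : 0 < z := by omega
    have hrl := rl_pos hz0
    refine (psf_mono hx0 hz (rl_lt_one hz1)).trans ?_
    rw [psf_eq_div (abs_rl_lt hz1) hrl.ne']
    have h1 := le_atcHi (rl_nonneg z) (le_refl (rl z)) hz1
    set b := atcHi z with hb'
    have e1 : (rl b - 1) / rl z ^ 2 ≤
        rl (Nat.succ (Nat.div (Nat.mul (Nat.mul (Nat.sub b SN) SN) SN) (Nat.mul z z))) := by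
      have hS := SN_pos'
      have hzz : (0 : ℝ) < z := by exact_mod_cast hz0
      have hzzn : 0 < z * z := by positivity
      have h3 : (b - SN) * SN * SN < ((b - SN) * SN * SN / (z * z) + 1) * (z * z) := by
        have := Nat.lt_succ_of_le (Nat.le_refl ((b - SN) * SN * SN / (z * z)))
        exact (Nat.div_lt_iff_lt_mul hzzn).mp this
      have h4 : (((b - SN : ℕ) : ℝ)) * (SN : ℕ) * (SN : ℕ) ≤
          (((b - SN) * SN * SN / (z * z) + 1 : ℕ) : ℝ) * ((z : ℝ) * z) := by
        exact_mod_cast h3.le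
      have h5 : (b : ℝ) - (SN : ℕ) ≤ ((b - SN : ℕ) : ℝ) := by
        have : b ≤ (b - SN) + SN := by omega
        have h6 : (b : ℝ) ≤ ((b - SN : ℕ) : ℝ) + (SN : ℕ) := by exact_mod_cast this
        linarith
      unfold rl
      simp only [nat_div_eq, nat_mul_eq, nat_sub_eq, nat_succ_eq]
      have e : ((b : ℝ) / (SN : ℕ) - 1) / ((z : ℝ) / (SN : ℕ)) ^ 2 =
          (((b : ℝ) - (SN : ℕ)) * (SN : ℕ) * (SN : ℕ) / ((z : ℝ) * z)) / (SN : ℕ) := by
        field_simp
      rw [e]
      apply div_le_div_of_nonneg_right _ hS.le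
      rw [div_le_iff₀ (by positivity)]
      refine le_trans ?_ h4
      have h7 : 0 ≤ ((SN : ℕ) : ℝ) * (SN : ℕ) := by positivity
      nlinarith
    refine le_trans ?_ e1
    apply div_le_div_of_nonneg_right _ (by positivity)
    linarith

end Vale.Agent.CK
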