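import Vale.Agent.CK.IA1b

/-!
Soundness of the interval operations.
-/

open Real

namespace Vale.Agent.CK

open Vale.Agent.P322

attribute [local irreducible] SN smallZ

/-- `log (1 + x) / x`, extended by `1` at `0`. -/
noncomputable def l1cf (x : ℝ) : ℝ := if x = 0 then 1 else log (1 + x) / x

/-- `min (- log x) k`, with value `k` at `x ≤ 0`. -/
noncomputable def mlcf (k : ℕ) (x : ℝ) : ℝ := if x ≤ 0 then rl k else min (-log x) (rl k)

/-- `x (- log x)`. -/
noncomputable def xlgf (x : ℝ) : ℝ := -(x * log x)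

/-- Meaning of an interval. -/
def Sound (x : ℝ) (I : IV) : Prop := I.ok = true → rl I.lo ≤ x ∧ x ≤ rl I.hi

/-! ### `log (1 + x) / x` -/


lemma l1cf_eq {x : ℝ} (hx : 0 ≤ x) : l1cf x = 2 * atcf (x / (2 + x)) / (2 + x) := by
  have h2 : 0 < 2 + x := by linarith
  have hZ0 : 0 ≤ x / (2 + x) := by positivity
  have hZ1 : x / (2 + x) < 1 := by
    rw [div_lt_one h2]
    linarith
  have hZabs := abs_of_mem hZ0 hZ1
  unfold l1cf
  by_cases h : x = 0
  · subst h
    simp only [if_true]
    have : atcf ((0 : ℝ) / (2 + 0)) = 1 := by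
      have h3 := atcf_step (z := (0 : ℝ) / (2 + 0)) (by norm_num)
      simpa using h3
    rw [this]
    norm_num
  · rw [if_neg h]
    have hx0 : 0 < x := lt_of_le_of_ne hx (Ne.symm h)
    have e1 : A (x / (2 + x)) = x / (2 + x) * atcf (x / (2 + x)) := A_eq_mul_atcf hZabs
    have e2 : log (1 + x) = 2 * A (x / (2 + x)) := by
      unfold A
      have e3 : 1 + x / (2 + x) = 2 * (1 + x) / (2 + x) := by
        field_simp
        ring
      have e4 : 1 - x / (2 + x) = 2 / (2 + x) := by
        field_simp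
        ring
      rw [e3, e4, log_div (by positivity) h2.ne', log_div (by norm_num) h2.ne',
        log_mul (by norm_num) (by positivity)]
      ring
    rw [e2, e1]
    field_simp

lemma l1cf_anti {x y : ℝ} (hx : 0 ≤ x) (hxy : x ≤ y) : l1cf y ≤ l1cf x := by
  rcases eq_or_lt_of_le hx with h0 | h0
  · subst h0
    rcases eq_or_lt_of_le hxy with h1 | h1
    · rw [← h1]
    · unfold l1cf
      rw [if_neg h1.ne', if_pos rfl, div_le_one h1]
      have := Real.log_le_sub_one_of_pos (show 0 < 1 + y by linarith)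
      linarith
  · rcases eq_or_lt_of_le hxy with h1 | h1
    · rw [h1]
    have hy : 0 < y := by linarith
    unfold l1cf
    rw [if_neg hy.ne', if_neg h0.ne', div_le_div_iff₀ hy h0]
    -- log (1+y) * x ≤ log (1+x) * y, concavity of the logarithm
    have h3 : (1 + x) = (1 - x / y) * 1 + (x / y) * (1 + y) := by
      field_simp
      ring
    have hc := strictConcaveOn_log_Ioi.concaveOn
    have h4 := hc.2 (show (1 : ℝ) ∈ Set.Ioi 0 by simp) (show (1 + y) ∈ Set.Ioi 0 by
      simp only [Set.mem_Ioi]; linarith)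
      (show 0 ≤ 1 - x / y by
        have := (div_le_one hy).mpr hxy
        linarith) (show 0 ≤ x / y by positivity) (by ring)
    simp only [smul_eq_mul, log_one, mul_zero, zero_add] at h4
    rw [← h3] at h4
    have h5 := mul_le_mul_of_nonneg_right h4 hy.le
    have e : x / y * log (1 + y) * y = log (1 + y) * x := by
      field_simp
    rw [e] at h5
    exact h5

lemma l1cLo_le {X : ℕ} {x : ℝ} (hx0 : 0 ≤ x) (hX : x ≤ rl X) : rl (l1cLo X) ≤ l1cf x := by
  refine le_trans ?_ (l1cf_anti hx0 hX)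
  have hXr := rl_nonneg X
  refine cond_cases (b := Nat.ble X SN)
    (x := Nat.div (Nat.mul (Nat.mul 2 (atcLo (Nat.div (Nat.mul X SN) (Nat.add (Nat.mul 2 SN) X)))) SN)
      (Nat.add (Nat.mul 2 SN) X))
    (y := Nat.div (Nat.mul (plogLo (Nat.add SN X)) SN) X) (P := fun t => rl t ≤ l1cf (rl X)) ?_ ?_
  · intro hb
    rw [l1cf_eq hXr]
    have h2 : 0 < 2 + rl X := by linarith
    set Z := rl X / (2 + rl X) with hZ
    have hZ0 : 0 ≤ Z := by positivity
    have hZ1 : Z < 1 := by
      rw [hZ, div_lt_one h2]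
      linarith
    have hS := SN_pos'
    have hden : 0 < Nat.add (Nat.mul 2 SN) X := by
      simp only [nat_add_eq, nat_mul_eq]
      have : 0 < SN := by norm_num [SN]
      omega
    have hden' : rl (Nat.add (Nat.mul 2 SN) X) = 2 + rl X := by
      rw [rl_add]
      congr 1
      unfold rl
      simp only [nat_mul_eq]
      push_cast
      field_simp
    -- `floor (X S / (2S + X))`
    have hz : rl (Nat.div (Nat.mul X SN) (Nat.add (Nat.mul 2 SN) X)) ≤ Z := by
      refine (rl_div_le hden).trans ?_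
      rw [hden']
    have h3 := atcLo_le hz hZ1
    have h4 : rl (Nat.div (Nat.mul (Nat.mul 2 (atcLo (Nat.div (Nat.mul X SN) (Nat.add (Nat.mul 2 SN) X)))) SN)
        (Nat.add (Nat.mul 2 SN) X)) ≤ rl (Nat.mul 2 (atcLo (Nat.div (Nat.mul X SN) (Nat.add (Nat.mul 2 SN) X)))) /
        rl (Nat.add (Nat.mul 2 SN) X) := rl_div_le hden
    refine h4.trans ?_
    rw [hden']
    apply div_le_div_of_nonneg_right _ h2.le
    have e : rl (Nat.mul 2 (atcLo (Nat.div (Nat.mul X SN) (Nat.add (Nat.mul 2 SN) X)))) =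
        2 * rl (atcLo (Nat.div (Nat.mul X SN) (Nat.add (Nat.mul 2 SN) X))) := by
      unfold rl
      simp only [nat_mul_eq]
      push_cast
      ring
    rw [e]
    linarith
  · intro hb
    have hz1 : SN < X := lt_of_ble_false hb
    have hz0 : 0 < X := by omega
    have hrl := rl_pos hz0
    refine (rl_div_le hz0).trans ?_
    have h1 := plogLo_le (n := Nat.add SN X) (by simp only [nat_add_eq]; omega)
    rw [rl_S_add] at h1
    unfold l1cf
    rw [if_neg hrl.ne']
    exact div_le_div_of_nonneg_right h1 hrl.le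

lemma le_l1cHi {X : ℕ} {x : ℝ} (hX : rl X ≤ x) : l1cf x ≤ rl (l1cHi X) := by
  refine (l1cf_anti (rl_nonneg X) hX).trans ?_
  have hXr := rl_nonneg X
  refine cond_cases (b := Nat.ble X SN)
    (x := Nat.succ (Nat.div (Nat.mul (Nat.mul 2
      (atcHi (Nat.succ (Nat.div (Nat.mul X SN) (Nat.add (Nat.mul 2 SN) X))))) SN)
      (Nat.add (Nat.mul 2 SN) X)))
    (y := Nat.succ (Nat.div (Nat.mul (plogHi (Nat.add SN X)) SN) X))
    (P := fun t => l1cf (rl X) ≤ rl t) ?_ ?_
  · intro hb
    have hXS : X ≤ SN := Nat.le_of_ble_eq_true hb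
    have hXS' : rl X ≤ 1 := by
      have := rl_mono hXS
      rwa [rl_SN] at this
    rw [l1cf_eq hXr]
    have h2 : 0 < 2 + rl X := by linarith
    set Z := rl X / (2 + rl X) with hZ
    have hZ0 : 0 ≤ Z := by positivity
    have hS := SN_pos'
    have hden : 0 < Nat.add (Nat.mul 2 SN) X := by
      simp only [nat_add_eq, nat_mul_eq]
      have : 0 < SN := by norm_num [SN]
      omega
    have hden' : rl (Nat.add (Nat.mul 2 SN) X) = 2 + rl X := by
      rw [rl_add]
      congr 1
      unfold rl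
      simp only [nat_mul_eq]
      push_cast
      field_simp
    set zt := Nat.succ (Nat.div (Nat.mul X SN) (Nat.add (Nat.mul 2 SN) X)) with hzt
    have hz : Z ≤ rl zt := by
      have := le_rl_succ_div (a := X) hden
      rw [hden'] at this
      exact this
    have hztS : zt < SN := by
      rw [hzt]
      simp only [nat_div_eq, nat_mul_eq, nat_add_eq, nat_succ_eq]
      have h3 : X * SN / (2 * SN + X) ≤ SN / 2 := by
        have hSpos : 0 < SN := by norm_num [SN]
        apply Nat.div_le_of_le_mul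
        have : X * SN ≤ SN * SN := Nat.mul_le_mul_right _ hXS
        have h5 : (2 * SN + X) * (SN / 2) = 2 * SN * (SN / 2) + X * (SN / 2) := by ring
        have e6 : 2 * (SN / 2) = SN := by norm_num [SN]
        nlinarith
      have : SN / 2 + 1 < SN := by norm_num [SN]
      omega
    have h3 := le_atcHi hZ0 hz hztS
    have h4 := le_rl_succ_div (a := Nat.mul 2 (atcHi zt)) hden
    refine le_trans ?_ h4
    rw [hden']
    apply div_le_div_of_nonneg_right _ h2.le
    have e : rl (Nat.mul 2 (atcHi zt)) = 2 * rl (atcHi zt) := by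
      unfold rl
      simp only [nat_mul_eq]
      push_cast
      ring
    rw [e]
    linarith
  · intro hb
    have hz1 : SN < X := lt_of_ble_false hb
    have hz0 : 0 < X := by omega
    have hrl := rl_pos hz0
    refine le_trans ?_ (le_rl_succ_div hz0)
    have h1 := le_plogHi (n := Nat.add SN X) (by simp only [nat_add_eq]; omega)
    rw [rl_S_add] at h1
    unfold l1cf
    rw [if_neg hrl.ne']
    exact div_le_div_of_nonneg_right h1 hrl.le

/-! ### Clamped logarithm and `x (- log x)` -/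


lemma mlcf_le_mlog (k : ℕ) {x : ℝ} (hx : 0 < x) : mlcf k x ≤ -log x := by
  unfold mlcf
  rw [if_neg (not_le.mpr hx)]
  exact min_le_left _ _


lemma xlgf_mono {x y : ℝ} (hx : 0 ≤ x) (hxy : x ≤ y) (hy : y ≤ 9 / 25) : xlgf x ≤ xlgf y := by
  have he : log (9 / 25) ≤ -1 := by
    rw [Real.log_le_iff_le_exp (by norm_num), Real.exp_neg]
    have := Real.exp_one_lt_d9
    rw [le_inv_comm₀ (by norm_num) (exp_pos 1)]
    norm_num
    linarith
  have hanti : AntitoneOn (fun t : ℝ => t * log t) (Set.Icc 0 (9 / 25)) := by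
    apply antitoneOn_of_deriv_nonpos (convex_Icc _ _)
    · exact Real.continuous_mul_log.continuousOn
    · rw [interior_Icc]
      intro t ht
      exact (Real.hasDerivAt_mul_log ht.1.ne').differentiableAt.differentiableWithinAt
    · rw [interior_Icc]
      intro t ht
      rw [(Real.hasDerivAt_mul_log ht.1.ne').deriv]
      have : log t ≤ log (9 / 25) := log_le_log ht.1 ht.2.le
      linarith
  have := hanti ⟨hx, hxy.trans hy⟩ ⟨hx.trans hxy, hy⟩ hxy
  unfold xlgf
  simp only at this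
  linarith

/-! ### Sound intervals -/


lemma Sound.nonneg {x : ℝ} {I : IV} (h : Sound x I) (hok : I.ok = true) : 0 ≤ x :=
  (rl_nonneg _).trans (h hok).1

lemma sound_box {x : ℝ} {l h : ℕ} (h1 : rl l ≤ x) (h2 : x ≤ rl h) : Sound x ⟨l, h, true⟩ :=
  fun _ => ⟨h1, h2⟩

lemma and3 {a b c : Bool} (h : ((a && b) && c) = true) : a = true ∧ b = true ∧ c = true := by
  simpa [Bool.and_eq_true, and_assoc] using h

lemma and2 {a b : Bool} (h : (a && b) = true) : a = true ∧ b = true := by
  simpa [Bool.and_eq_true] using h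

lemma ble_le {a b : ℕ} (h : Nat.ble a b = true) : a ≤ b := Nat.le_of_ble_eq_true h

lemma blt_lt {a b : ℕ} (h : Nat.blt a b = true) : a < b := by
  have : Nat.ble (a + 1) b = true := h
  exact Nat.le_of_ble_eq_true this

lemma sound_C (n : ℕ) : Sound (rl n) (ivC n) := fun _ => ⟨le_refl _, le_refl _⟩

lemma sound_Ln2 : Sound (log 2) ivLn2 := fun _ => ⟨L2lo_le, le_L2hi⟩

lemma sound_Add {x y : ℝ} {X Y : IV} (hx : Sound x X) (hy : Sound y Y) :
    Sound (x + y) (ivAdd X Y) := by
  intro hok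
  obtain ⟨h1, h2⟩ := and2 hok
  have a := hx h1
  have b := hy h2
  show rl (Nat.add X.lo Y.lo) ≤ _ ∧ _ ≤ rl (Nat.add X.hi Y.hi)
  rw [rl_add, rl_add]
  exact ⟨add_le_add a.1 b.1, add_le_add a.2 b.2⟩

lemma sound_Sub {x y : ℝ} {X Y : IV} (hx : Sound x X) (hy : Sound y Y) :
    Sound (x - y) (ivSub X Y) := by
  intro hok
  obtain ⟨h1, h2, h3⟩ := and3 hok
  have a := hx h1
  have b := hy h2
  have hle : Y.hi ≤ X.lo := ble_le h3
  constructor
  · show rl (Nat.sub X.lo Y.hi) ≤ _
    rw [rl_sub_eq hle]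
    linarith [a.1, b.2]
  · show _ ≤ rl (Nat.sub X.hi Y.lo)
    refine le_trans ?_ (le_rl_sub _ _)
    linarith [a.2, b.1]

lemma sound_Tsub {x y : ℝ} {X Y : IV} (hx : Sound x X) (hy : Sound y Y) :
    Sound (max (x - y) 0) (ivTsub X Y) := by
  intro hok
  obtain ⟨h1, h2⟩ := and2 hok
  have a := hx h1
  have b := hy h2
  constructor
  · show rl (Nat.sub X.lo Y.hi) ≤ _
    by_cases hle : Y.hi ≤ X.lo
    · rw [rl_sub_eq hle]
      exact le_max_of_le_left (by linarith [a.1, b.2])
    · have : Nat.sub X.lo Y.hi = 0 := by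
        simp only [nat_sub_eq]
        omega
      rw [this]
      have e : rl 0 = 0 := by simp [rl]
      rw [e]
      exact le_max_right _ _
  · show _ ≤ rl (Nat.sub X.hi Y.lo)
    apply max_le
    · refine le_trans ?_ (le_rl_sub _ _)
      linarith [a.2, b.1]
    · exact rl_nonneg _

lemma sound_Mul {x y : ℝ} {X Y : IV} (hx : Sound x X) (hy : Sound y Y) :
    Sound (x * y) (ivMul X Y) := by
  intro hok
  obtain ⟨h1, h2⟩ := and2 hok
  have a := hx h1
  have b := hy h2
  have hx0 := rl_nonneg X.lo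
  have hy0 := rl_nonneg Y.lo
  constructor
  · show rl (Nat.div (Nat.mul X.lo Y.lo) SN) ≤ _
    exact (rl_div_mul_le _ _).trans (mul_le_mul a.1 b.1 hy0 (hx0.trans a.1))
  · show _ ≤ rl (Nat.succ (Nat.div (Nat.mul X.hi Y.hi) SN))
    refine le_trans ?_ (le_rl_succ_div_mul _ _)
    exact mul_le_mul a.2 b.2 (hy0.trans b.1) (rl_nonneg _)

lemma sound_Div {x y : ℝ} {X Y : IV} (hx : Sound x X) (hy : Sound y Y) :
    Sound (x / y) (ivDiv X Y) := by
  intro hok
  obtain ⟨h1, h2, h3⟩ := and3 hok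
  have a := hx h1
  have b := hy h2
  have hyl : 0 < Y.lo := blt_lt h3
  have hyl' := rl_pos hyl
  have hy0 : 0 < y := lt_of_lt_of_le hyl' b.1
  have hyh' : 0 < rl Y.hi := lt_of_lt_of_le hy0 b.2
  have hyh : 0 < Y.hi := by
    by_contra hcon
    have : Y.hi = 0 := by omega
    rw [this] at hyh'
    simp [rl] at hyh'
  have hx0 := rl_nonneg X.lo
  constructor
  · show rl (Nat.div (Nat.mul X.lo SN) Y.hi) ≤ _
    refine (rl_div_le hyh).trans ?_
    exact div_le_div₀ (hx0.trans a.1) a.1 hy0 b.2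
  · show _ ≤ rl (Nat.succ (Nat.div (Nat.mul X.hi SN) Y.lo))
    refine le_trans ?_ (le_rl_succ_div hyl)
    exact div_le_div₀ (rl_nonneg _) a.2 hyl' b.1

lemma sound_Plog {x : ℝ} {X : IV} (hx : Sound x X) : Sound (log x) (ivPlog X) := by
  intro hok
  obtain ⟨h1, h2⟩ := and2 hok
  have a := hx h1
  have hle : SN ≤ X.lo := ble_le h2
  have hpos : 0 < rl X.lo := by
    have := rl_mono hle
    rw [rl_SN] at this
    linarith
  have hhi : SN ≤ X.hi := by
    by_contra hcon
    have hlt : X.hi ≤ X.lo := by omega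
    have h3 : rl X.lo ≤ rl X.hi := a.1.trans a.2
    have h4 : X.lo ≤ X.hi := by
      unfold rl at h3
      have hS := SN_pos'
      rw [div_le_div_iff_of_pos_right hS] at h3
      exact_mod_cast h3
    omega
  constructor
  · show rl (plogLo X.lo) ≤ _
    exact (plogLo_le hle).trans (log_le_log hpos a.1)
  · show _ ≤ rl (plogHi X.hi)
    exact (log_le_log (lt_of_lt_of_le hpos a.1) a.2).trans (le_plogHi hhi)

lemma rl_le_iff {a b : ℕ} : rl a ≤ rl b ↔ a ≤ b := by
  unfold rl
  rw [div_le_div_iff_of_pos_right SN_pos']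
  exact Nat.cast_le

lemma sound_Mlog {x : ℝ} {X : IV} (hx : Sound x X) : Sound (-log x) (ivMlog X) := by
  intro hok
  obtain ⟨h1, h2, h3⟩ := and3 hok
  have a := hx h1
  have hlo : 0 < X.lo := blt_lt h2
  have hhi : X.hi ≤ SN := ble_le h3
  have hlh : X.lo ≤ X.hi := rl_le_iff.mp (a.1.trans a.2)
  have hpos := rl_pos hlo
  constructor
  · show rl (mlogLo X.hi) ≤ _
    refine (mlogLo_le (by omega) hhi).trans ?_
    have := log_le_log (lt_of_lt_of_le hpos a.1) a.2
    linarith
  · show _ ≤ rl (mlogHi X.lo)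
    refine le_trans ?_ (le_mlogHi (by omega) (by omega))
    have := log_le_log hpos a.1
    linarith

lemma sound_Mlc (k : ℕ) {x : ℝ} {X : IV} (hx : Sound x X) : Sound (mlcf k x) (ivMlc k X) := by
  intro hok
  obtain ⟨h1, h2, h3⟩ := and3 hok
  have a := hx h1
  have hhi : X.hi ≤ SN := ble_le h3
  have hhi0 : 0 < X.hi := blt_lt h2
  have hlh : X.lo ≤ X.hi := rl_le_iff.mp (a.1.trans a.2)
  constructor
  · show rl (Nat.min (mlogLo X.hi) k) ≤ _
    have hm1 : rl (Nat.min (mlogLo X.hi) k) ≤ rl k := rl_mono (Nat.min_le_right _ _)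
    have hm2 : rl (Nat.min (mlogLo X.hi) k) ≤ rl (mlogLo X.hi) := rl_mono (Nat.min_le_left _ _)
    unfold mlcf
    split_ifs with hc
    · exact hm1
    · push Not at hc
      apply le_min _ hm1
      refine hm2.trans ((mlogLo_le (by omega) hhi).trans ?_)
      have := log_le_log hc a.2
      linarith
  · have hmk : mlcf k x ≤ rl k := by
      unfold mlcf
      split_ifs
      · exact le_refl _
      · exact min_le_right _ _
    refine cond_cases (b := Nat.beq X.lo 0) (x := k) (y := Nat.min (mlogHi X.lo) k)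
      (P := fun t => mlcf k x ≤ rl t) ?_ ?_
    · intro _
      exact hmk
    · intro hb
      have hlo : X.lo ≠ 0 := by
        intro h0
        rw [h0] at hb
        simp at hb
      have hlo' : 0 < X.lo := Nat.pos_of_ne_zero hlo
      have hpos := rl_pos hlo'
      have hxpos : 0 < x := lt_of_lt_of_le hpos a.1
      have hm : min (rl (mlogHi X.lo)) (rl k) ≤ rl (Nat.min (mlogHi X.lo) k) := by
        rcases Nat.le_total (mlogHi X.lo) k with h | h
        · have e : Nat.min (mlogHi X.lo) k = mlogHi X.lo := min_eq_left h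
          rw [e]
          exact min_le_left _ _
        · have e : Nat.min (mlogHi X.lo) k = k := min_eq_right h
          rw [e]
          exact min_le_right _ _
      refine le_trans (le_min ?_ hmk) hm
      refine (mlcf_le_mlog k hxpos).trans ?_
      refine le_trans ?_ (le_mlogHi hlo (by omega))
      have := log_le_log hpos a.1
      linarith

lemma xlgMax_rl : rl xlgMax ≤ 9 / 25 := by
  unfold rl
  rw [SN_real]
  have e : ((xlgMax : ℕ) : ℝ) = 386547056 := by norm_num [xlgMax]
  rw [e]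
  norm_num

lemma sound_Xlg {x : ℝ} {X : IV} (hx : Sound x X) : Sound (xlgf x) (ivXlg X) := by
  intro hok
  obtain ⟨h1, h2⟩ := and2 hok
  have a := hx h1
  have hhi : X.hi ≤ xlgMax := ble_le h2
  have hhi' : rl X.hi ≤ 9 / 25 := (rl_mono hhi).trans xlgMax_rl
  have hx0 : 0 ≤ x := (rl_nonneg _).trans a.1
  have hSx : xlgMax ≤ SN := by norm_num [xlgMax, SN]
  constructor
  · have hnn : 0 ≤ xlgf x := by
      unfold xlgf
      have : x * log x ≤ 0 := mul_nonpos_of_nonneg_of_nonpos hx0
        (log_nonpos hx0 (by linarith [a.2]))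
      linarith
    refine cond_cases (b := Nat.beq X.lo 0) (x := 0) (y := Nat.div (Nat.mul X.lo (mlogLo X.lo)) SN)
      (P := fun t => rl t ≤ xlgf x) ?_ ?_
    · intro _
      simpa [rl] using hnn
    · intro hb
      have hlo : X.lo ≠ 0 := by
        intro h0
        rw [h0] at hb
        simp at hb
      have hlo' : 0 < X.lo := Nat.pos_of_ne_zero hlo
      have hpos := rl_pos hlo'
      have hlh : X.lo ≤ X.hi := rl_le_iff.mp (a.1.trans a.2)
      refine (rl_div_mul_le _ _).trans ?_
      have hm := mlogLo_le (n := X.lo) hlo (by omega)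
      have h3 : rl X.lo * rl (mlogLo X.lo) ≤ xlgf (rl X.lo) := by
        unfold xlgf
        nlinarith
      exact h3.trans (xlgf_mono (rl_nonneg _) a.1 (a.2.trans hhi'))
  · refine cond_cases (b := Nat.beq X.hi 0) (x := 0) (y := Nat.succ (Nat.div (Nat.mul X.hi (mlogHi X.hi)) SN))
      (P := fun t => xlgf x ≤ rl t) ?_ ?_
    · intro hb
      have h0 : X.hi = 0 := Nat.eq_of_beq_eq_true hb
      rw [h0] at a
      have e : rl 0 = 0 := by simp [rl]
      rw [e] at a
      have hx00 : x = 0 := le_antisymm a.2 hx0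
      rw [e, hx00]
      simp [xlgf]
    · intro hb
      have hhi0 : X.hi ≠ 0 := by
        intro h0
        rw [h0] at hb
        simp at hb
      refine le_trans ?_ (le_rl_succ_div_mul _ _)
      refine (xlgf_mono hx0 a.2 hhi').trans ?_
      have hm := le_mlogHi (n := X.hi) hhi0 (by omega)
      unfold xlgf
      have := rl_nonneg X.hi
      nlinarith

lemma sound_Atc {x : ℝ} {X : IV} (hx : Sound x X) : Sound (atcf x) (ivAtc X) := by
  intro hok
  obtain ⟨h1, h2⟩ := and2 hok
  have a := hx h1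
  have hhi : X.hi < SN := blt_lt h2
  exact ⟨atcLo_le a.1 (lt_of_le_of_lt a.2 (rl_lt_one hhi)),
    le_atcHi ((rl_nonneg _).trans a.1) a.2 hhi⟩

lemma sound_Ps {x : ℝ} {X : IV} (hx : Sound x X) : Sound (psf x) (ivPs X) := by
  intro hok
  obtain ⟨h1, h2⟩ := and2 hok
  have a := hx h1
  have hhi : X.hi < SN := blt_lt h2
  exact ⟨psLo_le a.1 (lt_of_le_of_lt a.2 (rl_lt_one hhi)),
    le_psHi ((rl_nonneg _).trans a.1) a.2 hhi⟩

lemma sound_L1c {x : ℝ} {X : IV} (hx : Sound x X) : Sound (l1cf x) (ivL1c X) := by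
  intro hok
  have a := hx hok
  exact ⟨l1cLo_le ((rl_nonneg _).trans a.1) a.2, le_l1cHi a.1⟩

/-! ### The recursive checks -/

/-- Positivity read from an interval. -/
lemma pos_of_check {x : ℝ} {I : IV} (h : Sound x I) (hc : (I.ok && Nat.blt 0 I.lo) = true) : 0 < x := by
  obtain ⟨h1, h2⟩ := and2 hc
  exact lt_of_lt_of_le (rl_pos (blt_lt h2)) (h h1).1

lemma rl_mid_split {l h : ℕ} {x : ℝ} (h1 : rl l ≤ x) (h2 : x ≤ rl h) :
    (rl l ≤ x ∧ x ≤ rl (Nat.div (Nat.add l h) 2)) ∨ (rl (Nat.div (Nat.add l h) 2) ≤ x ∧ x ≤ rl h) := by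
  rcases le_total x (rl (Nat.div (Nat.add l h) 2)) with hc | hc
  · exact Or.inl ⟨h1, hc⟩
  · exact Or.inr ⟨hc, h2⟩

theorem chk1g_sound (G : IV → Bool) (P : ℝ → Prop)
    (hG : ∀ X x, Sound x X → G X = true → P x) :
    ∀ (n l h : ℕ), chk1g G n l h = true → ∀ x, rl l ≤ x → x ≤ rl h → P x := by
  intro n
  induction n with
  | zero =>
    intro l h hc x h1 h2
    exact hG _ x (sound_box h1 h2) hc
  | succ n ih =>
    intro l h hc x h1 h2
    have hc' : (bif G ⟨l, h, true⟩ then true else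
        (chk1g G n l (Nat.div (Nat.add l h) 2) && chk1g G n (Nat.div (Nat.add l h) 2) h)) = true := hc
    cases hb : G ⟨l, h, true⟩ with
    | true => exact hG _ x (sound_box h1 h2) hb
    | false =>
      rw [hb] at hc'
      obtain ⟨h3, h4⟩ := and2 hc'
      rcases rl_mid_split h1 h2 with ⟨a, b⟩ | ⟨a, b⟩
      · exact ih _ _ h3 x a b
      · exact ih _ _ h4 x a b

theorem chk2g_sound (G : IV → IV → Bool) (P : ℝ → ℝ → Prop)
    (hG : ∀ X Y x y, Sound x X → Sound y Y → G X Y = true → P x y) :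
    ∀ (n xl xh yl yh : ℕ), chk2g G n xl xh yl yh = true →
      ∀ x y, rl xl ≤ x → x ≤ rl xh → rl yl ≤ y → y ≤ rl yh → P x y := by
  intro n
  induction n with
  | zero =>
    intro xl xh yl yh hc x y h1 h2 h3 h4
    exact hG _ _ x y (sound_box h1 h2) (sound_box h3 h4) hc
  | succ n ih =>
    intro xl xh yl yh hc x y h1 h2 h3 h4
    have hc' : (bif G ⟨xl, xh, true⟩ ⟨yl, yh, true⟩ then true else
      bif Nat.ble (Nat.sub yh yl) (Nat.sub xh xl) then
        (chk2g G n xl (Nat.div (Nat.add xl xh) 2) yl yh &&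
          chk2g G n (Nat.div (Nat.add xl xh) 2) xh yl yh)
      else
        (chk2g G n xl xh yl (Nat.div (Nat.add yl yh) 2) &&
          chk2g G n xl xh (Nat.div (Nat.add yl yh) 2) yh)) = true := hc
    cases hb : G ⟨xl, xh, true⟩ ⟨yl, yh, true⟩ with
    | true => exact hG _ _ x y (sound_box h1 h2) (sound_box h3 h4) hb
    | false =>
      rw [hb] at hc'
      cases hb2 : Nat.ble (Nat.sub yh yl) (Nat.sub xh xl) with
      | true =>
        rw [hb2] at hc'
        obtain ⟨h5, h6⟩ := and2 hc'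
        rcases rl_mid_split h1 h2 with ⟨a, b⟩ | ⟨a, b⟩
        · exact ih _ _ _ _ h5 x y a b h3 h4
        · exact ih _ _ _ _ h6 x y a b h3 h4
      | false =>
        rw [hb2] at hc'
        obtain ⟨h5, h6⟩ := and2 hc'
        rcases rl_mid_split h3 h4 with ⟨a, b⟩ | ⟨a, b⟩
        · exact ih _ _ _ _ h5 x y h1 h2 a b
        · exact ih _ _ _ _ h6 x y h1 h2 a b

theorem chk3g_sound : ∀ (n : ℕ) (G : IV → IV → IV → Bool) (P : ℝ → ℝ → ℝ → Prop)
    (_ : ∀ X Y Z x y z, Sound x X → Sound y Y → Sound z Z → G X Y Z = true → P x y z)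
    (xl xh yl yh zl zh : ℕ), chk3g G n xl xh yl yh zl zh = true →
      ∀ x y z, rl xl ≤ x → x ≤ rl xh → rl yl ≤ y → y ≤ rl yh → rl zl ≤ z → z ≤ rl zh → P x y z := by
  intro n
  induction n with
  | zero =>
    intro G P hG xl xh yl yh zl zh hc x y z h1 h2 h3 h4 h5 h6
    exact hG _ _ _ x y z (sound_box h1 h2) (sound_box h3 h4) (sound_box h5 h6) hc
  | succ n ih =>
    intro G P hG xl xh yl yh zl zh hc x y z h1 h2 h3 h4 h5 h6
    have hc' : (bif G ⟨xl, xh, true⟩ ⟨yl, yh, true⟩ ⟨zl, zh, true⟩ then true else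
      (chk3g (fun a b c => G c a b) n yl yh zl zh xl (Nat.div (Nat.add xl xh) 2) &&
        chk3g (fun a b c => G c a b) n yl yh zl zh (Nat.div (Nat.add xl xh) 2) xh)) = true := hc
    cases hb : G ⟨xl, xh, true⟩ ⟨yl, yh, true⟩ ⟨zl, zh, true⟩ with
    | true => exact hG _ _ _ x y z (sound_box h1 h2) (sound_box h3 h4) (sound_box h5 h6) hb
    | false =>
      rw [hb] at hc'
      obtain ⟨h7, h8⟩ := and2 hc'
      have hG' : ∀ A B C a b c, Sound a A → Sound b B → Sound c C → (fun a b c => G c a b) A B C = true →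
          (fun a b c => P c a b) a b c :=
        fun A B C a b c ha hb hc hg => hG C A B c a b hc ha hb hg
      rcases rl_mid_split h1 h2 with ⟨a, b⟩ | ⟨a, b⟩
      · exact ih _ (fun a b c => P c a b) hG' _ _ _ _ _ _ h7 y z x h3 h4 h5 h6 a b
      · exact ih _ (fun a b c => P c a b) hG' _ _ _ _ _ _ h8 y z x h3 h4 h5 h6 a b

end Vale.Agent.CK
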