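/-!
Fixed-point interval arithmetic on nonnegative numbers, evaluated by the kernel.
A natural number `n` stands for the real `n / SN`. No imports: the checking modules stay light.
-/

namespace Vale.Agent.CK

/-- The scale `2^30`. -/
def SN : Nat := 1073741824

/-- Exponent of the scale. -/
def PN : Nat := 30

/-- Lower bound for `log 2`, scaled. -/
def L2lo : Nat := 744261117

/-- Upper bound for `log 2`, scaled. -/
def L2hi : Nat := 744261119

/-- `0.35`, scaled: below it the power series are used. -/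
def smallZ : Nat := 375809638

/-- `0.36`, scaled: the function `x (- log x)` is increasing up to `1/e`. -/
def xlgMax : Nat := 386547056

/-- Number of series terms. -/
def KN : Nat := 8

/-- Lower bound of `∑ pw z2^j / (d + 2 j)`, truncated. -/
def serLo : Nat → Nat → Nat → Nat → Nat
  | 0, _, _, _ => 0
  | n + 1, z2, pw, d =>
    Nat.add (Nat.div pw d) (serLo n z2 (Nat.div (Nat.mul pw z2) SN) (Nat.add d 2))

/-- Upper bound of `∑ pw z2^j / (d + 2 j)`, the tail included. -/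
def serHi : Nat → Nat → Nat → Nat → Nat
  | 0, _, pw, _ => Nat.succ (Nat.div pw 14)
  | n + 1, z2, pw, d =>
    Nat.add (Nat.succ (Nat.div pw d))
      (serHi n z2 (Nat.succ (Nat.div (Nat.mul pw z2) SN)) (Nat.add d 2))

/-- Scaled square, rounded down. -/
def sqLo (z : Nat) : Nat := Nat.div (Nat.mul z z) SN

/-- Scaled square, rounded up. -/
def sqHi (z : Nat) : Nat := Nat.succ (Nat.div (Nat.mul z z) SN)

/-- Lower bound for `log (n / 2^e)`, where `2^e ≤ n < 2^(e+1)`. -/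
def fracLo (n : Nat) : Nat :=
  let m := Nat.pow 2 (Nat.log2 n)
  let z := Nat.div (Nat.mul (Nat.sub n m) SN) (Nat.add n m)
  Nat.mul 2 (serLo KN (sqLo z) z 1)

/-- Upper bound for `log (n / 2^e)`, where `2^e ≤ n < 2^(e+1)`. -/
def fracHi (n : Nat) : Nat :=
  let m := Nat.pow 2 (Nat.log2 n)
  let z := Nat.succ (Nat.div (Nat.mul (Nat.sub n m) SN) (Nat.add n m))
  Nat.mul 2 (serHi KN (sqHi z) z 1)

/-- Scaled lower bound for `log (n / S)` when `n ≥ S`. -/
def plogLo (n : Nat) : Nat :=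
  Nat.add (Nat.mul (Nat.sub (Nat.log2 n) PN) L2lo) (fracLo n)

/-- Scaled upper bound for `log (n / S)` when `n ≥ S`. -/
def plogHi (n : Nat) : Nat :=
  Nat.add (Nat.mul (Nat.sub (Nat.log2 n) PN) L2hi) (fracHi n)

/-- Scaled lower bound for `- log (n / S)` when `0 < n ≤ S`. -/
def mlogLo (n : Nat) : Nat :=
  Nat.sub (Nat.mul (Nat.sub PN (Nat.log2 n)) L2lo) (fracHi n)

/-- Scaled upper bound for `- log (n / S)` when `0 < n ≤ S`. -/
def mlogHi (n : Nat) : Nat :=
  Nat.sub (Nat.mul (Nat.sub PN (Nat.log2 n)) L2hi) (fracLo n)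

/-- Scaled lower bound for `atanh z`, `z < 1`. -/
def atanLo (z : Nat) : Nat :=
  Nat.div (Nat.add (plogLo (Nat.add SN z)) (mlogLo (Nat.sub SN z))) 2

/-- Scaled upper bound for `atanh z`, `z < 1`. -/
def atanHi (z : Nat) : Nat :=
  Nat.succ (Nat.div (Nat.add (plogHi (Nat.add SN z)) (mlogHi (Nat.sub SN z))) 2)

/-- Scaled lower bound for `atanh z / z`. -/
def atcLo (z : Nat) : Nat :=
  bif Nat.ble z smallZ then serLo KN (sqLo z) SN 1
  else Nat.div (Nat.mul (atanLo z) SN) z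

/-- Scaled upper bound for `atanh z / z`. -/
def atcHi (z : Nat) : Nat :=
  bif Nat.ble z smallZ then serHi KN (sqHi z) SN 1
  else Nat.succ (Nat.div (Nat.mul (atanHi z) SN) z)

/-- Scaled lower bound for `(atanh z / z - 1) / z²`. -/
def psLo (z : Nat) : Nat :=
  bif Nat.ble z smallZ then serLo KN (sqLo z) SN 3
  else Nat.div (Nat.mul (Nat.mul (Nat.sub (atcLo z) SN) SN) SN) (Nat.mul z z)

/-- Scaled upper bound for `(atanh z / z - 1) / z²`. -/
def psHi (z : Nat) : Nat :=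
  bif Nat.ble z smallZ then serHi KN (sqHi z) SN 3
  else Nat.succ (Nat.div (Nat.mul (Nat.mul (Nat.sub (atcHi z) SN) SN) SN) (Nat.mul z z))

/-- Scaled lower bound for `log (1 + x) / x`. -/
def l1cLo (x : Nat) : Nat :=
  bif Nat.ble x SN then
    Nat.div (Nat.mul (Nat.mul 2 (atcLo (Nat.div (Nat.mul x SN) (Nat.add (Nat.mul 2 SN) x)))) SN)
      (Nat.add (Nat.mul 2 SN) x)
  else Nat.div (Nat.mul (plogLo (Nat.add SN x)) SN) x

/-- Scaled upper bound for `log (1 + x) / x`. -/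
def l1cHi (x : Nat) : Nat :=
  bif Nat.ble x SN then
    Nat.succ (Nat.div (Nat.mul (Nat.mul 2
      (atcHi (Nat.succ (Nat.div (Nat.mul x SN) (Nat.add (Nat.mul 2 SN) x))))) SN)
      (Nat.add (Nat.mul 2 SN) x))
  else Nat.succ (Nat.div (Nat.mul (plogHi (Nat.add SN x)) SN) x)

/-- An interval with a validity flag: when `ok` holds, `lo / S ≤ x ≤ hi / S`. -/
structure IV where
  lo : Nat
  hi : Nat
  ok : Bool

/-- A constant. -/
def ivC (n : Nat) : IV := ⟨n, n, true⟩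

/-- The constant `log 2`. -/
def ivLn2 : IV := ⟨L2lo, L2hi, true⟩

/-- Sum. -/
def ivAdd (x y : IV) : IV := ⟨Nat.add x.lo y.lo, Nat.add x.hi y.hi, x.ok && y.ok⟩

/-- Difference, with the check that it is nonnegative. -/
def ivSub (x y : IV) : IV :=
  ⟨Nat.sub x.lo y.hi, Nat.sub x.hi y.lo, (x.ok && y.ok) && Nat.ble y.hi x.lo⟩

/-- Truncated difference `max (x - y) 0`. -/
def ivTsub (x y : IV) : IV := ⟨Nat.sub x.lo y.hi, Nat.sub x.hi y.lo, x.ok && y.ok⟩

/-- Product. -/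
def ivMul (x y : IV) : IV :=
  ⟨Nat.div (Nat.mul x.lo y.lo) SN, Nat.succ (Nat.div (Nat.mul x.hi y.hi) SN), x.ok && y.ok⟩

/-- Quotient. -/
def ivDiv (x y : IV) : IV :=
  ⟨Nat.div (Nat.mul x.lo SN) y.hi, Nat.succ (Nat.div (Nat.mul x.hi SN) y.lo),
    (x.ok && y.ok) && Nat.blt 0 y.lo⟩

/-- `log x`, for `x ≥ 1`. -/
def ivPlog (x : IV) : IV := ⟨plogLo x.lo, plogHi x.hi, x.ok && Nat.ble SN x.lo⟩

/-- `- log x`, for `0 < x ≤ 1`. -/
def ivMlog (x : IV) : IV :=
  ⟨mlogLo x.hi, mlogHi x.lo, (x.ok && Nat.blt 0 x.lo) && Nat.ble x.hi SN⟩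

/-- `min (- log x) k`; the value at `x ≤ 0` is `k`. For `x ≤ 1`. -/
def ivMlc (k : Nat) (x : IV) : IV :=
  ⟨Nat.min (mlogLo x.hi) k, bif Nat.beq x.lo 0 then k else Nat.min (mlogHi x.lo) k,
    (x.ok && Nat.blt 0 x.hi) && Nat.ble x.hi SN⟩

/-- `x (- log x)` for `0 ≤ x ≤ 0.36`. -/
def ivXlg (x : IV) : IV :=
  ⟨bif Nat.beq x.lo 0 then 0 else Nat.div (Nat.mul x.lo (mlogLo x.lo)) SN,
    bif Nat.beq x.hi 0 then 0 else Nat.succ (Nat.div (Nat.mul x.hi (mlogHi x.hi)) SN),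
    x.ok && Nat.ble x.hi xlgMax⟩

/-- `atanh x / x`. -/
def ivAtc (x : IV) : IV := ⟨atcLo x.lo, atcHi x.hi, x.ok && Nat.blt x.hi SN⟩

/-- `(atanh x / x - 1) / x²`. -/
def ivPs (x : IV) : IV := ⟨psLo x.lo, psHi x.hi, x.ok && Nat.blt x.hi SN⟩

/-- `log (1 + x) / x`. -/
def ivL1c (x : IV) : IV := ⟨l1cLo x.hi, l1cHi x.lo, x.ok⟩

/-- Recursive check on an interval. -/
def chk1g (G : IV → Bool) : Nat → Nat → Nat → Bool
  | 0, xl, xh => G ⟨xl, xh, true⟩
  | n + 1, xl, xh =>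
    bif G ⟨xl, xh, true⟩ then true
    else
      let m := Nat.div (Nat.add xl xh) 2
      chk1g G n xl m && chk1g G n m xh

/-- Recursive check on a box in two variables. -/
def chk2g (G : IV → IV → Bool) : Nat → Nat → Nat → Nat → Nat → Bool
  | 0, xl, xh, yl, yh => G ⟨xl, xh, true⟩ ⟨yl, yh, true⟩
  | n + 1, xl, xh, yl, yh =>
    bif G ⟨xl, xh, true⟩ ⟨yl, yh, true⟩ then true
    else
      bif Nat.ble (Nat.sub yh yl) (Nat.sub xh xl) then
        let m := Nat.div (Nat.add xl xh) 2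
        chk2g G n xl m yl yh && chk2g G n m xh yl yh
      else
        let m := Nat.div (Nat.add yl yh) 2
        chk2g G n xl xh yl m && chk2g G n xl xh m yh

/-- Recursive check on a box in three variables (round robin, starting from `x`). -/
def chk3g (G : IV → IV → IV → Bool) : Nat → Nat → Nat → Nat → Nat → Nat → Nat → Bool
  | 0, xl, xh, yl, yh, zl, zh => G ⟨xl, xh, true⟩ ⟨yl, yh, true⟩ ⟨zl, zh, true⟩
  | n + 1, xl, xh, yl, yh, zl, zh =>
    bif G ⟨xl, xh, true⟩ ⟨yl, yh, true⟩ ⟨zl, zh, true⟩ then true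
    else
      let m := Nat.div (Nat.add xl xh) 2
      chk3g (fun a b c => G c a b) n yl yh zl zh xl m &&
        chk3g (fun a b c => G c a b) n yl yh zl zh m xh

end Vale.Agent.CK
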