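import Vale.Agent.CK.Key4Lower

/-!
`Key4` from the two elementary alternatives `Aform`, `Rform`.
-/

open Real Set

namespace Vale.Agent.CK

open Vale.Agent.P322

lemma YY_anti {u u' : ℝ} (hu : 0 < u) (h : u ≤ u') : YY u' ≤ YY u := by
  have hm := rinv_mem hu
  have hm' := rinv_mem (lt_of_lt_of_le hu h)
  exact Yf_mono hm'.1 (rinv_anti hu h) hm.2

lemma YY_ent {r : ℝ} (h0 : 0 ≤ r) (h1 : r < 1) : YY (ent r) = Yf r := by
  unfold YY
  rw [rinv_ent h0 h1]

lemma KK_mul_le {u : ℝ} (hu : 0 < u) : KK u * u ≤ 57 / 100 := by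
  rcases le_or_gt (log 2) u with h | h
  · rw [KK_of_ge h]
    norm_num
  · have hm := rinv_mem hu
    have h8 := F8 hm.1 hm.2
    rw [ent_rinv hu h.le] at h8
    exact h8

/-- `𝒴 + c log` is monotone, `c = 57/100`: the `log`-Lipschitz bound. -/
lemma YY_log_lip {u u' : ℝ} (hu : 0 < u) (h : u ≤ u') :
    YY u - YY u' ≤ 57 / 100 * (log u' - log u) := by
  have hd : ∀ y, 0 < y → HasDerivAt (fun y => YY y + 57 / 100 * log y)
      (-KK y + 57 / 100 * y⁻¹) y := by
    intro y hy
    exact (hasDerivAt_YY hy).add ((hasDerivAt_log hy.ne').const_mul (57 / 100))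
  have hmono : MonotoneOn (fun y => YY y + 57 / 100 * log y) (Icc u u') := by
    apply mono_of_deriv (f' := fun y => -KK y + 57 / 100 * y⁻¹)
    · intro y hy
      exact (hd y (lt_of_lt_of_le hu hy.1)).continuousAt.continuousWithinAt
    · intro y hy
      exact hd y (lt_trans hu hy.1)
    · intro y hy
      have hy0 : 0 < y := lt_trans hu hy.1
      have h1 := KK_mul_le hy0
      have h2 : KK y ≤ 57 / 100 * y⁻¹ := by
        rw [← div_eq_mul_inv, le_div_iff₀ hy0]
        exact h1
      linarith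
  have := hmono (left_mem_Icc.mpr h) (right_mem_Icc.mpr h) h
  simp only at this
  linarith

/-- `log s ≤ (s - 1/s)/2` in the form used below. -/
lemma s_log_le {s : ℝ} (hs : 1 ≤ s) : s * log s ≤ (s - 1) + (s - 1) ^ 2 / 2 := by
  have hs0 : 0 < s := by linarith
  have hd : ∀ y, 0 < y → HasDerivAt (fun y : ℝ => (y - y⁻¹) / 2 - log y)
      ((1 + (y ^ 2)⁻¹) / 2 - y⁻¹) y := by
    intro y hy
    have h1 := hasDerivAt_inv hy.ne'
    have h2 := (((hasDerivAt_id' y).sub h1).div_const 2).sub (hasDerivAt_log hy.ne')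
    refine h2.congr_deriv ?_
    field_simp
    ring
  have hmono : MonotoneOn (fun y : ℝ => (y - y⁻¹) / 2 - log y) (Icc 1 s) := by
    apply mono_of_deriv (f' := fun y => (1 + (y ^ 2)⁻¹) / 2 - y⁻¹)
    · intro y hy
      exact (hd y (by linarith [hy.1])).continuousAt.continuousWithinAt
    · intro y hy
      exact hd y (by linarith [hy.1])
    · intro y hy
      have hy0 : 0 < y := by linarith [hy.1]
      have e : (1 + (y ^ 2)⁻¹) / 2 - y⁻¹ = (1 - y⁻¹) ^ 2 / 2 := by
        field_simp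
        ring
      rw [e]
      positivity
  have h := hmono (left_mem_Icc.mpr hs) (right_mem_Icc.mpr hs) hs
  simp only at h
  norm_num at h
  have h2 := mul_le_mul_of_nonneg_left h hs0.le
  have e : s * ((s - s⁻¹) / 2) = (s - 1) + (s - 1) ^ 2 / 2 := by
    field_simp
    ring
  rw [e] at h2
  exact h2

/-- `T = β (1 + τ f₁)`. -/
lemma Tm_mean_eq {v r : ℝ} (hv0 : 0 ≤ v) (hv1 : v < 1) (hr0 : 0 < r) (hr1 : r < 1) :
    Tm (mean v r) = bet v r * (1 + tau v r * f1 (tau v r) (r ^ 2)) := by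
  have hD := D0_pos_ee hv0 hv1.le hr0 hr1
  have hb : bet v r = 1 - tau v r := by
    have := bet_add_tau (v := v) (r := r) hD.ne'
    linarith
  unfold Tm
  rw [mean_sq hv0 hv1 hr0 hr1, hb]
  unfold f1
  ring

/-- `T̄ = β (1 + τ f₁ - g)`. -/
lemma Tb_eq {v r : ℝ} (hv0 : 0 ≤ v) (hv1 : v < 1) (hr0 : 0 < r) (hr1 : r < 1) :
    Tb (pa v r) (pb v r) =
      bet v r * (1 + tau v r * f1 (tau v r) (r ^ 2) - gg (tau v r) (r ^ 2)) := by
  have hD := D0_pos_ee hv0 hv1.le hr0 hr1
  have hb : bet v r = 1 - tau v r := by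
    have := bet_add_tau (v := v) (r := r) hD.ne'
    linarith
  have h1 := pa_add_pb hv0 hv1 hr0 hr1
  have h2 := pa_sub_pb hv0 hv1 hr0 hr1
  have ea : pa v r = mean v r + bet v r * r := by linarith
  have eb : pb v r = mean v r - bet v r * r := by linarith
  have h3 := Tm_sub_Tb (mean v r) (bet v r * r)
  rw [← ea, ← eb] at h3
  have h4 := Tm_mean_eq hv0 hv1 hr0 hr1
  rw [mean_sq hv0 hv1 hr0 hr1] at h3
  have h5 : Tb (pa v r) (pb v r) = Tm (mean v r) -
      (bet v r * r) ^ 2 * (5 / 4 - 3 / 2 * (tau v r * (1 - (1 - tau v r) * r ^ 2)) -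
        (bet v r * r) ^ 2 / 4) := by linarith
  rw [h5, h4]
  unfold gg
  rw [hb]
  ring

/-- The upper half of the second alternative. -/
lemma up_half {s h : ℝ} (hs : 1 ≤ s) (hh : 0 < h) :
    s * YY (h / s) ≤ s * YY h + 57 / 100 * (s * log s) := by
  have hs0 : 0 < s := by linarith
  have hu : 0 < h / s := div_pos hh hs0
  have hle : h / s ≤ h := div_le_self hh.le hs
  have h1 := YY_log_lip hu hle
  have e : log h - log (h / s) = log s := by
    rw [Real.log_div hh.ne' hs0.ne']
    ring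
  rw [e] at h1
  have h2 := mul_le_mul_of_nonneg_left h1 hs0.le
  nlinarith

/-- The lower half of the second alternative. -/
lemma down_half {x h : ℝ} (hx : 0 < x) (hh : 0 < h) :
    x * YY h - 57 / 100 * max 0 (-(x * log x)) ≤ x * YY (h / x) := by
  have hu : 0 < h / x := div_pos hh hx
  rcases le_or_gt 1 x with h1 | h1
  · have hle : h / x ≤ h := div_le_self hh.le h1
    have h2 := YY_anti hu hle
    have h3 := mul_le_mul_of_nonneg_left h2 hx.le
    have h4 : 0 ≤ max 0 (-(x * log x)) := le_max_left _ _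
    linarith
  · have hle : h ≤ h / x := by
      rw [le_div_iff₀ hx]
      nlinarith
    have h2 := YY_log_lip hh hle
    have e : log (h / x) - log h = -log x := by
      rw [Real.log_div hh.ne' hx.ne']
      ring
    rw [e] at h2
    have h3 := mul_le_mul_of_nonneg_left h2 hx.le
    have h4 : -(x * log x) ≤ max 0 (-(x * log x)) := le_max_right _ _
    nlinarith

/-- `Key4` from the two elementary alternatives. -/
theorem key4_of_good {v r : ℝ} (hv0 : 0 ≤ v) (hv1 : v < 1) (hr0 : 0 < r) (hr1 : r < 1)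
    (hgood : 0 < tau v r → 0 < f1 (tau v r) (r ^ 2) → Aform (tau v r) r ∨ Rform (tau v r) r) :
    PP (Tm (mean v r)) (bet v r * ent r) - PP (Tb (pa v r) (pb v r)) (bet v r * ent r) ≤
      bet v r * Yf r + Ee v r := by
  have hβ := bet_pos hv0 hv1 hr0 hr1
  have hent : 0 < ent r := ent_pos (abs_lt_one_of hr0.le hr1)
  have hx : 0 < bet v r * ent r := by positivity
  have hE := Ee_nonneg hv0 hv1 hr0 hr1
  have hTm := Tm_pos (abs_lt_one_mean hv0 hv1 hr0 hr1)
  have hTa := Tm_pos (abs_lt_one_pa hv0 hv1 hr0 hr1)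
  have hTb' := Tm_pos (abs_lt_one_pb hv0 hv1 hr0 hr1)
  have hTb : 0 < Tb (pa v r) (pb v r) := by
    unfold Tb
    positivity
  have hP0 := PP_nonneg hTb hx
  rcases le_or_gt (Tm (mean v r)) (bet v r) with hle | hlt
  · have h1 := PP_mono_r hTm hle hx
    have e : PP (bet v r) (bet v r * ent r) = bet v r * Yf r := by
      unfold PP
      rw [mul_div_cancel_left₀ _ hβ.ne']
      unfold YY
      rw [rinv_ent hr0.le hr1]
    rw [e] at h1
    linarith
  · have ht0 := tau_nonneg hv0 hv1 hr0 hr1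
    have eT := Tm_mean_eq hv0 hv1 hr0 hr1
    have eB := Tb_eq hv0 hv1 hr0 hr1
    obtain ⟨t, hte⟩ : ∃ t, t = tau v r := ⟨_, rfl⟩
    rw [← hte] at ht0 eT eB hgood
    obtain ⟨f, hfe⟩ : ∃ f, f = f1 t (r ^ 2) := ⟨_, rfl⟩
    obtain ⟨g, hge⟩ : ∃ g, g = gg t (r ^ 2) := ⟨_, rfl⟩
    rw [← hfe] at eT eB hgood
    rw [← hge] at eB
    have htf : 0 < t * f := by
      rw [eT] at hlt
      by_contra hc
      push Not at hc
      nlinarith
    have ht : 0 < t := by
      rcases eq_or_lt_of_le ht0 with h | h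
      · rw [← h] at htf
        simp at htf
      · exact h
    have hf : 0 < f := by
      by_contra hc
      push Not at hc
      nlinarith
    have hv : 0 < v := by
      rcases eq_or_lt_of_le hv0 with h | h
      · exfalso
        have : tau v r = 0 := by
          rw [tau_eq_v_mean, ← h, zero_mul]
        rw [← hte] at this
        linarith
      · exact h
    have hEH := Ee_ge_H2 hv hv1 hr0 hr1
    have hb : 1 - tau v r = bet v r := by
      have := bet_add_tau (v := v) (r := r) (D0_pos_ee hv0 hv1.le hr0 hr1).ne'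
      linarith
    rw [hb, ← hte] at hEH
    obtain ⟨H, hHe⟩ : ∃ H, H = H2 t (r ^ 2) := ⟨_, rfl⟩
    rw [← hHe] at hEH
    obtain ⟨b, hbe⟩ : ∃ b, b = bet v r := ⟨_, rfl⟩
    rw [← hbe] at hβ hEH eT eB hlt hP0 hx ⊢
    rw [eB] at hP0 hTb ⊢
    rw [eT] at hTm hlt ⊢
    have hs1 : 1 ≤ 1 + t * f := by linarith
    have hspos : 0 < 1 + t * f := by linarith
    have hxpos : 0 < 1 + t * f - g := by
      have : 0 < b * (1 + t * f - g) := hTb
      exact (pos_iff_pos_of_mul_pos this).mp hβ
    have hlogs := s_log_le hs1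
    rcases hgood ht hf with hA | hR
    · -- first alternative
      unfold Aform at hA
      rw [← hfe, ← hHe] at hA
      have hU := PP_upper hβ hlt.le hr0 hr1
      have e1 : b * (1 + t * f) / b = 1 + t * f := by
        field_simp
      rw [e1] at hU
      have hQ : Q1 = 645 / 1000 := rfl
      rw [hQ] at hU
      have h1 := mul_le_mul_of_nonneg_left hlogs hβ.le
      have h2 : 0 ≤ b * t := by positivity
      have h3 := mul_le_mul_of_nonneg_left hA h2
      have h4 := mul_le_mul_of_nonneg_left h1 (by norm_num : (0 : ℝ) ≤ 645 / 1000)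
      have e2 : (b * (1 + t * f) - b) * (Af r - 645 / 1000) +
          645 / 1000 * (b * (1 + t * f) * log (1 + t * f)) =
          b * t * f * Af r - 645 / 1000 * (b * t * f) +
            645 / 1000 * (b * ((1 + t * f) * log (1 + t * f))) := by ring
      have e3 : (645 / 1000 : ℝ) * (b * (1 + t * f - 1 + (1 + t * f - 1) ^ 2 / 2)) =
          645 / 1000 * (b * t * f) + 645 / 1000 * b * (t * f) ^ 2 / 2 := by ring
      have e4 : b * t * (f * Af r + 645 / 2000 * t * f ^ 2) =
          b * t * f * Af r + 645 / 1000 * b * (t * f) ^ 2 / 2 := by ring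
      linarith
    · -- second alternative
      unfold Rform at hR
      rw [← hfe, ← hHe, ← hge] at hR
      have e1 : PP (b * (1 + t * f)) (b * ent r) = b * ((1 + t * f) * YY (ent r / (1 + t * f))) := by
        rw [PP_smul hβ hspos]
        rfl
      have e2 : PP (b * (1 + t * f - g)) (b * ent r) =
          b * ((1 + t * f - g) * YY (ent r / (1 + t * f - g))) := by
        rw [PP_smul hβ hxpos]
        rfl
      rw [e1, e2]
      have h1 := up_half hs1 hent
      have h2 := down_half hxpos hent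
      rw [YY_ent hr0.le hr1] at h1 h2
      have h3 : b * ((1 + t * f) * YY (ent r / (1 + t * f)) -
          (1 + t * f - g) * YY (ent r / (1 + t * f - g))) ≤ b * (Yf r + t * H) := by
        apply mul_le_mul_of_nonneg_left _ hβ.le
        nlinarith
      nlinarith

/-- `f₁ > 0` forces `q > 1/5`. -/
lemma r_ge_of_f1_pos {t r : ℝ} (ht0 : 0 ≤ t) (ht1 : t ≤ 1) (hr0 : 0 < r) (hr1 : r < 1)
    (hf : 0 < f1 t (r ^ 2)) : 2 / 5 ≤ r := by
  have hq0 : 0 < r ^ 2 := by positivity
  have hq1 : r ^ 2 < 1 := by nlinarith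
  unfold f1 at hf
  have h1 : 1 - r ^ 2 ≤ 1 - (1 - t) * r ^ 2 := by nlinarith
  have h2 : 1 ≤ 1 + r ^ 2 * t := by nlinarith [mul_nonneg hq0.le ht0]
  have h3 : (1 - r ^ 2) * 1 ≤ (1 - (1 - t) * r ^ 2) * (1 + r ^ 2 * t) :=
    mul_le_mul h1 h2 zero_le_one (by linarith)
  by_contra hc
  push Not at hc
  nlinarith

end Vale.Agent.CK
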