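import Vale.Agent.CK.Key4Defs

/-!
The corner `t ≤ 1/200`, `r ≥ 127/128` of `Key4`, by hand.
-/

open Real Set

namespace Vale.Agent.CK

open Vale.Agent.P322

lemma num_log32 : log (3 / 2) ≤ 4055 / 10000 := by
  have h := log_ge_of (y := 2 / 3) (c := -(4055 / 10000)) (by decide +kernel) (by decide +kernel)
  have e : (((2 / 3 : ℚ)) : ℝ) = 2 / 3 := by norm_num
  rw [e] at h
  have e2 : ((-(4055 / 10000 : ℚ) : ℚ) : ℝ) = -(4055 / 10000) := by norm_num
  rw [e2] at h
  have e3 : log (2 / 3 : ℝ) = -log (3 / 2) := by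
    rw [← Real.log_inv]
    norm_num
  rw [e3] at h
  linarith

lemma num_log1710 : 53 / 100 ≤ log (17 / 10) := by
  have h := log_le_of (y := 10 / 17) (c := -(53 / 100)) (by decide +kernel) (by decide +kernel)
  have e : (((10 / 17 : ℚ)) : ℝ) = 10 / 17 := by norm_num
  rw [e] at h
  have e2 : ((-(53 / 100 : ℚ) : ℚ) : ℝ) = -(53 / 100) := by norm_num
  rw [e2] at h
  have e3 : log (10 / 17 : ℝ) = -log (17 / 10) := by
    rw [← Real.log_inv]
    norm_num
  rw [e3] at h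
  linarith

lemma num_log3 : log 3 ≤ 10987 / 10000 := by
  have h := log_ge_of (y := 1 / 3) (c := -(10987 / 10000)) (by decide +kernel) (by decide +kernel)
  have e : (((1 / 3 : ℚ)) : ℝ) = 1 / 3 := by norm_num
  rw [e] at h
  have e2 : ((-(10987 / 10000 : ℚ) : ℚ) : ℝ) = -(10987 / 10000) := by norm_num
  rw [e2] at h
  have e3 : log (1 / 3 : ℝ) = -log 3 := by
    rw [← Real.log_inv]
    norm_num
  rw [e3] at h
  linarith

lemma num_log200 : (529 / 100 : ℝ) ≤ log 200 := by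
  have h := log_le_of (y := 1 / 200) (c := -(529 / 100)) (by decide +kernel) (by decide +kernel)
  have e : (((1 / 200 : ℚ)) : ℝ) = 1 / 200 := by norm_num
  rw [e] at h
  have e2 : ((-(529 / 100 : ℚ) : ℚ) : ℝ) = -(529 / 100) := by norm_num
  rw [e2] at h
  have e3 : log (1 / 200 : ℝ) = -log 200 := by
    rw [← Real.log_inv]
    norm_num
  rw [e3] at h
  linarith

/-- `A r = L₀/2 + log (1 + r)`, `L₀ = - log (1 - r²)`. -/
lemma A_eq_L {r : ℝ} (hr0 : 0 < r) (hr1 : r < 1) :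
    A r = -log (1 - r ^ 2) / 2 + log (1 + r) := by
  have hp : 0 < 1 + r := by linarith
  have hm : 0 < 1 - r := by linarith
  have e : log (1 - r ^ 2) = log (1 + r) + log (1 - r) := by
    rw [← Real.log_mul hp.ne' hm.ne']
    congr 1
    ring
  rw [e]
  unfold A
  ring

/-- `Y = (1 - r/2) L₀ - r log (1 + r)`. -/
lemma Yf_eq_L {r : ℝ} (hr0 : 0 < r) (hr1 : r < 1) :
    Yf r = (1 - r / 2) * (-log (1 - r ^ 2)) - r * log (1 + r) := by
  unfold Yf
  rw [A_eq_L hr0 hr1]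
  ring

/-- `H₂ ≥ - log w - 1`, where `w = 1 - (1 - t) q`. -/
lemma H2_ge {t q : ℝ} (ht0 : 0 < t) (ht1 : t < 1) (hq0 : 0 < q) (hq1 : q < 1) :
    -log (1 - (1 - t) * q) - 1 ≤ H2 t q := by
  have hb0 : 0 < 1 - t := by linarith
  have hbq : (1 - t) * q < 1 := by nlinarith
  have hbq0 : 0 < (1 - t) * q := by positivity
  have hw : 0 < 1 - (1 - t) * q := by linarith
  have hn : 0 ≤ -log (1 - (1 - t) * q) - (1 - t) * q := by
    have := Real.log_le_sub_one_of_pos hw
    linarith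
  have hb2 : (1 - t) ^ 2 ≤ 1 := by nlinarith
  have hb2p : 0 < (1 - t) ^ 2 := by positivity
  have h1 : -log (1 - (1 - t) * q) - (1 - t) * q ≤ Hq (1 - t) q := by
    unfold Hq
    rw [le_div_iff₀ hb2p]
    nlinarith
  have h2 : 0 ≤ t / 12 * q ^ 4 / (1 - 4 / 5 * ((1 - t) * q)) ^ 2 := by positivity
  unfold H2
  linarith

lemma f1_le {t q : ℝ} (ht0 : 0 < t) (ht1 : t < 1) (hq0 : 0 < q) (hq1 : q < 1) : f1 t q ≤ 1 := by
  unfold f1
  have hb0 : 0 < 1 - t := by linarith
  have hbq : (1 - t) * q < 1 := by nlinarith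
  have h : 0 ≤ (1 - (1 - t) * q) * (1 + q * t) / 4 := by
    have h1 : 0 < 1 - (1 - t) * q := by linarith
    positivity
  linarith

/-- The case `t ≤ 2 ε`: the alternative `A`. -/
lemma tail_A {t r : ℝ} (ht0 : 0 < t) (ht : t ≤ 1 / 200) (hr : 127 / 128 ≤ r) (hr1 : r < 1)
    (hf : 0 < f1 t (r ^ 2)) (hc : t ≤ 2 * (1 - r ^ 2)) : Aform t r := by
  have hr0 : 0 < r := by linarith
  have hrabs := abs_lt_one_of hr0.le hr1
  have hq0 : 0 < r ^ 2 := by positivity
  have hq1 : r ^ 2 < 1 := by nlinarith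
  have ht1 : t < 1 := by linarith
  obtain ⟨ε, hε⟩ : ∃ ε, ε = 1 - r ^ 2 := ⟨_, rfl⟩
  have hε0 : 0 < ε := by rw [hε]; linarith
  have hε1 : ε ≤ 1 / 64 := by
    rw [hε]
    nlinarith
  have hf1 := f1_le ht0 ht1 hq0 hq1
  have hH := H2_ge ht0 ht1 hq0 hq1
  have hAf0 := Af_nonneg hr0.le hr1
  have hw0 : 0 < 1 - (1 - t) * r ^ 2 := by nlinarith
  have hw : 1 - (1 - t) * r ^ 2 ≤ 3 * ε := by
    rw [hε]
    have : t * r ^ 2 ≤ t := by nlinarith
    linarith
  -- the logarithms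
  have hL0 : -log (1 - (1 - t) * r ^ 2) ≥ -log 3 - log ε := by
    have h1 : log (1 - (1 - t) * r ^ 2) ≤ log (3 * ε) := log_le_log hw0 hw
    rw [Real.log_mul (by norm_num) hε0.ne'] at h1
    linarith
  obtain ⟨L, hL⟩ : ∃ L, L = -log ε := ⟨_, rfl⟩
  have hLge : 4158 / 1000 ≤ L := by
    have h1 : log ε ≤ log (1 / 64) := log_le_log hε0 hε1
    have h2 : log (1 / 64 : ℝ) = -(6 * log 2) := by
      rw [show (1 / 64 : ℝ) = (2 ^ 6)⁻¹ by norm_num, log_inv, log_pow]
      norm_num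
    have h3 := Real.log_two_gt_d9
    rw [h2] at h1
    rw [hL]
    linarith
  have hY := Yf_eq_L hr0 hr1
  rw [← hε, ← neg_neg (log ε), ← hL, neg_neg] at hY
  -- `log (1 + r)`
  have hl1 : 689 / 1000 ≤ log (1 + r) := by
    have h1 : log (255 / 128) ≤ log (1 + r) := log_le_log (by norm_num) (by linarith)
    have h2 : log (255 / 128 : ℝ) = log 2 + log (255 / 256) := by
      rw [← Real.log_mul (by norm_num) (by norm_num)]
      norm_num
    have h3 : 1 - (256 / 255 : ℝ) ≤ log (255 / 256) := by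
      have := Real.one_sub_inv_le_log_of_pos (show (0 : ℝ) < 255 / 256 by norm_num)
      norm_num at this ⊢
      linarith
    have h4 := Real.log_two_gt_d9
    norm_num at h3 h4
    linarith
  have hK := F8 hr0.le hr1
  have hAfle : Af r ≤ Yf r + 57 / 100 := by
    unfold Af
    linarith
  have hlog3 := num_log3
  unfold Aform
  have h1 : f1 t (r ^ 2) * Af r ≤ Af r := by nlinarith
  have h2 : f1 t (r ^ 2) ^ 2 ≤ 1 := by nlinarith
  have h3 : 645 / 2000 * t * f1 t (r ^ 2) ^ 2 ≤ 645 / 2000 * t := by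
    have : 0 ≤ 645 / 2000 * t := by positivity
    nlinarith
  have h4 : (r / 2) * L + r * log (1 + r) ≥ (127 / 256) * (4158 / 1000) + (127 / 128) * (689 / 1000) := by
    have h5 : (127 / 256) * (4158 / 1000) ≤ (r / 2) * L := by
      apply mul_le_mul (by linarith) hLge (by norm_num) (by linarith)
    have h6 : (127 / 128) * (689 / 1000) ≤ r * log (1 + r) := by
      apply mul_le_mul hr hl1 (by norm_num) hr0.le
    linarith
  have e5 : Yf r = L - ((r / 2) * L + r * log (1 + r)) := by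
    rw [hY]
    ring
  norm_num at h4
  have hL0' : -log (1 - (1 - t) * r ^ 2) ≥ -log 3 + L := by
    rw [hL]
    linarith
  nlinarith

/-- The exact form of `1 - g`. -/
lemma one_sub_gg (t q : ℝ) :
    1 - gg t q = (1 - (1 - t) * q) - (1 - (1 - (1 - t) * q)) *
      ((t + (1 - (1 - t) * q)) / 4 - 7 / 4 * (t * (1 - (1 - t) * q))) := by
  unfold gg
  ring

/-- The tangent line of `-x log x`. -/
lemma neg_mul_log_le {x a : ℝ} (hx : 0 < x) (ha : 0 < a) :
    -(x * log x) ≤ x * (-log a - 1) + a := by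
  have h := Real.log_le_sub_one_of_pos (div_pos ha hx)
  rw [Real.log_div ha.ne' hx.ne'] at h
  have h2 := mul_le_mul_of_nonneg_left h hx.le
  have e : x * (a / x - 1) = a - x := by
    field_simp
  rw [e] at h2
  nlinarith

/-- Bounds for `η = 1 - g`. -/
lemma eta_bounds {t q : ℝ} (ht0 : 0 < t) (ht : t ≤ 1 / 200) (hq0 : 0 < q) (hq1 : q < 1)
    (hc : 2 * (1 - q) ≤ t) : t / 2 ≤ 1 - gg t q ∧ 1 - gg t q ≤ 9 / 10 * t := by
  obtain ⟨ε, hε⟩ : ∃ ε, ε = 1 - q := ⟨_, rfl⟩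
  obtain ⟨w, hw⟩ : ∃ w, w = 1 - (1 - t) * q := ⟨_, rfl⟩
  have hwe : w = ε + q * t := by
    rw [hw, hε]
    ring
  have hε0 : 0 < ε := by rw [hε]; linarith
  have hεt : ε ≤ t / 2 := by rw [hε]; linarith
  have hw0 : 0 < w := by rw [hwe]; positivity
  have hw1 : w ≤ 3 / 2 * t := by
    rw [hwe]
    nlinarith
  have hη := one_sub_gg t q
  rw [← hw] at hη
  constructor
  · rw [hη]
    have h1 : 0 ≤ (1 - w) * (7 / 4 * (t * w)) := by
      have : 0 ≤ 1 - w := by linarith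
      positivity
    have h2 : 0 ≤ w * ((t + w) / 4) := by positivity
    have h3 : t / 2 ≤ 3 / 4 * w - t / 4 := by
      rw [hwe]
      have hq' : q = 1 - ε := by rw [hε]; ring
      rw [hq']
      nlinarith
    nlinarith
  · rw [hη]
    have h1 : (1 - w) * (7 / 4 * (t * w)) ≤ 7 / 4 * (t * (3 / 2 * t)) := by
      have h2 : t * w ≤ t * (3 / 2 * t) := mul_le_mul_of_nonneg_left hw1 ht0.le
      have h3 : 0 ≤ t * w := by positivity
      nlinarith
    have h2 : w * ((t + w) / 4) ≤ (3 / 2 * t) * ((t + 3 / 2 * t) / 4) := by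
      apply mul_le_mul hw1 (by linarith) (by positivity) (by positivity)
    have h3 : t * t ≤ t / 200 := by nlinarith
    nlinarith

/-- The lower bound of `Y`. -/
lemma Y_lower {t r L : ℝ} (ht0 : 0 < t) (ht1 : t ≤ 1) (hr0 : 0 < r) (hr1 : r < 1) (hL : L = -log t)
    (hε0 : 0 < 1 - r ^ 2) (hεt : 1 - r ^ 2 ≤ t / 2) : L / 2 - log 2 / 2 ≤ Yf r := by
  have h1 := Yf_eq_L hr0 hr1
  rw [h1]
  have h2 : log (1 - r ^ 2) ≤ log (t / 2) := log_le_log hε0 hεt
  rw [Real.log_div ht0.ne' (by norm_num)] at h2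
  have h3 : L + log 2 ≤ -log (1 - r ^ 2) := by
    rw [hL]
    linarith
  have hlog2 : 0 < log 2 := Real.log_pos one_lt_two
  have hLn : 0 ≤ L := by
    rw [hL]
    have : log t ≤ 0 := Real.log_nonpos ht0.le ht1
    linarith
  have h4 : 0 ≤ -log (1 - r ^ 2) := by linarith
  have h5 : 1 / 2 * (-log (1 - r ^ 2)) ≤ (1 - r / 2) * (-log (1 - r ^ 2)) :=
    mul_le_mul_of_nonneg_right (by linarith) h4
  have h6 : log (1 + r) ≤ log 2 := log_le_log (by linarith) (by linarith)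
  have h7 : 0 ≤ log (1 + r) := Real.log_nonneg (by linarith)
  have h8 : r * log (1 + r) ≤ log 2 := by nlinarith
  linarith

/-- The final numerical inequality of the case `R`. -/
lemma tail_arith {t η L : ℝ} (ht0 : 0 < t) (hηlo : t / 2 ≤ η) (hηhi : η ≤ 9 / 10 * t)
    (hLge : 529 / 100 ≤ L) :
    57 / 100 * (t + t / 400 + ((t + η) * (L - 153 / 100) + 17 / 10 * t)) ≤
      t * (L - 4055 / 10000 - 1) + η * (L / 2 - 3466 / 10000) := by
  have e : t * (L - 4055 / 10000 - 1) + η * (L / 2 - 3466 / 10000) -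
      57 / 100 * (t + t / 400 + ((t + η) * (L - 153 / 100) + 17 / 10 * t)) =
      t * (43 / 100 * L - 2073825 / 1000000) + η * (5255 / 10000 - 7 / 100 * L) := by ring
  have hfin : 0 ≤ t * (43 / 100 * L - 2073825 / 1000000) + η * (5255 / 10000 - 7 / 100 * L) := by
    rcases le_total 0 (5255 / 10000 - 7 / 100 * L) with hG | hG
    · have h1 : t / 2 * (5255 / 10000 - 7 / 100 * L) ≤ η * (5255 / 10000 - 7 / 100 * L) :=
        mul_le_mul_of_nonneg_right hηlo hG
      have h2 : 0 ≤ t * (395 / 1000 * L - 181 / 100) :=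
        mul_nonneg ht0.le (by linarith)
      nlinarith
    · have h1 : 9 / 10 * t * (5255 / 10000 - 7 / 100 * L) ≤ η * (5255 / 10000 - 7 / 100 * L) :=
        mul_le_mul_of_nonpos_right hηhi hG
      have h2 : 0 ≤ t * (367 / 1000 * L - 16 / 10) :=
        mul_nonneg ht0.le (by linarith)
      nlinarith
  linarith

/-- The left side of `R`. -/
lemma tail_lhs {t f η x L : ℝ} (ht0 : 0 < t) (ht : t ≤ 1 / 200) (hf : 0 < f) (hf1 : f ≤ 1)
    (hη0 : 0 < η) (hxe : x = t * f + η) (hL : L = -log t) (hLge : 529 / 100 ≤ L) :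
    57 / 100 * (t * f + (t * f) ^ 2 / 2 + max 0 (-(x * log x))) ≤
      57 / 100 * (t + t / 400 + ((t + η) * (L - 153 / 100) + 17 / 10 * t)) := by
  have hl17 := num_log1710
  have htf0 : 0 < t * f := mul_pos ht0 hf
  have htf1 : t * f ≤ t := by nlinarith
  have hx0 : 0 < x := by rw [hxe]; linarith
  have ha0 : (0 : ℝ) < 17 / 10 * t := by positivity
  have hloga : -log (17 / 10 * t) - 1 = L - log (17 / 10) - 1 := by
    rw [Real.log_mul (by norm_num) ht0.ne', hL]
    ring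
  have hc0 : 0 ≤ L - log (17 / 10) - 1 := by
    have : log (17 / 10 : ℝ) ≤ 17 / 10 - 1 := Real.log_le_sub_one_of_pos (by norm_num)
    linarith
  have htan := neg_mul_log_le hx0 ha0
  rw [hloga] at htan
  have hmax : max 0 (-(x * log x)) ≤ x * (L - log (17 / 10) - 1) + 17 / 10 * t := by
    apply max_le _ htan
    have : 0 ≤ x * (L - log (17 / 10) - 1) := mul_nonneg hx0.le hc0
    linarith
  have hxc : x * (L - log (17 / 10) - 1) ≤ (t + η) * (L - 153 / 100) := by
    have h1 : x ≤ t + η := by rw [hxe]; linarith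
    have h2 : x * (L - log (17 / 10) - 1) ≤ (t + η) * (L - log (17 / 10) - 1) :=
      mul_le_mul_of_nonneg_right h1 hc0
    have h3 : (t + η) * (L - log (17 / 10) - 1) ≤ (t + η) * (L - 153 / 100) :=
      mul_le_mul_of_nonneg_left (by linarith) (by linarith)
    linarith
  have hsq : (t * f) ^ 2 / 2 ≤ t / 400 := by
    have h1 : (t * f) ^ 2 ≤ t ^ 2 := pow_le_pow_left₀ htf0.le htf1 2
    have h2 : t ^ 2 ≤ t / 200 := by nlinarith
    linarith
  apply mul_le_mul_of_nonneg_left _ (by norm_num)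
  linarith

/-- The case `2 ε ≤ t`: the alternative `R`. -/
lemma tail_R {t r : ℝ} (ht0 : 0 < t) (ht : t ≤ 1 / 200) (hr : 127 / 128 ≤ r) (hr1 : r < 1)
    (hf : 0 < f1 t (r ^ 2)) (hc : 2 * (1 - r ^ 2) ≤ t) : Rform t r := by
  have hr0 : 0 < r := by linarith
  have hq0 : 0 < r ^ 2 := by positivity
  have hq1 : r ^ 2 < 1 := by nlinarith
  have ht1 : t < 1 := by linarith
  have hf1 := f1_le ht0 ht1 hq0 hq1
  have hH := H2_ge ht0 ht1 hq0 hq1
  obtain ⟨hηlo, hηhi⟩ := eta_bounds ht0 ht hq0 hq1 hc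
  have hw1 : 1 - (1 - t) * r ^ 2 ≤ 3 / 2 * t := by nlinarith
  have hw0 : 0 < 1 - (1 - t) * r ^ 2 := by nlinarith
  obtain ⟨L, hL⟩ : ∃ L, L = -log t := ⟨_, rfl⟩
  have hLge : 529 / 100 ≤ L := by
    have h1 : log t ≤ log (1 / 200) := log_le_log ht0 ht
    have h2 : log (1 / 200 : ℝ) = -log 200 := by
      rw [← Real.log_inv]
      norm_num
    have h3 := num_log200
    rw [h2] at h1
    rw [hL]
    linarith
  have hlogw : L - log (3 / 2) ≤ -log (1 - (1 - t) * r ^ 2) := by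
    have h1 : log (1 - (1 - t) * r ^ 2) ≤ log (3 / 2 * t) := log_le_log hw0 hw1
    rw [Real.log_mul (by norm_num) ht0.ne'] at h1
    rw [hL]
    linarith
  have hY := Y_lower ht0 ht1.le hr0 hr1 hL (by linarith) (by linarith)
  have hl32 := num_log32
  have hln2 := Real.log_two_lt_d9
  have hη0 : 0 < 1 - gg t (r ^ 2) := by linarith
  have hYpos := mul_le_mul_of_nonneg_left hY hη0.le
  have hH2 : t * (L - log (3 / 2) - 1) ≤ t * H2 t (r ^ 2) := by
    apply mul_le_mul_of_nonneg_left _ ht0.le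
    linarith
  have hlhs := tail_lhs (f := f1 t (r ^ 2)) (η := 1 - gg t (r ^ 2))
    (x := 1 + t * f1 t (r ^ 2) - gg t (r ^ 2)) ht0 ht hf hf1 hη0 (by ring) hL hLge
  have hkey := tail_arith ht0 hηlo hηhi hLge
  have hrhs : t * (L - 4055 / 10000 - 1) ≤ t * (L - log (3 / 2) - 1) :=
    mul_le_mul_of_nonneg_left (by linarith) ht0.le
  have hrhs2 : (1 - gg t (r ^ 2)) * (L / 2 - 3466 / 10000) ≤
      (1 - gg t (r ^ 2)) * (L / 2 - log 2 / 2) :=
    mul_le_mul_of_nonneg_left (by linarith) hη0.le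
  unfold Rform
  linarith

/-- The corner of `Key4`. -/
theorem tail_good {t r : ℝ} (ht0 : 0 < t) (ht : t ≤ 1 / 200) (hr : 127 / 128 ≤ r) (hr1 : r < 1)
    (hf : 0 < f1 t (r ^ 2)) : Aform t r ∨ Rform t r := by
  rcases le_total t (2 * (1 - r ^ 2)) with h | h
  · exact Or.inl (tail_A ht0 ht hr hr1 hf h)
  · exact Or.inr (tail_R ht0 ht hr hr1 hf h)

end Vale.Agent.CK
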