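import Vale.Agent.CK.Key4BoxQ
import Vale.Agent.CK.Key4Tail

/-!
The alternative `R` of `Key4` for `r ≥ 0.9999997`, `τ ≥ 1/200`.
-/

open Real Set

namespace Vale.Agent.CK

open Vale.Agent.P322

/-- The numerical value of `Y`. -/
lemma YLQ_top : (32 / 5 : ℚ) ≤ YLQ (9999997 / 10000000) := by decide +kernel

lemma Y_far {r : ℝ} (hr : 9999997 / 10000000 ≤ r) (hr1 : r < 1) : 32 / 5 ≤ Yf r := by
  have h1 := Q_le_Y (x := 9999997 / 10000000) (by norm_num) (by norm_num)
  have h2 : ((32 / 5 : ℚ) : ℝ) ≤ ((YLQ (9999997 / 10000000) : ℚ) : ℝ) := by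
    exact_mod_cast YLQ_top
  have e : (((9999997 / 10000000 : ℚ)) : ℝ) = 9999997 / 10000000 := by norm_num
  rw [e] at h1
  have h3 := Yf_mono (x := 9999997 / 10000000) (y := r) (by norm_num) hr hr1
  have e2 : ((32 / 5 : ℚ) : ℝ) = 32 / 5 := by norm_num
  rw [e2] at h2
  linarith

/-- The lower bound for `η = 1 - g`. -/
lemma eta_far {t q : ℝ} (ht0 : 0 < t) (ht1 : t < 1) (hq : 99 / 100 ≤ q) (hq1 : q < 1) :
    49 / 100 * t ≤ 1 - gg t q := by
  obtain ⟨w, hw⟩ : ∃ w, w = 1 - (1 - t) * q := ⟨_, rfl⟩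
  have hη := one_sub_gg t q
  rw [← hw] at hη
  have hw1 : w ≤ 1 := by
    have : 0 ≤ (1 - t) * q := mul_nonneg (by linarith) (by linarith)
    linarith
  have hwt : 99 / 100 * t ≤ w := by
    have e : w = (1 - q) + q * t := by rw [hw]; ring
    have h1 : 99 / 100 * t ≤ q * t := mul_le_mul_of_nonneg_right hq ht0.le
    linarith
  have hw0 : 0 < w := by linarith
  rw [hη]
  have h1 : 0 ≤ (1 - w) * (7 / 4 * (t * w)) := by
    have : 0 ≤ 1 - w := by linarith
    positivity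
  have h2 : 0 ≤ w * ((t + w) / 4) := by positivity
  nlinarith

/-- `log 3 ≥ 1`. -/
lemma one_le_log3 : 1 ≤ log 3 := by
  rw [Real.le_log_iff_exp_le (by norm_num)]
  have := Real.exp_one_lt_d9
  linarith

/-- The case `t ≤ 1/3`. -/
lemma far_arith1 {t η L : ℝ} (ht0 : 0 < t) (ht : t ≤ 1 / 3) (hη : 49 / 100 * t ≤ η)
    (hL1 : 1 ≤ L) (hL2 : L ≤ 6) :
    57 / 100 * (t + t ^ 2 / 2 + ((t + η) * (L - 1) + t)) ≤
      t * (L - 1 / 1000 - 1) + η * (32 / 5) := by
  have h1 : 0 ≤ 32 / 5 - 57 / 100 * (L - 1) := by linarith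
  have h2 : 49 / 100 * t * (32 / 5 - 57 / 100 * (L - 1)) ≤ η * (32 / 5 - 57 / 100 * (L - 1)) :=
    mul_le_mul_of_nonneg_right hη h1
  have h3 : t * t ≤ t * (1 / 3) := mul_le_mul_of_nonneg_left ht ht0.le
  have h4 : 0 ≤ t * (L - 1) := mul_nonneg ht0.le (by linarith)
  nlinarith

/-- The case `t ≥ 1/3`. -/
lemma far_arith2 {t η c : ℝ} (ht0 : 1 / 3 ≤ t) (ht1 : t < 1) (hη : 49 / 100 * t ≤ η)
    (hc0 : 0 ≤ c) (hc1 : c ≤ 1 / 10) :
    57 / 100 * (t + t ^ 2 / 2 + ((t + η) * c + 1 / 3)) ≤ -t + η * (32 / 5) := by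
  have h0 : 0 ≤ η := le_trans (by positivity) hη
  have h1 : (t + η) * c ≤ (t + η) * (1 / 10) := mul_le_mul_of_nonneg_left hc1 (by linarith)
  have h3 : t * t ≤ t * 1 := mul_le_mul_of_nonneg_left ht1.le (by linarith)
  nlinarith

/-- The alternative `R` for `r ≥ 0.9999997`, `τ ≥ 1/200`. -/
theorem far_R {t r : ℝ} (ht : 1 / 200 ≤ t) (ht1 : t < 1) (hr : 9999997 / 10000000 ≤ r) (hr1 : r < 1)
    (hf : 0 < f1 t (r ^ 2)) : Rform t r := by
  have ht0 : 0 < t := by linarith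
  have hr0 : 0 < r := by linarith
  have hq0 : 0 < r ^ 2 := by positivity
  have hq1 : r ^ 2 < 1 := by nlinarith
  have hqtop : 9999994 / 10000000 ≤ r ^ 2 := by nlinarith
  have hf1 := f1_le ht0 ht1 hq0 hq1
  have hH := H2_ge ht0 ht1 hq0 hq1
  have hη := eta_far ht0 ht1 (le_trans (by norm_num) hqtop) hq1
  have hY := Y_far hr hr1
  obtain ⟨η, hηe⟩ : ∃ η, η = 1 - gg t (r ^ 2) := ⟨_, rfl⟩
  rw [← hηe] at hη
  have hη0 : 0 < η := by nlinarith
  obtain ⟨f, hfe⟩ : ∃ f, f = f1 t (r ^ 2) := ⟨_, rfl⟩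
  rw [← hfe] at hf hf1
  have htf0 : 0 < t * f := mul_pos ht0 hf
  have htf1 : t * f ≤ t := by nlinarith
  have htf2 : (t * f) ^ 2 ≤ t ^ 2 := pow_le_pow_left₀ htf0.le htf1 2
  obtain ⟨x, hxe⟩ : ∃ x, x = t * f + η := ⟨_, rfl⟩
  have hx0 : 0 < x := by rw [hxe]; linarith
  have hxle : x ≤ t + η := by rw [hxe]; linarith
  have hYη : η * (32 / 5) ≤ η * Yf r := mul_le_mul_of_nonneg_left hY hη0.le
  unfold Rform
  rw [← hfe]
  have ex : 1 + t * f - gg t (r ^ 2) = x := by rw [hxe, hηe]; ring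
  rw [ex, ← hηe]
  obtain ⟨w, hw⟩ : ∃ w, w = 1 - (1 - t) * r ^ 2 := ⟨_, rfl⟩
  rw [← hw] at hH
  have hw0 : 0 < w := by
    rw [hw]
    have : (1 - t) * r ^ 2 < 1 * 1 := mul_lt_mul'' (by linarith) hq1 (by linarith) hq0.le
    linarith
  have hw1 : w < 1 := by
    rw [hw]
    have : 0 < (1 - t) * r ^ 2 := mul_pos (by linarith) hq0
    linarith
  rcases le_total t (1 / 3) with hcase | hcase
  · -- `a = t`
    obtain ⟨L, hL⟩ : ∃ L, L = -log t := ⟨_, rfl⟩
    have hL1 : 1 ≤ L := by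
      have h1 : log t ≤ log (1 / 3) := log_le_log ht0 hcase
      have h2 : log (1 / 3 : ℝ) = -log 3 := by
        rw [← Real.log_inv]
        norm_num
      have h3 := one_le_log3
      rw [h2] at h1
      rw [hL]
      linarith
    have hL2 : L ≤ 6 := by
      have h1 : log (1 / 256) ≤ log t := log_le_log (by norm_num) (by linarith)
      have h2 : log (1 / 256 : ℝ) = -(8 * log 2) := by
        rw [show (1 / 256 : ℝ) = (2 ^ 8)⁻¹ by norm_num, Real.log_inv, Real.log_pow]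
        norm_num
      have h3 := Real.log_two_lt_d9
      rw [h2] at h1
      rw [hL]
      linarith
    have htan := neg_mul_log_le hx0 ht0
    rw [← hL] at htan
    have hmax : max 0 (-(x * log x)) ≤ (t + η) * (L - 1) + t := by
      have h1 : x * (L - 1) ≤ (t + η) * (L - 1) := mul_le_mul_of_nonneg_right hxle (by linarith)
      have h2 : 0 ≤ (t + η) * (L - 1) := mul_nonneg (by linarith) (by linarith)
      apply max_le
      · linarith
      · linarith
    -- the logarithm of `w`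
    have hwle : w ≤ t * (1 + 1 / 1000) := by
      have e : w = (1 - r ^ 2) + r ^ 2 * t := by rw [hw]; ring
      have h1 : r ^ 2 * t ≤ t := by nlinarith
      have h2 : 1 - r ^ 2 ≤ t / 1000 := by linarith
      rw [e]
      linarith
    have hlogw : L - 1 / 1000 ≤ -log w := by
      have h1 : log w ≤ log (t * (1 + 1 / 1000)) := log_le_log hw0 hwle
      rw [Real.log_mul ht0.ne' (by norm_num)] at h1
      have h2 := Real.log_le_sub_one_of_pos (show (0 : ℝ) < 1 + 1 / 1000 by norm_num)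
      rw [hL]
      linarith
    have hH3 : t * (L - 1 / 1000 - 1) ≤ t * H2 t (r ^ 2) :=
      mul_le_mul_of_nonneg_left (by linarith) ht0.le
    have hkey := far_arith1 ht0 hcase hη hL1 hL2
    have hm : 57 / 100 * (t * f + (t * f) ^ 2 / 2 + max 0 (-(x * log x))) ≤
        57 / 100 * (t + t ^ 2 / 2 + ((t + η) * (L - 1) + t)) := by
      apply mul_le_mul_of_nonneg_left _ (by norm_num)
      linarith
    linarith
  · -- `a = 1/3`
    have htan := neg_mul_log_le hx0 (show (0 : ℝ) < 1 / 3 by norm_num)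
    have hl3 : -log (1 / 3 : ℝ) - 1 = log 3 - 1 := by
      rw [show (1 / 3 : ℝ) = 3⁻¹ by norm_num, Real.log_inv]
      ring
    rw [hl3] at htan
    obtain ⟨c, hc⟩ : ∃ c, c = log 3 - 1 := ⟨_, rfl⟩
    rw [← hc] at htan
    have hc0 : 0 ≤ c := by
      have := one_le_log3
      rw [hc]
      linarith
    have hc1 : c ≤ 1 / 10 := by
      have := num_log3
      rw [hc]
      linarith
    have hmax : max 0 (-(x * log x)) ≤ (t + η) * c + 1 / 3 := by
      have h1 : x * c ≤ (t + η) * c := mul_le_mul_of_nonneg_right hxle hc0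
      have h2 : 0 ≤ (t + η) * c := mul_nonneg (by linarith) hc0
      apply max_le
      · linarith
      · linarith
    have hlogw : 0 ≤ -log w := by
      have := Real.log_nonpos hw0.le hw1.le
      linarith
    have hH3 : -t ≤ t * H2 t (r ^ 2) := by
      have h1 : -1 ≤ H2 t (r ^ 2) := by linarith
      have := mul_le_mul_of_nonneg_left h1 ht0.le
      linarith
    have hkey := far_arith2 hcase ht1 hη hc0 hc1
    have hm : 57 / 100 * (t * f + (t * f) ^ 2 / 2 + max 0 (-(x * log x))) ≤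
        57 / 100 * (t + t ^ 2 / 2 + ((t + η) * c + 1 / 3)) := by
      apply mul_le_mul_of_nonneg_left _ (by norm_num)
      linarith
    linarith

end Vale.Agent.CK
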