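import Vale.Agent.CK.Key4BoxAll
import Vale.Agent.CK.Key4Far
import Vale.Agent.CK.Key4Asm

/-!
`Key4`: the inequality at the critical entropy `x* = β h(r)`.
-/

open Real Set

namespace Vale.Agent.CK

open Vale.Agent.P322

/-- `Key4`: the inequality at the critical entropy `x* = β h(r)`. -/
theorem key4 {v r : ℝ} (hv0 : 0 ≤ v) (hv1 : v < 1) (hr0 : 0 < r) (hr1 : r < 1)
    (_hT : Tb (pa v r) (pb v r) < Tm (mean v r)) :
    PP (Tm (mean v r)) (bet v r * ent r) - PP (Tb (pa v r) (pb v r)) (bet v r * ent r) ≤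
      bet v r * Yf r + Ee v r := by
  rcases le_or_gt r (9999997 / 10000000) with h | h
  · exact key4_of_CI hv0 hv1 hr0 hr1 (fun hb => CI_box hv0 hv1 hr0 h hb)
  · apply key4_of_good hv0 hv1 hr0 hr1
    intro ht hf
    have ht1 := tau_lt_one hv0 hv1 hr0 hr1
    rcases le_total (tau v r) (1 / 200) with h2 | h2
    · exact tail_good ht h2 (by linarith) hr1 hf
    · exact Or.inr (far_R h2 ht1 h.le hr1 hf)

end Vale.Agent.CK
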