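import Vale.Agent.CK.Key4Red
import Vale.Agent.CK.AtQ

/-!
Real-variable lemmas for the box check of the inequality `CIat`.
-/

open Real Set

namespace Vale.Agent.CK

open Vale.Agent.P322

/-- `λ = (1 - q)/(1 - V q)`. -/
noncomputable def lam (v r : ℝ) : ℝ := (1 - r ^ 2) / (1 - v ^ 2 * r ^ 2)

section basics

variable {v r : ℝ}

lemma lam_mul (hD : 1 - v ^ 2 * r ^ 2 ≠ 0) : lam v r * (1 - v ^ 2 * r ^ 2) = 1 - r ^ 2 :=
  div_mul_cancel₀ _ hD

lemma tau_eq_lam : tau v r = v ^ 2 * lam v r := by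
  unfold tau lam
  ring

lemma mean_eq_lam : mean v r = v * lam v r := by
  unfold mean lam
  ring

lemma bet_eq_lam (hD : 1 - v ^ 2 * r ^ 2 ≠ 0) : bet v r = 1 - v ^ 2 * lam v r := by
  have := bet_add_tau hD
  rw [tau_eq_lam] at this
  linarith

lemma Tm_sub_bet (hD : 1 - v ^ 2 * r ^ 2 ≠ 0) :
    Tm (mean v r) - bet v r =
      tau v r * (1 - 5 / 4 * lam v r + v ^ 2 * lam v r ^ 3 / 4) := by
  rw [bet_eq_lam hD, mean_eq_lam, tau_eq_lam]
  unfold Tm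
  ring

lemma Tm_eq_z (hD : 1 - v ^ 2 * r ^ 2 ≠ 0) :
    Tm (mean v r) = bet v r * ((1 + r ^ 2 * tau v r) * (1 - mean v r ^ 2 / 4)) := by
  have h := lam_mul hD
  rw [bet_eq_lam hD, mean_eq_lam, tau_eq_lam]
  unfold Tm
  have e : 1 - (v * lam v r) ^ 2 = (1 - v ^ 2 * lam v r) * (1 + r ^ 2 * (v ^ 2 * lam v r)) := by
    linear_combination (-(v ^ 2 * lam v r)) * h
  rw [e]
  ring

end basics

/-- Monotonicity of `(1 - q)/(1 - V q)`. -/
lemma gl_mono {V V' q q' : ℝ} (hV : V ≤ V') (hV' : V' ≤ 1) (hq0 : 0 ≤ q') (hq : q' ≤ q)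
    (hq1 : q < 1) : (1 - q) / (1 - V * q) ≤ (1 - q') / (1 - V' * q') := by
  have h1 : 0 < 1 - V * q := by nlinarith
  have h2 : 0 < 1 - V' * q' := by nlinarith
  rw [div_le_div_iff₀ h1 h2]
  have h3 : 0 ≤ (q - q') * (1 - V') := mul_nonneg (by linarith) (by linarith)
  have h4 : 0 ≤ (V' - V) * (q * (1 - q')) :=
    mul_nonneg (by linarith) (mul_nonneg (by linarith) (by linarith))
  nlinarith

/-- The left side of `CIat`, first bound. -/
lemma lhs_le_xi {β T a : ℝ} (hβ : 0 < β) (hT : β < T) :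
    (T - β) * (a - Q1) + Q1 * (T * log (T / β)) ≤ (T - β) * (a + Q1 * (T / β - 1)) := by
  have hT0 : 0 < T := lt_trans hβ hT
  have hz : 0 < T / β := div_pos hT0 hβ
  have h1 := Real.log_le_sub_one_of_pos hz
  have hQ : (0 : ℝ) < Q1 := by
    unfold Q1
    norm_num
  have h2 : T * log (T / β) ≤ T * (T / β - 1) := mul_le_mul_of_nonneg_left h1 hT0.le
  have e : T * (T / β - 1) = (T - β) * (T / β) := by
    field_simp
  have h3 := mul_le_mul_of_nonneg_left h2 hQ.le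
  rw [e] at h3
  nlinarith

/-- `z log z - z + 1 ≤ (z - 1)²/2` for `z ≥ 1`. -/
lemma omega_le {z : ℝ} (hz : 1 ≤ z) : z * log z - z + 1 ≤ (z - 1) ^ 2 / 2 := by
  have hm : MonotoneOn (fun y : ℝ => (y - 1) ^ 2 / 2 - (y * log y - y + 1)) (Icc 1 z) := by
    apply mono_of_deriv (f' := fun y => y - 1 - log y)
    · intro y hy
      have hy0 : y ≠ 0 := by linarith [hy.1]
      have h1 : HasDerivAt (fun y : ℝ => y * log y) (log y + 1) y := Real.hasDerivAt_mul_log hy0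
      have h2 : HasDerivAt (fun y : ℝ => (y - 1) ^ 2 / 2) (y - 1) y := by
        have := (((hasDerivAt_id' y).sub_const 1).pow 2).div_const 2
        refine this.congr_deriv ?_
        simp
      have h3 := h2.sub (((h1.sub (hasDerivAt_id' y)).add_const 1))
      exact h3.continuousAt.continuousWithinAt
    · intro y hy
      have hy0 : y ≠ 0 := by linarith [hy.1]
      have h1 : HasDerivAt (fun y : ℝ => y * log y) (log y + 1) y := Real.hasDerivAt_mul_log hy0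
      have h2 : HasDerivAt (fun y : ℝ => (y - 1) ^ 2 / 2) (y - 1) y := by
        have := (((hasDerivAt_id' y).sub_const 1).pow 2).div_const 2
        refine this.congr_deriv ?_
        simp
      have h3 := h2.sub (((h1.sub (hasDerivAt_id' y)).add_const 1))
      refine h3.congr_deriv ?_
      ring
    · intro y hy
      have hy0 : 0 < y := by linarith [hy.1]
      have := Real.log_le_sub_one_of_pos hy0
      linarith
  have h := hm (left_mem_Icc.mpr hz) (right_mem_Icc.mpr hz) hz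
  simp only [Real.log_one] at h
  norm_num at h
  linarith

/-- The left side of `CIat`, second bound. -/
lemma lhs_le_om {β T a : ℝ} (hβ : 0 < β) (hT : β < T) :
    (T - β) * (a - Q1) + Q1 * (T * log (T / β)) ≤
      (T - β) * a + Q1 * (β * ((T / β - 1) ^ 2 / 2)) := by
  have hz : 1 ≤ T / β := by
    rw [le_div_iff₀ hβ]
    linarith
  have h1 := omega_le hz
  have hQ : (0 : ℝ) < Q1 := by
    unfold Q1
    norm_num
  have h2 := mul_le_mul_of_nonneg_left h1 (mul_pos hQ hβ).le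
  have e : T * log (T / β) = β * ((T / β) * log (T / β)) := by
    field_simp
  have e2 : Q1 * β * (T / β * log (T / β) - T / β + 1) =
      Q1 * (β * ((T / β) * log (T / β))) - Q1 * (T - β) := by
    field_simp
    ring
  rw [e2] at h2
  rw [e]
  have e3 : Q1 * β * ((T / β - 1) ^ 2 / 2) = Q1 * (β * ((T / β - 1) ^ 2 / 2)) := by ring
  rw [e3] at h2
  nlinarith

/-- Padé lower bound for the logarithm. -/
lemma log_pade {t : ℝ} (ht : 0 ≤ t) : t * ((6 + 3 * t) / (6 + 6 * t + t ^ 2)) ≤ log (1 + t) := by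
  have hm : MonotoneOn (fun y : ℝ => log (1 + y) - y * ((6 + 3 * y) / (6 + 6 * y + y ^ 2))) (Icc 0 t) := by
    have hd : ∀ y, 0 ≤ y → HasDerivAt (fun y : ℝ => log (1 + y) - y * ((6 + 3 * y) / (6 + 6 * y + y ^ 2)))
        (y ^ 4 / ((1 + y) * (6 + 6 * y + y ^ 2) ^ 2)) y := by
      intro y hy
      have hp : (1 : ℝ) + y ≠ 0 := by positivity
      have hq : (6 + 6 * y + y ^ 2) ≠ 0 := by positivity
      have h1 : HasDerivAt (fun y : ℝ => 1 + y) 1 y := (hasDerivAt_id' y).const_add 1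
      have h2 : HasDerivAt (fun y : ℝ => 6 + 3 * y) 3 y := by
        have := ((hasDerivAt_id' y).const_mul 3).const_add 6
        simpa using this
      have h3 : HasDerivAt (fun y : ℝ => 6 + 6 * y + y ^ 2) (6 + 2 * y) y := by
        have := (((hasDerivAt_id' y).const_mul 6).const_add 6).add (hasDerivAt_pow 2 y)
        refine this.congr_deriv ?_
        norm_num
      have h4 := (h1.log hp).sub ((hasDerivAt_id' y).mul (h2.div h3 hq))
      refine h4.congr_deriv ?_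
      simp only [Pi.div_apply]
      field_simp
      ring
    apply mono_of_deriv (f' := fun y => y ^ 4 / ((1 + y) * (6 + 6 * y + y ^ 2) ^ 2))
    · intro y hy
      exact (hd y hy.1).continuousAt.continuousWithinAt
    · intro y hy
      exact hd y hy.1.le
    · intro y hy
      have := hy.1
      positivity
  have h := hm (left_mem_Icc.mpr ht) (right_mem_Icc.mpr ht) ht
  simp only [add_zero, Real.log_one, zero_mul, sub_zero] at h
  linarith

/-- The quotient in `log_pade` is antitone. -/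
lemma pade_anti {s t : ℝ} (hs : 0 ≤ s) (hst : s ≤ t) :
    (6 + 3 * t) / (6 + 6 * t + t ^ 2) ≤ (6 + 3 * s) / (6 + 6 * s + s ^ 2) := by
  have ht : 0 ≤ t := le_trans hs hst
  rw [div_le_div_iff₀ (by positivity) (by positivity)]
  have h1 : 0 ≤ (t - s) * (18 + 6 * (t + s) + 3 * t * s) :=
    mul_nonneg (by linarith) (by positivity)
  nlinarith

/-- The monotonicity of `-log(1-q) - q`. -/
lemma L0_sub_mono {q₁ q : ℝ} (hq : q₁ ≤ q) (h1 : q < 1) (h0 : 0 ≤ q₁) :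
    -log (1 - q₁) - q₁ ≤ -log (1 - q) - q := by
  have h2 : 0 < 1 - q := by linarith
  have h3 : 0 < 1 - q₁ := by linarith
  have h4 : (1 - q₁) / (1 - q) > 0 := div_pos h3 h2
  have h5 := Real.one_sub_inv_le_log_of_pos h4
  rw [Real.log_div h3.ne' h2.ne', inv_div] at h5
  have h6 : 1 - (1 - q) / (1 - q₁) = (q - q₁) / (1 - q₁) := by
    field_simp
    ring
  rw [h6] at h5
  have h7 : q - q₁ ≤ (q - q₁) / (1 - q₁) := by
    rw [le_div_iff₀ h3]
    nlinarith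
  linarith

/-- The lower bound for `E`. -/
lemma Ee_lower {v r z t₀ c Lq q₂ : ℝ} (hv0 : 0 < v) (hv1 : v < 1) (hr0 : 0 < r) (hr1 : r < 1)
    (hz : v * r ^ 2 ≤ z) (hz1 : z < 1) (ht : r ^ 2 * tau v r ≤ t₀)
    (hc : 2 * (A z / z) - 1 - (6 + 3 * t₀) / (6 + 6 * t₀ + t₀ ^ 2) ≤ c) (hc0 : 0 ≤ c)
    (hLq : Lq ≤ -log (1 - r ^ 2) - r ^ 2) (hq₂ : r ^ 2 ≤ q₂) :
    tau v r * (Lq - q₂ * c) ≤ Ee v r := by
  have hq0 : 0 < r ^ 2 := by positivity
  have hq1 : r ^ 2 < 1 := by nlinarith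
  have hV : 0 < v ^ 2 := by positivity
  have hV1 : v ^ 2 < 1 := by nlinarith
  have hD : 0 < 1 - v ^ 2 * r ^ 2 := by nlinarith
  have hτ : 0 < tau v r := by
    unfold tau
    have : 0 < 1 - r ^ 2 := by linarith
    positivity
  have hvq : 0 < v * r ^ 2 := by positivity
  have hvq1 : v * r ^ 2 < 1 := lt_of_le_of_lt hz hz1
  have hz0 : 0 < z := lt_of_lt_of_le hvq hz
  -- the term with `A`
  have h1 : A (v * r ^ 2) / (v * r ^ 2) ≤ A z / z := atc_mono ⟨hvq, hvq1⟩ ⟨hz0, hz1⟩ hz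
  have h2 : 2 * mean v r * A (v * r ^ 2) = tau v r * (r ^ 2 * (2 * (A (v * r ^ 2) / (v * r ^ 2)))) := by
    unfold mean tau
    field_simp
  -- the logarithm
  have hs0 : 0 ≤ r ^ 2 * tau v r := by positivity
  have h3 := log_pade hs0
  have h4 := pade_anti hs0 ht
  have h5 : r ^ 2 * tau v r * ((6 + 3 * t₀) / (6 + 6 * t₀ + t₀ ^ 2)) ≤ log (1 + r ^ 2 * tau v r) :=
    le_trans (mul_le_mul_of_nonneg_left h4 hs0) h3
  unfold Ee
  rw [h2]
  obtain ⟨P, hP⟩ : ∃ P, P = (6 + 3 * t₀) / (6 + 6 * t₀ + t₀ ^ 2) := ⟨_, rfl⟩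
  rw [← hP] at hc h5
  obtain ⟨W, hW⟩ : ∃ W, W = A z / z := ⟨_, rfl⟩
  rw [← hW] at hc h1
  obtain ⟨W', hW'⟩ : ∃ W', W' = A (v * r ^ 2) / (v * r ^ 2) := ⟨_, rfl⟩
  rw [← hW'] at h1 ⊢
  obtain ⟨L, hL⟩ : ∃ L, L = -log (1 - r ^ 2) := ⟨_, rfl⟩
  have hL' : log (1 - r ^ 2) = -L := by rw [hL]; ring
  rw [hL']
  rw [← hL] at hLq
  -- now a polynomial inequality
  have h6 : r ^ 2 * (2 * W' - 1 - P) ≤ q₂ * c := by
    have h7 : 2 * W' - 1 - P ≤ c := by linarith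
    calc r ^ 2 * (2 * W' - 1 - P) ≤ r ^ 2 * c := mul_le_mul_of_nonneg_left h7 hq0.le
      _ ≤ q₂ * c := mul_le_mul_of_nonneg_right hq₂ hc0
  have h8 : Lq - q₂ * c ≤ L - r ^ 2 - r ^ 2 * (2 * W' - 1 - P) := by linarith
  have h9 := mul_le_mul_of_nonneg_left h8 hτ.le
  nlinarith

/-- `-log (1 - x²)` in terms of `A` and the tail. -/
lemma L0_eq {x : ℝ} (h0 : 0 ≤ x) (h1 : x < 1) :
    -log (1 - x ^ 2) = 2 * A x - 2 * log 2 + 2 * (log 2 - log (1 + x)) := by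
  have h2 : 0 < 1 - x := by linarith
  have h3 : 0 < 1 + x := by linarith
  have e : 1 - x ^ 2 = (1 - x) * (1 + x) := by ring
  rw [e, Real.log_mul h2.ne' h3.ne']
  unfold A
  ring

/-- The exact form of `Y`. -/
lemma Yf_eq {x : ℝ} (h0 : 0 ≤ x) (h1 : x < 1) :
    Yf x = (2 - x) * A x - 2 * log 2 + 2 * (log 2 - log (1 + x)) := by
  unfold Yf
  rw [show -(x * A x) - log (1 - x ^ 2) = -(x * A x) + (-log (1 - x ^ 2)) by ring, L0_eq h0 h1]
  ring

/-- The exact form of `A_f`. -/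
lemma Af_eq {x : ℝ} (h0 : 0 < x) (h1 : x < 1) :
    Af x = A x + (log 2 - log (1 + x)) - 2 * log 2 + x / (1 + x) +
      x / (1 - x ^ 2) * ((log 2 - log (1 + x)) / A x) := by
  have hx := abs_lt_one_of h0.le h1
  have hA := A_pos h0 h1
  have hs := one_sub_sq_pos hx
  have h2 : 0 < 1 - x := by linarith
  have h3 : 0 < 1 + x := by linarith
  unfold Af
  rw [Yf_eq h0.le h1, ent_eq_tail hx, kap_of_pos h0]
  obtain ⟨l, hl⟩ : ∃ l, l = log 2 - log (1 + x) := ⟨_, rfl⟩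
  rw [← hl]
  obtain ⟨w, hw⟩ : ∃ w, w = A x := ⟨_, rfl⟩
  rw [← hw] at hA ⊢
  have e : 1 - x ^ 2 = (1 - x) * (1 + x) := by ring
  rw [e]
  field_simp
  ring

/-- The exact identity for `E + β Y(r)`. -/
lemma Ee_add_Y {v r : ℝ} (hv0 : 0 ≤ v) (hv1 : v < 1) (hr0 : 0 < r) (hr1 : r < 1) :
    Ee v r + bet v r * Yf r =
      (1 + mean v r) / 2 * Yf ((1 - v) * r / (1 - v * r ^ 2)) +
        (1 - mean v r) / 2 * Yf ((1 + v) * r / (1 + v * r ^ 2)) := by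
  have hq0 : 0 < r ^ 2 := by positivity
  have hq1 : r ^ 2 < 1 := by nlinarith
  have hD : 0 < 1 - v ^ 2 * r ^ 2 := D0_pos_ee hv0 hv1.le hr0 hr1
  have hvq : v * r ^ 2 < 1 := by nlinarith
  have hvq0 : 0 ≤ v * r ^ 2 := by positivity
  have hp : 0 < 1 + v * r ^ 2 := by linarith
  have hn : 0 < 1 - v * r ^ 2 := by linarith
  have hrabs : |r| < 1 := abs_lt_one_of hr0.le hr1
  have hw0 : 0 ≤ v * r := by positivity
  have hw1 : v * r < 1 := by nlinarith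
  have hwabs : |v * r| < 1 := abs_lt_one_of hw0 hw1
  have hwabs' : |-(v * r)| < 1 := by rwa [abs_neg]
  have hq : 0 < 1 - r ^ 2 := by linarith
  -- the arguments
  have et1 : (1 + v) * r / (1 + v * r ^ 2) = (v * r + r) / (1 + v * r * r) := by
    have : 1 + v * r * r = 1 + v * r ^ 2 := by ring
    rw [this]
    ring
  have et2 : (1 - v) * r / (1 - v * r ^ 2) = (-(v * r) + r) / (1 + -(v * r) * r) := by
    have : 1 + -(v * r) * r = 1 - v * r ^ 2 := by ring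
    rw [this]
    ring
  have hA1 : A ((1 + v) * r / (1 + v * r ^ 2)) = A (v * r) + A r := by
    rw [et1]
    exact A_add_ee hwabs hrabs
  have hA2 : A ((1 - v) * r / (1 - v * r ^ 2)) = -A (v * r) + A r := by
    rw [et2, A_add_ee hwabs' hrabs, A_neg_ee]
  -- the logarithms
  have e1 : 1 - ((1 + v) * r / (1 + v * r ^ 2)) ^ 2 =
      (1 - r ^ 2) * (1 - v ^ 2 * r ^ 2) / (1 + v * r ^ 2) ^ 2 := by
    field_simp
    ring
  have e2 : 1 - ((1 - v) * r / (1 - v * r ^ 2)) ^ 2 =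
      (1 - r ^ 2) * (1 - v ^ 2 * r ^ 2) / (1 - v * r ^ 2) ^ 2 := by
    field_simp
    ring
  have hl1 : log (1 - ((1 + v) * r / (1 + v * r ^ 2)) ^ 2) =
      log (1 - r ^ 2) + log (1 - v ^ 2 * r ^ 2) - 2 * log (1 + v * r ^ 2) := by
    rw [e1, Real.log_div (by positivity) (by positivity), Real.log_mul hq.ne' hD.ne', Real.log_pow]
    norm_num
  have hl2 : log (1 - ((1 - v) * r / (1 - v * r ^ 2)) ^ 2) =
      log (1 - r ^ 2) + log (1 - v ^ 2 * r ^ 2) - 2 * log (1 - v * r ^ 2) := by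
    rw [e2, Real.log_div (by positivity) (by positivity), Real.log_mul hq.ne' hD.ne', Real.log_pow]
    norm_num
  have hl3 : log (1 + r ^ 2 * tau v r) =
      log (1 - v * r ^ 2) + log (1 + v * r ^ 2) - log (1 - v ^ 2 * r ^ 2) := by
    rw [one_add_q_tau hD.ne']
    have : 1 - v ^ 2 * (r ^ 2) ^ 2 = (1 - v * r ^ 2) * (1 + v * r ^ 2) := by ring
    rw [this, Real.log_div (by positivity) hD.ne', Real.log_mul hn.ne' hp.ne']
  have hl4 : A (v * r ^ 2) = (log (1 + v * r ^ 2) - log (1 - v * r ^ 2)) / 2 := rfl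
  -- coefficients
  have c1 : tau v r + bet v r = 1 := by
    have := bet_add_tau hD.ne'
    linarith
  have c2 : (1 + mean v r) / 2 * ((1 - v) * r / (1 - v * r ^ 2)) = bet v r * r / 2 := by
    unfold mean bet
    field_simp
    ring
  have c3 : (1 - mean v r) / 2 * ((1 + v) * r / (1 + v * r ^ 2)) = bet v r * r / 2 := by
    unfold mean bet
    field_simp
    ring
  unfold Ee
  unfold Yf
  rw [hA1, hA2, hl1, hl2, hl3, hl4]
  obtain ⟨t₁, ht₁⟩ : ∃ t₁, t₁ = (1 - v) * r / (1 - v * r ^ 2) := ⟨_, rfl⟩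
  obtain ⟨t₂, ht₂⟩ : ∃ t₂, t₂ = (1 + v) * r / (1 + v * r ^ 2) := ⟨_, rfl⟩
  rw [← ht₁] at c2 ⊢
  rw [← ht₂] at c3 ⊢
  linear_combination (-log (1 - r ^ 2)) * c1 + (A r - A (v * r)) * c2 + (A r + A (v * r)) * c3

/-- The first bound of the left side, in coordinates. -/
lemma lhs_le_tau {v r ξH AH zH : ℝ} (hv0 : 0 ≤ v) (hv1 : v < 1) (hr0 : 0 < r) (hr1 : r < 1)
    (hT : bet v r < Tm (mean v r))
    (hξ : 1 - 5 / 4 * lam v r + v ^ 2 * lam v r ^ 3 / 4 ≤ ξH) (hA : Af r ≤ AH)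
    (hz : (1 + r ^ 2 * tau v r) * (1 - mean v r ^ 2 / 4) ≤ zH) :
    (Tm (mean v r) - bet v r) * (Af r - Q1) + Q1 * (Tm (mean v r) * log (Tm (mean v r) / bet v r)) ≤
      tau v r * (ξH * (AH + Q1 * (zH - 1))) := by
  have hD : 0 < 1 - v ^ 2 * r ^ 2 := D0_pos_ee hv0 hv1.le hr0 hr1
  have hβ := bet_pos hv0 hv1 hr0 hr1
  have h1 := lhs_le_xi (a := Af r) hβ hT
  have e1 := Tm_sub_bet hD.ne'
  have e2 := Tm_eq_z hD.ne'
  obtain ⟨z, hzdef⟩ : ∃ z, z = (1 + r ^ 2 * tau v r) * (1 - mean v r ^ 2 / 4) := ⟨_, rfl⟩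
  rw [← hzdef] at hz e2
  have e3 : Tm (mean v r) / bet v r = z := by
    rw [e2]
    field_simp
  have hz1 : 1 < z := by
    rw [← e3, lt_div_iff₀ hβ]
    linarith
  rw [e3] at h1
  have hτ0 : 0 ≤ tau v r := by
    unfold tau
    have : 0 ≤ 1 - r ^ 2 := by nlinarith
    positivity
  obtain ⟨ξ, hξdef⟩ : ∃ ξ, ξ = 1 - 5 / 4 * lam v r + v ^ 2 * lam v r ^ 3 / 4 := ⟨_, rfl⟩
  rw [← hξdef] at hξ e1
  have hpos : 0 < tau v r * ξ := by
    rw [← e1]
    linarith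
  have hξ0 : 0 < ξ := by
    by_contra hc
    push Not at hc
    have := mul_nonpos_of_nonneg_of_nonpos hτ0 hc
    linarith
  have ha0 := Af_nonneg hr0.le hr1
  have hQ : (0 : ℝ) < Q1 := by
    unfold Q1
    norm_num
  have hX : 0 ≤ Af r + Q1 * (z - 1) := by
    have : 0 ≤ Q1 * (z - 1) := mul_nonneg hQ.le (by linarith)
    linarith
  have hXle : Af r + Q1 * (z - 1) ≤ AH + Q1 * (zH - 1) := by
    have : Q1 * (z - 1) ≤ Q1 * (zH - 1) := mul_le_mul_of_nonneg_left (by linarith) hQ.le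
    linarith
  have h2 : ξ * (Af r + Q1 * (z - 1)) ≤ ξH * (AH + Q1 * (zH - 1)) :=
    mul_le_mul hξ hXle hX (by linarith)
  have h3 := mul_le_mul_of_nonneg_left h2 hτ0
  rw [e1] at h1
  rw [e3, e1]
  calc _ ≤ tau v r * ξ * (Af r + Q1 * (z - 1)) := h1
    _ = tau v r * (ξ * (Af r + Q1 * (z - 1))) := by ring
    _ ≤ _ := h3

/-- `v > 0` when `β < T`. -/
lemma v_pos_of {v r : ℝ} (hv0 : 0 ≤ v) (hT : bet v r < Tm (mean v r)) : 0 < v := by
  rcases hv0.lt_or_eq with h | h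
  · exact h
  · exfalso
    rw [← h] at hT
    unfold bet mean Tm at hT
    norm_num at hT

/-- The form with `E` only. -/
lemma CI_of_A {v r ξH AH zH Eo : ℝ} (hv0 : 0 ≤ v) (hv1 : v < 1) (hr0 : 0 < r) (hr1 : r < 1)
    (hT : bet v r < Tm (mean v r))
    (hξ : 1 - 5 / 4 * lam v r + v ^ 2 * lam v r ^ 3 / 4 ≤ ξH) (hA : Af r ≤ AH)
    (hz : (1 + r ^ 2 * tau v r) * (1 - mean v r ^ 2 / 4) ≤ zH)
    (hE : tau v r * Eo ≤ Ee v r)
    (hc : ξH * (AH + Q1 * (zH - 1)) ≤ Eo) : CIat v r := by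
  have h1 := lhs_le_tau hv0 hv1 hr0 hr1 hT hξ hA hz
  have hτ0 : 0 ≤ tau v r := by
    unfold tau
    have : 0 ≤ 1 - r ^ 2 := by nlinarith
    have hD : 0 < 1 - v ^ 2 * r ^ 2 := D0_pos_ee hv0 hv1.le hr0 hr1
    positivity
  have h2 := mul_le_mul_of_nonneg_left hc hτ0
  left
  linarith

/-- The identity for `T̄`. -/
lemma Tb_eq_tau {v r : ℝ} (hv0 : 0 < v) (hv1 : v < 1) (hr0 : 0 < r) (hr1 : r < 1) :
    Tb (pa v r) (pb v r) = tau v r * ((1 - v ^ 2) / (2 * v ^ 2) *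
      ((1 - pa v r ^ 2 / 4) * ((1 - v * r) / (1 + v * r)) +
        (1 - pb v r ^ 2 / 4) * ((1 + v * r) / (1 - v * r)))) := by
  have h1 : 0 < 1 + v * r := by positivity
  have h2 : 0 < 1 - v * r := by nlinarith
  have e1 : 1 - pa v r ^ 2 = (1 - v ^ 2) * (1 - r ^ 2) / (1 + v * r) ^ 2 := by
    unfold pa
    field_simp
    ring
  have e2 : 1 - pb v r ^ 2 = (1 - v ^ 2) * (1 - r ^ 2) / (1 - v * r) ^ 2 := by
    unfold pb
    field_simp
    ring
  unfold Tb Tm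
  rw [e1, e2]
  obtain ⟨a, ha⟩ : ∃ a, a = 1 - pa v r ^ 2 / 4 := ⟨_, rfl⟩
  obtain ⟨b, hb⟩ : ∃ b, b = 1 - pb v r ^ 2 / 4 := ⟨_, rfl⟩
  rw [← ha, ← hb]
  have e3 : tau v r = v ^ 2 * (1 - r ^ 2) / ((1 - v * r) * (1 + v * r)) := by
    unfold tau
    congr 1
    ring
  rw [e3]
  field_simp

/-- The term with `κ`. -/
lemma kap_term {v r : ℝ} (hv0 : 0 < v) (hv1 : v < 1) (hr0 : 0 < r) (hr1 : r < 1) :
    kap v * (bet v r * ent r) = tau v r * ((v / A v - (1 - v ^ 2)) / v ^ 2 * (ent r / (1 - r ^ 2))) := by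
  have hvabs := abs_lt_one_of hv0.le hv1
  have hA := A_pos hv0 hv1
  have hs := one_sub_sq_pos hvabs
  have hq := one_sub_sq_pos (abs_lt_one_of hr0.le hr1)
  have hD : 0 < 1 - v ^ 2 * r ^ 2 := D0_pos_ee hv0.le hv1.le hr0 hr1
  rw [kap_of_pos hv0]
  unfold bet tau
  field_simp

/-- The form with the tangent at `s = v`. -/
lemma CI_of_V {v r ξH AH zH Eo TbL AfL KH HH : ℝ} (hv0 : 0 < v) (hv1 : v < 1) (hr0 : 0 < r) (hr1 : r < 1)
    (hT : bet v r < Tm (mean v r))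
    (hξ : 1 - 5 / 4 * lam v r + v ^ 2 * lam v r ^ 3 / 4 ≤ ξH) (hA : Af r ≤ AH)
    (hz : (1 + r ^ 2 * tau v r) * (1 - mean v r ^ 2 / 4) ≤ zH)
    (hE : tau v r * Eo ≤ Ee v r)
    (hTb : TbL ≤ (1 - v ^ 2) / (2 * v ^ 2) *
      ((1 - pa v r ^ 2 / 4) * ((1 - v * r) / (1 + v * r)) +
        (1 - pb v r ^ 2 / 4) * ((1 + v * r) / (1 - v * r))))
    (hTbL : 0 ≤ TbL) (hAf : AfL ≤ Af v) (hAfL : 0 ≤ AfL)
    (hK : (v / A v - (1 - v ^ 2)) / v ^ 2 ≤ KH) (hH : ent r / (1 - r ^ 2) ≤ HH)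
    (hc : ξH * (AH + Q1 * (zH - 1)) ≤ Eo + TbL * AfL - KH * HH) : CIat v r := by
  have h1 := lhs_le_tau hv0.le hv1 hr0 hr1 hT hξ hA hz
  have hvabs := abs_lt_one_of hv0.le hv1
  have hq := one_sub_sq_pos (abs_lt_one_of hr0.le hr1)
  have hD : 0 < 1 - v ^ 2 * r ^ 2 := D0_pos_ee hv0.le hv1.le hr0 hr1
  have hτ0 : 0 < tau v r := by
    unfold tau
    positivity
  have h2 := mul_le_mul_of_nonneg_left hc hτ0.le
  right; left
  rw [Tb_eq_tau hv0 hv1 hr0 hr1, kap_term hv0 hv1 hr0 hr1]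
  obtain ⟨W, hW⟩ : ∃ W, W = (1 - v ^ 2) / (2 * v ^ 2) *
      ((1 - pa v r ^ 2 / 4) * ((1 - v * r) / (1 + v * r)) +
        (1 - pb v r ^ 2 / 4) * ((1 + v * r) / (1 - v * r))) := ⟨_, rfl⟩
  rw [← hW] at hTb ⊢
  obtain ⟨K, hKd⟩ : ∃ K, K = (v / A v - (1 - v ^ 2)) / v ^ 2 := ⟨_, rfl⟩
  rw [← hKd] at hK ⊢
  obtain ⟨H, hHd⟩ : ∃ H, H = ent r / (1 - r ^ 2) := ⟨_, rfl⟩
  rw [← hHd] at hH ⊢
  have hK0 : 0 ≤ K := by
    rw [hKd]
    have hkn := kap_nonneg hv0.le hv1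
    rw [kap_of_pos hv0] at hkn
    have hA := A_pos hv0 hv1
    have hs := one_sub_sq_pos hvabs
    have e : v / ((1 - v ^ 2) * A v) - 1 = (v / A v - (1 - v ^ 2)) / (1 - v ^ 2) := by
      field_simp
    rw [e] at hkn
    have : 0 ≤ v / A v - (1 - v ^ 2) := by
      by_contra hc
      push Not at hc
      have := div_neg_of_neg_of_pos hc hs
      linarith
    positivity
  have hH0 : 0 ≤ H := by
    rw [hHd]
    have := ent_nonneg' hr0.le hr1.le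
    positivity
  have h3 : K * H ≤ KH * HH := mul_le_mul hK hH hH0 (le_trans hK0 hK)
  have h4 : TbL * AfL ≤ W * Af v := mul_le_mul hTb hAf hAfL (le_trans hTbL hTb)
  have h5 : tau v r * (K * H) ≤ tau v r * (KH * HH) := mul_le_mul_of_nonneg_left h3 hτ0.le
  have h6 : tau v r * (TbL * AfL) ≤ tau v r * (W * Af v) := mul_le_mul_of_nonneg_left h4 hτ0.le
  have e : Af v * (tau v r * W) = tau v r * (W * Af v) := by ring
  rw [e]
  have e2 : tau v r * (Eo + TbL * AfL - KH * HH) =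
      tau v r * Eo + tau v r * (TbL * AfL) - tau v r * (KH * HH) := by ring
  rw [e2] at h2
  linarith

/-- The form with the tangent at `s = r`. -/
lemma CI_of_R {v r gH AH zH YL ML : ℝ} (hv0 : 0 ≤ v) (hv1 : v < 1) (hr0 : 0 < r) (hr1 : r < 1)
    (hT : bet v r < Tm (mean v r))
    (hg : bet v r * r ^ 2 * (5 / 4 - 3 / 2 * mean v r ^ 2 - (bet v r * r) ^ 2 / 4) ≤ gH)
    (hgH : 0 ≤ gH) (hA : Af r ≤ AH)
    (hz : (1 + r ^ 2 * tau v r) * (1 - mean v r ^ 2 / 4) ≤ zH)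
    (hY : YL ≤ Yf ((1 + v) * r / (1 + v * r ^ 2))) (hYL : 0 ≤ YL)
    (hM : ML ≤ (1 + v * r ^ 2) / (2 * (1 + v))) 
    (hc : gH * AH + Q1 * ((zH - 1) ^ 2 / 2) ≤ ML * YL) : CIat v r := by
  have hD : 0 < 1 - v ^ 2 * r ^ 2 := D0_pos_ee hv0 hv1.le hr0 hr1
  have hβ := bet_pos hv0 hv1 hr0 hr1
  have ha0 := Af_nonneg hr0.le hr1
  obtain ⟨z, hzdef⟩ : ∃ z, z = (1 + r ^ 2 * tau v r) * (1 - mean v r ^ 2 / 4) := ⟨_, rfl⟩
  have e2 := Tm_eq_z hD.ne'
  rw [← hzdef] at hz e2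
  have e3 : Tm (mean v r) / bet v r = z := by
    rw [e2]
    field_simp
  have hz1 : 1 < z := by
    rw [← e3, lt_div_iff₀ hβ]
    linarith
  have h1 := lhs_le_om (a := Af r) hβ hT
  rw [e3] at h1
  right; right
  -- the right side
  have hpa : pa v r = mean v r + bet v r * r := by
    have h3 := pa_add_pb hv0 hv1 hr0 hr1
    have h4 := pa_sub_pb hv0 hv1 hr0 hr1
    linarith
  have hpb : pb v r = mean v r - bet v r * r := by
    have h3 := pa_add_pb hv0 hv1 hr0 hr1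
    have h4 := pa_sub_pb hv0 hv1 hr0 hr1
    linarith
  have hTT := Tm_sub_Tb (mean v r) (bet v r * r)
  rw [← hpa, ← hpb] at hTT
  have hAfdef : kap r * ent r = Af r - Yf r := by
    unfold Af
    ring
  have hkt : kap r * (bet v r * ent r) = bet v r * (Af r - Yf r) := by
    rw [← hAfdef]
    ring
  rw [hkt]
  have hid := Ee_add_Y hv0 hv1 hr0 hr1
  -- the terms with `Y`
  have hm := abs_lt.mp (abs_lt_one_mean hv0 hv1 hr0 hr1)
  have hp : 0 < 1 + v * r ^ 2 := by positivity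
  have hq : 0 < 1 - r ^ 2 := one_sub_sq_pos (abs_lt_one_of hr0.le hr1)
  have hn : 0 < 1 - v * r ^ 2 := by
    have h5 : 0 ≤ (1 - v) * r ^ 2 := mul_nonneg (by linarith) (by positivity)
    have e : 1 - v * r ^ 2 = (1 - r ^ 2) + (1 - v) * r ^ 2 := by ring
    rw [e]
    linarith
  have ht10 : 0 ≤ (1 - v) * r / (1 - v * r ^ 2) := by
    apply div_nonneg _ hn.le
    exact mul_nonneg (by linarith) hr0.le
  have ht11 : (1 - v) * r / (1 - v * r ^ 2) < 1 := by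
    rw [div_lt_one hn]
    have h5 : 0 < (1 - r) * (1 + v * r) := mul_pos (by linarith) (by positivity)
    have e : 1 - v * r ^ 2 - (1 - v) * r = (1 - r) * (1 + v * r) := by ring
    linarith
  have hY1 := Yf_nonneg ht10 ht11
  have hMe : (1 - mean v r) / 2 = bet v r * ((1 + v * r ^ 2) / (2 * (1 + v))) := by
    unfold mean bet
    field_simp
    ring
  have hM0 : 0 ≤ (1 + mean v r) / 2 * Yf ((1 - v) * r / (1 - v * r ^ 2)) :=
    mul_nonneg (by linarith [hm.1]) hY1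
  have hMM : 0 ≤ (1 + v * r ^ 2) / (2 * (1 + v)) := by positivity
  -- assemble
  have hgA : bet v r * r ^ 2 * (5 / 4 - 3 / 2 * mean v r ^ 2 - (bet v r * r) ^ 2 / 4) * Af r ≤ gH * AH :=
    mul_le_mul hg hA ha0 hgH
  have hQ : (0 : ℝ) < Q1 := by
    unfold Q1
    norm_num
  have hzz : (z - 1) ^ 2 / 2 ≤ (zH - 1) ^ 2 / 2 := by
    have : (z - 1) ^ 2 ≤ (zH - 1) ^ 2 := by
      apply pow_le_pow_left₀ (by linarith) (by linarith)
    linarith
  have hzQ := mul_le_mul_of_nonneg_left hzz hQ.le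
  have hYY : ML * YL ≤ (1 + v * r ^ 2) / (2 * (1 + v)) * Yf ((1 + v) * r / (1 + v * r ^ 2)) :=
    mul_le_mul hM hY hYL hMM
  have hfin : bet v r * r ^ 2 * (5 / 4 - 3 / 2 * mean v r ^ 2 - (bet v r * r) ^ 2 / 4) * Af r +
      Q1 * ((z - 1) ^ 2 / 2) ≤
      (1 + v * r ^ 2) / (2 * (1 + v)) * Yf ((1 + v) * r / (1 + v * r ^ 2)) := by
    linarith
  have hfin2 := mul_le_mul_of_nonneg_left hfin hβ.le
  have hM2 : (1 - mean v r) / 2 * Yf ((1 + v) * r / (1 + v * r ^ 2)) =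
      bet v r * ((1 + v * r ^ 2) / (2 * (1 + v)) * Yf ((1 + v) * r / (1 + v * r ^ 2))) := by
    rw [hMe]
    ring
  have hTd : Tm (mean v r) - Tb (pa v r) (pb v r) =
      bet v r * (bet v r * r ^ 2 * (5 / 4 - 3 / 2 * mean v r ^ 2 - (bet v r * r) ^ 2 / 4)) := by
    rw [hTT]
    ring
  rw [e3]
  have hk : Af r * (Tm (mean v r) - Tb (pa v r) (pb v r)) = bet v r * (bet v r * r ^ 2 *
      (5 / 4 - 3 / 2 * mean v r ^ 2 - (bet v r * r) ^ 2 / 4) * Af r) := by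
    rw [hTd]
    ring
  have e5 : bet v r * (bet v r * r ^ 2 * (5 / 4 - 3 / 2 * mean v r ^ 2 - (bet v r * r) ^ 2 / 4) * Af r +
      Q1 * ((z - 1) ^ 2 / 2)) = bet v r * (bet v r * r ^ 2 *
        (5 / 4 - 3 / 2 * mean v r ^ 2 - (bet v r * r) ^ 2 / 4) * Af r) +
        Q1 * (bet v r * ((z - 1) ^ 2 / 2)) := by ring
  rw [e5, ← hk, ← hM2] at hfin2
  obtain ⟨Tbar, hTbar⟩ : ∃ Tbar, Tbar = Tb (pa v r) (pb v r) := ⟨_, rfl⟩
  rw [← hTbar] at hfin2 ⊢
  obtain ⟨Yt₁, hYt₁⟩ : ∃ Yt₁, Yt₁ = (1 + mean v r) / 2 * Yf ((1 - v) * r / (1 - v * r ^ 2)) := ⟨_, rfl⟩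
  obtain ⟨Yt₂, hYt₂⟩ : ∃ Yt₂, Yt₂ = (1 - mean v r) / 2 * Yf ((1 + v) * r / (1 + v * r ^ 2)) := ⟨_, rfl⟩
  rw [← hYt₁] at hM0 hid
  rw [← hYt₂] at hfin2 hid
  linarith

end Vale.Agent.CK
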