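import Vale.Agent.CK.Key4Tree

/-!
`CIat` for `r ≤ 0.9999997`: the kernel check of the tree of boxes.
-/

namespace Vale.Agent.CK

set_option maxRecDepth 100000 in
/-- The kernel check of the tree. -/
theorem treeAll_ok : chk treeAll 0 1 0 (9999997 / 10000000) = true := by decide +kernel

/-- `CIat` for `r ≤ 0.9999997`. -/
theorem CI_box {v r : ℝ} (hv0 : 0 ≤ v) (hv1 : v < 1) (hr0 : 0 < r) (hr : r ≤ 9999997 / 10000000)
    (hT : bet v r < Tm (mean v r)) : CIat v r := by
  refine chk_sound treeAll 0 1 0 (9999997 / 10000000) treeAll_ok v r ?_ ?_ hv1 ?_ ?_ hr0 hT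
  · simpa using hv0
  · have : v ≤ 1 := hv1.le
    simpa using this
  · simpa using hr0.le
  · have e : (((9999997 / 10000000 : ℚ)) : ℝ) = 9999997 / 10000000 := by norm_num
    rw [e]
    exact hr

end Vale.Agent.CK
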