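import Vale.Agent.CK.Key4Box

/-!
The rational box check of `CIat`.
-/

open Real Set

namespace Vale.Agent.CK

open Vale.Agent.P322

/-- The hypotheses on a box. -/
structure BoxH (v₁ v₂ r₁ r₂ v r : ℝ) : Prop where
  h1 : 0 ≤ v₁
  h2 : v₁ ≤ v
  h3 : v ≤ v₂
  h4 : v₂ ≤ 1
  h5 : v < 1
  h6 : 0 ≤ r₁
  h7 : r₁ ≤ r
  h8 : r ≤ r₂
  h9 : r₂ < 1
  h10 : 0 < r

section bounds

variable {v₁ v₂ r₁ r₂ v r : ℝ}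

lemma BoxH.v0 (h : BoxH v₁ v₂ r₁ r₂ v r) : 0 ≤ v := le_trans h.h1 h.h2
lemma BoxH.r1 (h : BoxH v₁ v₂ r₁ r₂ v r) : r < 1 := lt_of_le_of_lt h.h8 h.h9
lemma BoxH.sqv₁ (h : BoxH v₁ v₂ r₁ r₂ v r) : v₁ ^ 2 ≤ v ^ 2 := pow_le_pow_left₀ h.h1 h.h2 2
lemma BoxH.sqv₂ (h : BoxH v₁ v₂ r₁ r₂ v r) : v ^ 2 ≤ v₂ ^ 2 := pow_le_pow_left₀ h.v0 h.h3 2
lemma BoxH.sqr₁ (h : BoxH v₁ v₂ r₁ r₂ v r) : r₁ ^ 2 ≤ r ^ 2 := pow_le_pow_left₀ h.h6 h.h7 2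
lemma BoxH.sqr₂ (h : BoxH v₁ v₂ r₁ r₂ v r) : r ^ 2 ≤ r₂ ^ 2 := pow_le_pow_left₀ h.h10.le h.h8 2
lemma BoxH.v₂0 (h : BoxH v₁ v₂ r₁ r₂ v r) : 0 ≤ v₂ := le_trans h.v0 h.h3
lemma BoxH.r₂0 (h : BoxH v₁ v₂ r₁ r₂ v r) : 0 < r₂ := lt_of_lt_of_le h.h10 h.h8
lemma BoxH.sqv₂1 (h : BoxH v₁ v₂ r₁ r₂ v r) : v₂ ^ 2 ≤ 1 := by
  have := pow_le_pow_left₀ h.v₂0 h.h4 2
  simpa using this
lemma BoxH.sqr₂1 (h : BoxH v₁ v₂ r₁ r₂ v r) : r₂ ^ 2 < 1 := by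
  have := pow_lt_pow_left₀ h.h9 h.r₂0.le (n := 2) (by norm_num)
  simpa using this

lemma lamL_le (h : BoxH v₁ v₂ r₁ r₂ v r) :
    (1 - r₂ ^ 2) / (1 - v₁ ^ 2 * r₂ ^ 2) ≤ lam v r :=
  gl_mono h.sqv₁ (le_trans h.sqv₂ h.sqv₂1) (sq_nonneg r) h.sqr₂ h.sqr₂1

lemma le_lamH (h : BoxH v₁ v₂ r₁ r₂ v r) :
    lam v r ≤ (1 - r₁ ^ 2) / (1 - v₂ ^ 2 * r₁ ^ 2) :=
  gl_mono h.sqv₂ h.sqv₂1 (sq_nonneg r₁) h.sqr₁ (lt_of_le_of_lt h.sqr₂ h.sqr₂1)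

lemma BoxH.D (h : BoxH v₁ v₂ r₁ r₂ v r) : 0 < 1 - v ^ 2 * r ^ 2 :=
  D0_pos_ee h.v0 h.h5.le h.h10 h.r1

lemma lamL_nonneg (h : BoxH v₁ v₂ r₁ r₂ v r) : 0 ≤ (1 - r₂ ^ 2) / (1 - v₁ ^ 2 * r₂ ^ 2) := by
  have h1 := h.sqr₂1
  have h2 : v₁ ^ 2 ≤ 1 := le_trans h.sqv₁ (le_trans h.sqv₂ h.sqv₂1)
  have h3 : 0 < 1 - v₁ ^ 2 * r₂ ^ 2 := by nlinarith [sq_nonneg r₂, sq_nonneg v₁]
  exact div_nonneg (by linarith) h3.le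

lemma lam_nonneg (h : BoxH v₁ v₂ r₁ r₂ v r) : 0 ≤ lam v r :=
  le_trans (lamL_nonneg h) (lamL_le h)

lemma xi_le (h : BoxH v₁ v₂ r₁ r₂ v r) {lL lH : ℝ} (hL : lL ≤ lam v r) (hH : lam v r ≤ lH) :
    1 - 5 / 4 * lam v r + v ^ 2 * lam v r ^ 3 / 4 ≤ 1 - 5 / 4 * lL + v₂ ^ 2 * lH ^ 3 / 4 := by
  have h0 := lam_nonneg h
  have h1 : lam v r ^ 3 ≤ lH ^ 3 := pow_le_pow_left₀ h0 hH 3
  have h2 : v ^ 2 * lam v r ^ 3 ≤ v₂ ^ 2 * lH ^ 3 :=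
    mul_le_mul h.sqv₂ h1 (by positivity) (sq_nonneg v₂)
  linarith

lemma z_le (h : BoxH v₁ v₂ r₁ r₂ v r) {lL lH : ℝ} (hL : lL ≤ lam v r) (hH : lam v r ≤ lH)
    (hL0 : 0 ≤ lL) :
    (1 + r ^ 2 * tau v r) * (1 - mean v r ^ 2 / 4) ≤
      (1 + r₂ ^ 2 * (v₂ ^ 2 * lH)) * (1 - v₁ ^ 2 * lL ^ 2 / 4) := by
  have h0 := lam_nonneg h
  have hm := abs_lt.mp (abs_lt_one_mean h.v0 h.h5 h.h10 h.r1)
  have hm2 : mean v r ^ 2 < 1 := by nlinarith [hm.1, hm.2]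
  rw [tau_eq_lam]
  have e : mean v r ^ 2 = v ^ 2 * lam v r ^ 2 := by
    rw [mean_eq_lam]
    ring
  have h1 : v₁ ^ 2 * lL ^ 2 ≤ mean v r ^ 2 := by
    rw [e]
    exact mul_le_mul h.sqv₁ (pow_le_pow_left₀ hL0 hL 2) (sq_nonneg _) (sq_nonneg _)
  have h2 : v ^ 2 * lam v r ≤ v₂ ^ 2 * lH := mul_le_mul h.sqv₂ hH h0 (sq_nonneg _)
  have h3 : r ^ 2 * (v ^ 2 * lam v r) ≤ r₂ ^ 2 * (v₂ ^ 2 * lH) :=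
    mul_le_mul h.sqr₂ h2 (by positivity) (sq_nonneg _)
  have h4 : 0 ≤ 1 + r ^ 2 * (v ^ 2 * lam v r) := by positivity
  have h5 : 0 ≤ 1 - mean v r ^ 2 / 4 := by linarith
  exact mul_le_mul (by linarith) (by linarith) h5 (le_trans h4 (by linarith))

end bounds

/-- `lam` bounds, rational. -/
def lamLQ (v₁ r₂ : ℚ) : ℚ := (1 - r₂ ^ 2) / (1 - v₁ ^ 2 * r₂ ^ 2)
def lamHQ (v₂ r₁ : ℚ) : ℚ := (1 - r₁ ^ 2) / (1 - v₂ ^ 2 * r₁ ^ 2)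
def xiHQ (lL lH v₂ : ℚ) : ℚ := 1 - 5 / 4 * lL + v₂ ^ 2 * lH ^ 3 / 4
def zHQ (lL lH v₁ v₂ r₂ : ℚ) : ℚ := (1 + r₂ ^ 2 * (v₂ ^ 2 * lH)) * (1 - v₁ ^ 2 * lL ^ 2 / 4)

/-- The upper bound for `A_f` at a knot. -/
def AfHQ (x : ℚ) : ℚ :=
  wHi x + lHi x - 2 * ln2L + x / (1 + x) + x / (1 - x ^ 2) * (lHi x / wLo x)

/-- The lower bound for `A_f` at a knot. -/
def AfLQ (x : ℚ) : ℚ :=
  wLo x + lLo x - 2 * ln2H + x / (1 + x) + x / (1 - x ^ 2) * (lLo x / wHi x)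

/-- The lower bound for `Y` at a knot. -/
def YLQ (x : ℚ) : ℚ := (2 - x) * wLo x - 2 * ln2H + 2 * lLo x

/-- Side conditions at a knot. -/
def bKnotOK (x : ℚ) : Bool :=
  decide (0 < x) && decide (x < 1) && decide (0 < wLo x) && decide (0 ≤ lLo x)

lemma bKnot_props {x : ℚ} (h : bKnotOK x = true) :
    (0 : ℝ) < x ∧ (x : ℝ) < 1 ∧ (0 : ℝ) < wLo x ∧ (0 : ℝ) ≤ lLo x := by
  unfold bKnotOK at h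
  simp only [Bool.and_eq_true, decide_eq_true_eq] at h
  exact ⟨by exact_mod_cast h.1.1.1, by exact_mod_cast h.1.1.2, by exact_mod_cast h.1.2,
    by exact_mod_cast h.2⟩

lemma Af_le_Q {x : ℚ} (h : bKnotOK x = true) : Af (x : ℝ) ≤ ((AfHQ x : ℚ) : ℝ) := by
  obtain ⟨h0, h1, h2, h3⟩ := bKnot_props h
  have hq0 : (0 : ℚ) ≤ x := by exact_mod_cast h0.le
  have hq1 : x < 1 := by exact_mod_cast h1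
  have hw1 := wLo_le hq0 hq1
  have hw2 := le_wHi hq0 hq1
  have hl1 := lLo_le hq0 hq1
  have hl2 := le_lHi hq0 hq1
  have hA := A_pos h0 h1
  have hs := one_sub_sq_pos (abs_lt_one_of h0.le h1)
  rw [Af_eq h0 h1]
  unfold AfHQ
  push_cast
  have hr : (log 2 - log (1 + (x : ℝ))) / A (x : ℝ) ≤ ((lHi x : ℚ) : ℝ) / ((wLo x : ℚ) : ℝ) :=
    div_le_div₀ (le_trans (le_trans h3 hl1) hl2) hl2 h2 hw1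
  have hc : 0 ≤ (x : ℝ) / (1 - (x : ℝ) ^ 2) := by positivity
  have hm := mul_le_mul_of_nonneg_left hr hc
  have hl := ln2L_le
  linarith

lemma Q_le_Af {x : ℚ} (h : bKnotOK x = true) : ((AfLQ x : ℚ) : ℝ) ≤ Af (x : ℝ) := by
  obtain ⟨h0, h1, h2, h3⟩ := bKnot_props h
  have hq0 : (0 : ℚ) ≤ x := by exact_mod_cast h0.le
  have hq1 : x < 1 := by exact_mod_cast h1
  have hw1 := wLo_le hq0 hq1
  have hw2 := le_wHi hq0 hq1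
  have hl1 := lLo_le hq0 hq1
  have hl2 := le_lHi hq0 hq1
  have hA := A_pos h0 h1
  have hs := one_sub_sq_pos (abs_lt_one_of h0.le h1)
  rw [Af_eq h0 h1]
  unfold AfLQ
  push_cast
  have hr : ((lLo x : ℚ) : ℝ) / ((wHi x : ℚ) : ℝ) ≤ (log 2 - log (1 + (x : ℝ))) / A (x : ℝ) :=
    div_le_div₀ (le_trans h3 hl1) hl1 hA hw2
  have hc : 0 ≤ (x : ℝ) / (1 - (x : ℝ) ^ 2) := by positivity
  have hm := mul_le_mul_of_nonneg_left hr hc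
  have hl := le_ln2H
  linarith

lemma Q_le_Y {x : ℚ} (h0 : 0 ≤ x) (h1 : x < 1) : ((YLQ x : ℚ) : ℝ) ≤ Yf (x : ℝ) := by
  have hx0 : (0 : ℝ) ≤ x := by exact_mod_cast h0
  have hx1 : (x : ℝ) < 1 := by exact_mod_cast h1
  have hw1 := wLo_le h0 h1
  have hl1 := lLo_le h0 h1
  rw [Yf_eq hx0 hx1]
  unfold YLQ
  push_cast
  have hm := mul_le_mul_of_nonneg_left hw1 (show (0 : ℝ) ≤ 2 - x by linarith)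
  have hl := le_ln2H
  linarith

/-- The constant `c` in the lower bound of `E`. -/
def cQ (z t₀ : ℚ) : ℚ := 2 * (wHi z / z) - 1 - (6 + 3 * t₀) / (6 + 6 * t₀ + t₀ ^ 2)

/-- The lower bound of `-log(1-q₁) - q₁`. -/
def LqQ (r₁ : ℚ) : ℚ := 2 * wLo r₁ - 2 * ln2H + 2 * lLo r₁ - r₁ ^ 2

lemma Lq_le {r₁ : ℚ} (h0 : 0 ≤ r₁) (h1 : r₁ < 1) :
    ((LqQ r₁ : ℚ) : ℝ) ≤ -log (1 - (r₁ : ℝ) ^ 2) - (r₁ : ℝ) ^ 2 := by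
  have hx0 : (0 : ℝ) ≤ r₁ := by exact_mod_cast h0
  have hx1 : (r₁ : ℝ) < 1 := by exact_mod_cast h1
  rw [L0_eq hx0 hx1]
  have hw1 := wLo_le h0 h1
  have hl1 := lLo_le h0 h1
  have hl := le_ln2H
  unfold LqQ
  push_cast
  linarith

/-- The lower bound of `E/τ`, rational. -/
def EoQ (v₂ r₁ r₂ lH : ℚ) : ℚ :=
  LqQ r₁ - r₂ ^ 2 * cQ (v₂ * r₂ ^ 2) (r₂ ^ 2 * (v₂ ^ 2 * lH))

/-- Side conditions of `EoQ`. -/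
def EoOK (v₂ r₂ lH : ℚ) : Bool :=
  decide (0 < v₂ * r₂ ^ 2) && decide (v₂ * r₂ ^ 2 < 1) &&
    decide (0 ≤ cQ (v₂ * r₂ ^ 2) (r₂ ^ 2 * (v₂ ^ 2 * lH)))

lemma Ee_box {v₁ v₂ r₁ r₂ : ℚ} {v r : ℝ} (h : BoxH v₁ v₂ r₁ r₂ v r) (hv : 0 < v)
    (hok : EoOK v₂ r₂ (lamHQ v₂ r₁) = true) (hr₁ : 0 ≤ r₁) (hr₁' : r₁ < 1) :
    tau v r * ((EoQ v₂ r₁ r₂ (lamHQ v₂ r₁) : ℚ) : ℝ) ≤ Ee v r := by
  unfold EoOK at hok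
  simp only [Bool.and_eq_true, decide_eq_true_eq] at hok
  obtain ⟨⟨hz0, hz1⟩, hc0⟩ := hok
  have hz0' : (0 : ℝ) < (v₂ : ℝ) * (r₂ : ℝ) ^ 2 := by exact_mod_cast hz0
  have hz1' : (v₂ : ℝ) * (r₂ : ℝ) ^ 2 < 1 := by exact_mod_cast hz1
  have hc0' : (0 : ℝ) ≤ ((cQ (v₂ * r₂ ^ 2) (r₂ ^ 2 * (v₂ ^ 2 * lamHQ v₂ r₁)) : ℚ) : ℝ) := by
    exact_mod_cast hc0
  have hlamH : lam v r ≤ ((lamHQ v₂ r₁ : ℚ) : ℝ) := by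
    have := le_lamH h
    unfold lamHQ
    push_cast
    exact this
  have hz : v * r ^ 2 ≤ (v₂ : ℝ) * (r₂ : ℝ) ^ 2 :=
    mul_le_mul h.h3 h.sqr₂ (sq_nonneg _) h.v₂0
  have ht : r ^ 2 * tau v r ≤ (r₂ : ℝ) ^ 2 * ((v₂ : ℝ) ^ 2 * ((lamHQ v₂ r₁ : ℚ) : ℝ)) := by
    rw [tau_eq_lam]
    have h0 := lam_nonneg h
    have h2 : v ^ 2 * lam v r ≤ (v₂ : ℝ) ^ 2 * ((lamHQ v₂ r₁ : ℚ) : ℝ) :=
      mul_le_mul h.sqv₂ hlamH h0 (sq_nonneg _)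
    exact mul_le_mul h.sqr₂ h2 (by positivity) (sq_nonneg _)
  have hzq0 : (0 : ℚ) ≤ v₂ * r₂ ^ 2 := hz0.le
  have hw := le_wHi hzq0 hz1
  have hc : 2 * (A ((v₂ : ℝ) * (r₂ : ℝ) ^ 2) / ((v₂ : ℝ) * (r₂ : ℝ) ^ 2)) - 1 -
      (6 + 3 * ((r₂ : ℝ) ^ 2 * ((v₂ : ℝ) ^ 2 * ((lamHQ v₂ r₁ : ℚ) : ℝ)))) /
        (6 + 6 * ((r₂ : ℝ) ^ 2 * ((v₂ : ℝ) ^ 2 * ((lamHQ v₂ r₁ : ℚ) : ℝ))) +
          ((r₂ : ℝ) ^ 2 * ((v₂ : ℝ) ^ 2 * ((lamHQ v₂ r₁ : ℚ) : ℝ))) ^ 2) ≤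
      ((cQ (v₂ * r₂ ^ 2) (r₂ ^ 2 * (v₂ ^ 2 * lamHQ v₂ r₁)) : ℚ) : ℝ) := by
    unfold cQ
    push_cast at hw ⊢
    have : A ((v₂ : ℝ) * (r₂ : ℝ) ^ 2) / ((v₂ : ℝ) * (r₂ : ℝ) ^ 2) ≤
        ((wHi (v₂ * r₂ ^ 2) : ℚ) : ℝ) / ((v₂ : ℝ) * (r₂ : ℝ) ^ 2) :=
      div_le_div_of_nonneg_right hw hz0'.le
    linarith
  have hLq := Lq_le hr₁ hr₁'
  have hL2 : ((LqQ r₁ : ℚ) : ℝ) ≤ -log (1 - r ^ 2) - r ^ 2 :=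
    le_trans hLq (L0_sub_mono h.sqr₁ (lt_of_le_of_lt h.sqr₂ h.sqr₂1) (sq_nonneg _))
  have := Ee_lower hv h.h5 h.h10 h.r1 hz hz1' ht hc hc0' hL2 h.sqr₂
  unfold EoQ
  push_cast at this ⊢
  exact this

/-- The side conditions of a box. -/
def boxOK (v₁ v₂ r₁ r₂ : ℚ) : Bool :=
  decide (0 ≤ v₁) && decide (v₂ ≤ 1) && decide (0 ≤ r₁) && decide (r₂ < 1)

lemma box_of {v₁ v₂ r₁ r₂ : ℚ} (h : boxOK v₁ v₂ r₁ r₂ = true) :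
    0 ≤ v₁ ∧ v₂ ≤ 1 ∧ 0 ≤ r₁ ∧ r₂ < 1 := by
  unfold boxOK at h
  simp only [Bool.and_eq_true, decide_eq_true_eq] at h
  exact ⟨h.1.1.1, h.1.1.2, h.1.2, h.2⟩

section forms

variable {v₁ v₂ r₁ r₂ : ℚ} {v r : ℝ}

lemma box_of_r₂ (h : BoxH v₁ v₂ r₁ r₂ v r) : 0 ≤ r₂ ∧ r₂ < 1 := by
  have h1 := h.r₂0
  have h2 := h.h9
  exact ⟨by exact_mod_cast h1.le, by exact_mod_cast h2⟩

lemma lamL_cast (h : BoxH v₁ v₂ r₁ r₂ v r) : ((lamLQ v₁ r₂ : ℚ) : ℝ) ≤ lam v r := by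
  have := lamL_le h
  unfold lamLQ
  push_cast
  exact this

lemma lamH_cast (h : BoxH v₁ v₂ r₁ r₂ v r) : lam v r ≤ ((lamHQ v₂ r₁ : ℚ) : ℝ) := by
  have := le_lamH h
  unfold lamHQ
  push_cast
  exact this

lemma lamL0_cast (h : BoxH v₁ v₂ r₁ r₂ v r) : (0 : ℝ) ≤ ((lamLQ v₁ r₂ : ℚ) : ℝ) := by
  have := lamL_nonneg h
  unfold lamLQ
  push_cast
  exact this

lemma xi_cast (h : BoxH v₁ v₂ r₁ r₂ v r) :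
    1 - 5 / 4 * lam v r + v ^ 2 * lam v r ^ 3 / 4 ≤
      ((xiHQ (lamLQ v₁ r₂) (lamHQ v₂ r₁) v₂ : ℚ) : ℝ) := by
  have := xi_le h (lamL_cast h) (lamH_cast h)
  unfold xiHQ
  push_cast at this ⊢
  exact this

lemma z_cast (h : BoxH v₁ v₂ r₁ r₂ v r) :
    (1 + r ^ 2 * tau v r) * (1 - mean v r ^ 2 / 4) ≤
      ((zHQ (lamLQ v₁ r₂) (lamHQ v₂ r₁) v₁ v₂ r₂ : ℚ) : ℝ) := by
  have := z_le h (lamL_cast h) (lamH_cast h) (lamL0_cast h)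
  unfold zHQ
  push_cast at this ⊢
  exact this

lemma Af_box (h : BoxH v₁ v₂ r₁ r₂ v r) (hk : bKnotOK r₂ = true) : Af r ≤ ((AfHQ r₂ : ℚ) : ℝ) :=
  le_trans (Af_mono h.h10.le h.h8 h.h9) (Af_le_Q hk)

/-- The form `T`: the case `T ≤ β`. -/
def formT (v₁ v₂ r₁ r₂ : ℚ) : Bool :=
  decide (zHQ (lamLQ v₁ r₂) (lamHQ v₂ r₁) v₁ v₂ r₂ ≤ 1) ||
    decide (xiHQ (lamLQ v₁ r₂) (lamHQ v₂ r₁) v₂ ≤ 0)

lemma formT_sound (h : BoxH v₁ v₂ r₁ r₂ v r) (hf : formT v₁ v₂ r₁ r₂ = true)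
    (hT : bet v r < Tm (mean v r)) : False := by
  have hβ := bet_pos h.v0 h.h5 h.h10 h.r1
  have hD := h.D
  unfold formT at hf
  simp only [Bool.or_eq_true, decide_eq_true_eq] at hf
  rcases hf with hf | hf
  · have h1 := z_cast h
    have h2 : ((zHQ (lamLQ v₁ r₂) (lamHQ v₂ r₁) v₁ v₂ r₂ : ℚ) : ℝ) ≤ 1 := by exact_mod_cast hf
    have e := Tm_eq_z hD.ne'
    have h3 : Tm (mean v r) ≤ bet v r := by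
      rw [e]
      have := mul_le_mul_of_nonneg_left (le_trans h1 h2) hβ.le
      linarith
    linarith
  · have h1 := xi_cast h
    have h2 : ((xiHQ (lamLQ v₁ r₂) (lamHQ v₂ r₁) v₂ : ℚ) : ℝ) ≤ 0 := by exact_mod_cast hf
    have e := Tm_sub_bet hD.ne'
    have hτ0 : 0 ≤ tau v r := by
      unfold tau
      have : 0 ≤ 1 - r ^ 2 := by nlinarith [h.r1, h.h10]
      positivity
    have := mul_nonpos_of_nonneg_of_nonpos hτ0 (le_trans h1 h2)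
    linarith

/-- The left side in the forms `A`, `V`. -/
def lhsQ (v₁ v₂ r₁ r₂ : ℚ) : ℚ :=
  xiHQ (lamLQ v₁ r₂) (lamHQ v₂ r₁) v₂ *
    (AfHQ r₂ + 645 / 1000 * (zHQ (lamLQ v₁ r₂) (lamHQ v₂ r₁) v₁ v₂ r₂ - 1))

lemma Q1_eq : (Q1 : ℝ) = ((645 / 1000 : ℚ) : ℝ) := by
  unfold Q1
  norm_num

/-- The form `A`. -/
def formA (v₁ v₂ r₁ r₂ : ℚ) : Bool :=
  bKnotOK r₂ && EoOK v₂ r₂ (lamHQ v₂ r₁) &&
    decide (lhsQ v₁ v₂ r₁ r₂ ≤ EoQ v₂ r₁ r₂ (lamHQ v₂ r₁))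

lemma formA_sound (h : BoxH v₁ v₂ r₁ r₂ v r) (hb : 0 ≤ r₁ ∧ r₁ < 1) (hf : formA v₁ v₂ r₁ r₂ = true)
    (hT : bet v r < Tm (mean v r)) : CIat v r := by
  unfold formA at hf
  simp only [Bool.and_eq_true, decide_eq_true_eq] at hf
  obtain ⟨⟨hk, hE⟩, hc⟩ := hf
  have hv := v_pos_of h.v0 hT
  have hc' : ((lhsQ v₁ v₂ r₁ r₂ : ℚ) : ℝ) ≤ ((EoQ v₂ r₁ r₂ (lamHQ v₂ r₁) : ℚ) : ℝ) := by
    exact_mod_cast hc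
  refine CI_of_A h.v0 h.h5 h.h10 h.r1 hT (xi_cast h) (Af_box h hk) (z_cast h)
    (Ee_box h hv hE hb.1 hb.2) ?_
  unfold lhsQ at hc'
  rw [Q1_eq]
  push_cast at hc' ⊢
  exact hc'

/-- `b²` bound. -/
def bsqQ (b₁ b₂ : ℚ) : ℚ := if b₁ ^ 2 ≤ b₂ ^ 2 then b₂ ^ 2 else b₁ ^ 2

lemma sq_le_bsq {b : ℝ} {b₁ b₂ : ℚ} (h1 : (b₁ : ℝ) ≤ b) (h2 : b ≤ (b₂ : ℝ)) :
    b ^ 2 ≤ ((bsqQ b₁ b₂ : ℚ) : ℝ) := by
  have hA : b ^ 2 ≤ (b₁ : ℝ) ^ 2 ∨ b ^ 2 ≤ (b₂ : ℝ) ^ 2 := by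
    rcases le_total 0 b with hb | hb
    · right
      exact pow_le_pow_left₀ hb h2 2
    · left
      nlinarith
  unfold bsqQ
  split_ifs with hc
  · have hc' : (b₁ : ℝ) ^ 2 ≤ (b₂ : ℝ) ^ 2 := by exact_mod_cast hc
    push_cast
    rcases hA with hA | hA <;> linarith
  · have hc' : (b₂ : ℝ) ^ 2 ≤ (b₁ : ℝ) ^ 2 := by
      have : b₂ ^ 2 ≤ b₁ ^ 2 := (not_le.mp hc).le
      exact_mod_cast this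
    push_cast
    rcases hA with hA | hA <;> linarith

/-- The bracket in the lower bound for `T̄/τ`. -/
def TbXQ (v₁ v₂ r₁ r₂ : ℚ) : ℚ :=
  (1 - ((v₂ + r₂) / (1 + v₂ * r₂)) ^ 2 / 4) * ((1 - v₂ * r₂) / (1 + v₂ * r₂)) +
    (1 - bsqQ ((v₁ - r₂) / (1 - v₁ * r₂)) ((v₂ - r₁) / (1 - v₂ * r₁)) / 4) *
      ((1 + v₁ * r₁) / (1 - v₁ * r₁))

/-- The lower bound for `T̄/τ`. -/
def TbLQ (v₁ v₂ r₁ r₂ : ℚ) : ℚ := (1 - v₂ ^ 2) / (2 * v₂ ^ 2) * TbXQ v₁ v₂ r₁ r₂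

/-- The upper bound for `κ(v)(1-V)/V`. -/
def KHQ (v₁ v₂ : ℚ) : ℚ := (v₂ / wLo v₁ - (1 - v₂ ^ 2)) / v₁ ^ 2

/-- The upper bound for `h(r)/(1-q)`. -/
def HHQ (r₁ r₂ : ℚ) : ℚ := wHi r₂ / (1 + r₁) + lHi r₁ / (1 - r₁) / (1 + r₁)

lemma pa_mono_aux {v r v₂ r₂ : ℝ} (hv0 : 0 ≤ v) (hr0 : 0 ≤ r) (hv : v ≤ v₂) (hr : r ≤ r₂)
    (hv₂ : v₂ ≤ 1) (hr₂ : r₂ ≤ 1) : (v + r) / (1 + v * r) ≤ (v₂ + r₂) / (1 + v₂ * r₂) := by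
  have hv₂0 : 0 ≤ v₂ := le_trans hv0 hv
  have hr₂0 : 0 ≤ r₂ := le_trans hr0 hr
  rw [div_le_div_iff₀ (by positivity) (by positivity)]
  have h1 : 0 ≤ (v₂ - v) * (1 - r * r₂) :=
    mul_nonneg (by linarith) (by linarith [mul_le_one₀ (le_trans hr hr₂) hr₂0 hr₂])
  have h2 : 0 ≤ (r₂ - r) * (1 - v * v₂) :=
    mul_nonneg (by linarith) (by linarith [mul_le_one₀ (le_trans hv hv₂) hv₂0 hv₂])
  have e : (v₂ + r₂) * (1 + v * r) - (v + r) * (1 + v₂ * r₂) =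
      (v₂ - v) * (1 - r * r₂) + (r₂ - r) * (1 - v * v₂) := by ring
  linarith

lemma pb_le_aux {v r v₂ r₁ : ℝ} (hv0 : 0 ≤ v) (hr0 : 0 ≤ r₁) (hv : v ≤ v₂) (hr : r₁ ≤ r)
    (hv₂ : v₂ ≤ 1) (hr1 : r ≤ 1) (hd : 0 < 1 - v * r) (hd₂ : 0 < 1 - v₂ * r₁) :
    (v - r) / (1 - v * r) ≤ (v₂ - r₁) / (1 - v₂ * r₁) := by
  have hv₂0 : 0 ≤ v₂ := le_trans hv0 hv
  rw [div_le_div_iff₀ hd hd₂]
  have h1 : 0 ≤ (v₂ - v) * (1 - r * r₁) :=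
    mul_nonneg (by linarith) (by linarith [mul_le_one₀ hr1 hr0 (le_trans hr hr1)])
  have h2 : 0 ≤ (r - r₁) * (1 - v * v₂) :=
    mul_nonneg (by linarith) (by linarith [mul_le_one₀ (le_trans hv hv₂) hv₂0 hv₂])
  have e : (v₂ - r₁) * (1 - v * r) - (v - r) * (1 - v₂ * r₁) =
      (v₂ - v) * (1 - r * r₁) + (r - r₁) * (1 - v * v₂) := by ring
  linarith

lemma le_pb_aux {v r v₁ r₂ : ℝ} (hv0 : 0 ≤ v₁) (hr0 : 0 ≤ r) (hv : v₁ ≤ v) (hr : r ≤ r₂)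
    (hv1 : v ≤ 1) (hr₂ : r₂ ≤ 1) (hd : 0 < 1 - v * r) (hd₁ : 0 < 1 - v₁ * r₂) :
    (v₁ - r₂) / (1 - v₁ * r₂) ≤ (v - r) / (1 - v * r) := by
  rw [div_le_div_iff₀ hd₁ hd]
  have h1 : 0 ≤ (v - v₁) * (1 - r * r₂) :=
    mul_nonneg (by linarith) (by linarith [mul_le_one₀ (le_trans hr hr₂) (le_trans hr0 hr) hr₂])
  have h2 : 0 ≤ (r₂ - r) * (1 - v * v₁) :=
    mul_nonneg (by linarith) (by linarith [mul_le_one₀ hv1 hv0 (le_trans hv hv1)])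
  have e : (v - r) * (1 - v₁ * r₂) - (v₁ - r₂) * (1 - v * r) =
      (v - v₁) * (1 - r * r₂) + (r₂ - r) * (1 - v * v₁) := by ring
  linarith

lemma C1_aux {s s₂ : ℝ} (hs : 0 ≤ s) (h : s ≤ s₂) : (1 - s₂) / (1 + s₂) ≤ (1 - s) / (1 + s) := by
  have hs₂ : 0 ≤ s₂ := le_trans hs h
  rw [div_le_div_iff₀ (by positivity) (by positivity)]
  nlinarith

lemma C2_aux {s s₁ : ℝ} (hs : 0 ≤ s₁) (h : s₁ ≤ s) (h1 : s < 1) :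
    (1 + s₁) / (1 - s₁) ≤ (1 + s) / (1 - s) := by
  rw [div_le_div_iff₀ (by linarith) (by linarith)]
  nlinarith

lemma A1_aux {V V₂ : ℝ} (hV : 0 < V) (h : V ≤ V₂) :
    (1 - V₂) / (2 * V₂) ≤ (1 - V) / (2 * V) := by
  have hV₂ : 0 < V₂ := lt_of_lt_of_le hV h
  rw [div_le_div_iff₀ (by positivity) (by positivity)]
  nlinarith

lemma Tb_box (h : BoxH v₁ v₂ r₁ r₂ v r) (hv₁ : (0 : ℝ) < v₁) (hv₂ : (v₂ : ℝ) < 1)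
    (hX : 0 ≤ TbXQ v₁ v₂ r₁ r₂) :
    ((TbLQ v₁ v₂ r₁ r₂ : ℚ) : ℝ) ≤ (1 - v ^ 2) / (2 * v ^ 2) *
      ((1 - pa v r ^ 2 / 4) * ((1 - v * r) / (1 + v * r)) +
        (1 - pb v r ^ 2 / 4) * ((1 + v * r) / (1 - v * r))) := by
  have hv0 : 0 < v := lt_of_lt_of_le hv₁ h.h2
  have hr0 := h.h10
  have hr1 := h.r1
  have hv1 := h.h5
  have hv₂0 : (0 : ℝ) < v₂ := lt_of_lt_of_le hv0 h.h3
  have hr₁0 : (0 : ℝ) ≤ r₁ := h.h6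
  have hr₂0 : (0 : ℝ) < r₂ := h.r₂0
  have hr₂1 : (r₂ : ℝ) < 1 := h.h9
  have hs : v * r ≤ (v₂ : ℝ) * r₂ := mul_le_mul h.h3 h.h8 hr0.le hv₂0.le
  have hs₂ : (v₂ : ℝ) * r₂ < 1 := by
    have : (v₂ : ℝ) * r₂ < 1 * 1 := mul_lt_mul'' hv₂ hr₂1 hv₂0.le hr₂0.le
    linarith
  have hs₁ : (v₁ : ℝ) * r₁ ≤ v * r := mul_le_mul h.h2 h.h7 hr₁0 hv0.le
  have hs1 : v * r < 1 := lt_of_le_of_lt hs hs₂
  have hs0 : 0 < v * r := by positivity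
  have hs₁0 : (0 : ℝ) ≤ (v₁ : ℝ) * r₁ := by positivity
  -- the factors
  have hA₁ := A1_aux (V := v ^ 2) (V₂ := (v₂ : ℝ) ^ 2) (by positivity) h.sqv₂
  have hA₀ : 0 ≤ (1 - (v₂ : ℝ) ^ 2) / (2 * (v₂ : ℝ) ^ 2) := by
    have : 0 ≤ 1 - (v₂ : ℝ) ^ 2 := by linarith [h.sqv₂1]
    positivity
  have hC₁ := C1_aux hs0.le hs
  have hC₁0 : 0 ≤ (1 - (v₂ : ℝ) * r₂) / (1 + (v₂ : ℝ) * r₂) :=
    div_nonneg (by linarith) (by positivity)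
  have hC₂ := C2_aux hs₁0 hs₁ hs1
  have hC₂0 : 0 ≤ (1 + (v₁ : ℝ) * r₁) / (1 - (v₁ : ℝ) * r₁) :=
    div_nonneg (by positivity) (by linarith)
  -- `pa`
  have hpa0 : 0 ≤ pa v r := by
    unfold pa
    positivity
  have hpa := pa_mono_aux hv0.le hr0.le h.h3 h.h8 hv₂.le hr₂1.le
  have hpa1 := abs_lt.mp (abs_lt_one_pa hv0.le hv1 hr0 hr1)
  have hpb1 := abs_lt.mp (abs_lt_one_pb hv0.le hv1 hr0 hr1)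
  -- `pb`
  have hv₁1 : (v₁ : ℝ) < 1 := lt_of_le_of_lt h.h2 hv1
  have hd₁ : (0 : ℝ) < 1 - (v₁ : ℝ) * r₂ := by
    have : (v₁ : ℝ) * r₂ < 1 * 1 := mul_lt_mul'' hv₁1 hr₂1 hv₁.le hr₂0.le
    linarith
  have hd₂ : (0 : ℝ) < 1 - (v₂ : ℝ) * r₁ := by
    have : (v₂ : ℝ) * r₁ ≤ (v₂ : ℝ) * r₂ := mul_le_mul_of_nonneg_left (le_trans h.h7 h.h8) hv₂0.le
    linarith
  have hd : 0 < 1 - v * r := by linarith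
  have hpbL : (((v₁ - r₂) / (1 - v₁ * r₂) : ℚ) : ℝ) ≤ pb v r := by
    push_cast
    exact le_pb_aux hv₁.le hr0.le h.h2 h.h8 hv1.le hr₂1.le hd hd₁
  have hpbH : pb v r ≤ (((v₂ - r₁) / (1 - v₂ * r₁) : ℚ) : ℝ) := by
    push_cast
    exact pb_le_aux hv0.le hr₁0 h.h3 h.h7 hv₂.le hr1.le hd hd₂
  have hb2 := sq_le_bsq hpbL hpbH
  have ha2 : pa v r ^ 2 ≤ (((v₂ : ℝ) + r₂) / (1 + (v₂ : ℝ) * r₂)) ^ 2 :=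
    pow_le_pow_left₀ hpa0 hpa 2
  have hB₁0 : 0 ≤ 1 - pa v r ^ 2 / 4 := by
    have : pa v r ^ 2 ≤ 1 := by
      have := pow_le_pow_left₀ hpa0 hpa1.2.le 2
      simpa using this
    linarith
  have hB₂0 : 0 ≤ 1 - pb v r ^ 2 / 4 := by
    have : pb v r ^ 2 ≤ 1 := sq_le_one_iff_abs_le_one _ |>.mpr (abs_le.mpr ⟨hpb1.1.le, hpb1.2.le⟩)
    linarith
  have hX' : (0 : ℝ) ≤ ((TbXQ v₁ v₂ r₁ r₂ : ℚ) : ℝ) := by exact_mod_cast hX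
  have hXle : ((TbXQ v₁ v₂ r₁ r₂ : ℚ) : ℝ) ≤
      (1 - pa v r ^ 2 / 4) * ((1 - v * r) / (1 + v * r)) +
        (1 - pb v r ^ 2 / 4) * ((1 + v * r) / (1 - v * r)) := by
    unfold TbXQ
    push_cast
    apply add_le_add
    · exact mul_le_mul (by linarith) hC₁ hC₁0 hB₁0
    · exact mul_le_mul (by linarith) hC₂ hC₂0 hB₂0
  unfold TbLQ
  push_cast
  exact mul_le_mul hA₁ hXle hX' (le_trans hA₀ hA₁)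

lemma K_box (h : BoxH v₁ v₂ r₁ r₂ v r) (hv₁ : (0 : ℝ) < v₁) (hk : bKnotOK v₁ = true) :
    (v / A v - (1 - v ^ 2)) / v ^ 2 ≤ ((KHQ v₁ v₂ : ℚ) : ℝ) := by
  obtain ⟨_, h1, h2, _⟩ := bKnot_props hk
  have hq0 : (0 : ℚ) ≤ v₁ := by exact_mod_cast hv₁.le
  have hq1 : v₁ < 1 := by exact_mod_cast h1
  have hv0 : 0 < v := lt_of_lt_of_le hv₁ h.h2
  have hAv := A_pos hv0 h.h5
  have hw := wLo_le hq0 hq1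
  have hm : A (v₁ : ℝ) ≤ A v := A_mono' hv₁.le h.h2 h.h5
  have hs := one_sub_sq_pos (abs_lt_one_of hv0.le h.h5)
  have hN0 : 0 ≤ v / A v - (1 - v ^ 2) := by
    have hkn := kap_nonneg hv0.le h.h5
    rw [kap_of_pos hv0] at hkn
    have e : v / ((1 - v ^ 2) * A v) - 1 = (v / A v - (1 - v ^ 2)) / (1 - v ^ 2) := by
      field_simp
    rw [e] at hkn
    by_contra hc
    push Not at hc
    have := div_neg_of_neg_of_pos hc hs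
    linarith
  have hNle : v / A v - (1 - v ^ 2) ≤ (v₂ : ℝ) / ((wLo v₁ : ℚ) : ℝ) - (1 - (v₂ : ℝ) ^ 2) := by
    have h3 : v / A v ≤ (v₂ : ℝ) / ((wLo v₁ : ℚ) : ℝ) :=
      div_le_div₀ h.v₂0 h.h3 h2 (le_trans hw hm)
    have h4 := h.sqv₂
    linarith
  unfold KHQ
  push_cast
  exact div_le_div₀ (le_trans hN0 hNle) hNle (by positivity) h.sqv₁

lemma H_box (h : BoxH v₁ v₂ r₁ r₂ v r) (hr₁ : (r₁ : ℝ) < 1) (hq₁0 : 0 ≤ r₁) (hq₁ : r₁ < 1)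
    (hq₂0 : 0 ≤ r₂) (hq₂ : r₂ < 1) (hH0 : 0 ≤ lHi r₁) (hW0 : 0 ≤ wHi r₂) :
    ent r / (1 - r ^ 2) ≤ ((HHQ r₁ r₂ : ℚ) : ℝ) := by
  have hr0 := h.h10
  have hr1 := h.r1
  have hrabs := abs_lt_one_of hr0.le hr1
  have hr₁0 : (0 : ℝ) ≤ r₁ := h.h6
  rw [ent_eq_tail hrabs]
  have e : ((1 - r) * A r + (log 2 - log (1 + r))) / (1 - r ^ 2) =
      A r / (1 + r) + (log 2 - log (1 + r)) / (1 - r) / (1 + r) := by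
    have h1 : 0 < 1 - r := by linarith
    have h2 : 0 < 1 + r := by linarith
    have e1 : 1 - r ^ 2 = (1 - r) * (1 + r) := by ring
    rw [e1]
    field_simp
  rw [e]
  have hw := le_wHi hq₂0 hq₂
  have hwm : A r ≤ A (r₂ : ℝ) := A_mono' hr0.le h.h8 h.h9
  have hl := le_lHi hq₁0 hq₁
  have htail := tail_anti hr₁0 h.h7 hr1
  have hp₁ : (0 : ℝ) < 1 + r₁ := by linarith
  have hm₁ : (0 : ℝ) < 1 - r₁ := by linarith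
  have hle : (1 + (r₁ : ℝ)) ≤ 1 + r := by linarith [h.h7]
  have hW0' : (0 : ℝ) ≤ ((wHi r₂ : ℚ) : ℝ) := by exact_mod_cast hW0
  have hH0' : (0 : ℝ) ≤ ((lHi r₁ : ℚ) : ℝ) := by exact_mod_cast hH0
  unfold HHQ
  push_cast
  apply add_le_add
  · exact div_le_div₀ hW0' (le_trans hwm hw) hp₁ hle
  · apply div_le_div₀ (div_nonneg hH0' hm₁.le) _ hp₁ hle
    refine le_trans htail ?_
    exact div_le_div_of_nonneg_right hl hm₁.le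

/-- The form `V`. -/
def formV (v₁ v₂ r₁ r₂ : ℚ) : Bool :=
  bKnotOK r₂ && EoOK v₂ r₂ (lamHQ v₂ r₁) && bKnotOK v₁ && decide (v₂ < 1) &&
    decide (0 ≤ TbXQ v₁ v₂ r₁ r₂) && decide (0 ≤ AfLQ v₁) && decide (0 ≤ lHi r₁) &&
    decide (0 ≤ wHi r₂) &&
    decide (lhsQ v₁ v₂ r₁ r₂ ≤ EoQ v₂ r₁ r₂ (lamHQ v₂ r₁) + TbLQ v₁ v₂ r₁ r₂ * AfLQ v₁ -
      KHQ v₁ v₂ * HHQ r₁ r₂)

lemma formV_sound (h : BoxH v₁ v₂ r₁ r₂ v r) (hb : 0 ≤ r₁ ∧ r₁ < 1) (hf : formV v₁ v₂ r₁ r₂ = true)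
    (hT : bet v r < Tm (mean v r)) : CIat v r := by
  unfold formV at hf
  simp only [Bool.and_eq_true, decide_eq_true_eq] at hf
  obtain ⟨⟨⟨⟨⟨⟨⟨⟨hk, hE⟩, hk₁⟩, hv₂⟩, hX⟩, hAfL⟩, hl0⟩, hw0⟩, hc⟩ := hf
  have hv := v_pos_of h.v0 hT
  obtain ⟨hv₁, _, _, _⟩ := bKnot_props hk₁
  have hv₂' : (v₂ : ℝ) < 1 := by exact_mod_cast hv₂
  have hc' : ((lhsQ v₁ v₂ r₁ r₂ : ℚ) : ℝ) ≤ ((EoQ v₂ r₁ r₂ (lamHQ v₂ r₁) : ℚ) : ℝ) +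
      ((TbLQ v₁ v₂ r₁ r₂ : ℚ) : ℝ) * ((AfLQ v₁ : ℚ) : ℝ) - ((KHQ v₁ v₂ : ℚ) : ℝ) * ((HHQ r₁ r₂ : ℚ) : ℝ) := by
    exact_mod_cast hc
  have hr₁' : (r₁ : ℝ) < 1 := by exact_mod_cast hb.2
  have hTb0 : (0 : ℝ) ≤ ((TbLQ v₁ v₂ r₁ r₂ : ℚ) : ℝ) := by
    unfold TbLQ
    push_cast
    have hX' : (0 : ℝ) ≤ ((TbXQ v₁ v₂ r₁ r₂ : ℚ) : ℝ) := by exact_mod_cast hX
    have h1 : 0 ≤ 1 - (v₂ : ℝ) ^ 2 := by nlinarith [h.v₂0]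
    positivity
  have hAfL' : (0 : ℝ) ≤ ((AfLQ v₁ : ℚ) : ℝ) := by exact_mod_cast hAfL
  have hq₂ := (box_of_r₂ h)
  refine CI_of_V hv h.h5 h.h10 h.r1 hT (xi_cast h) (Af_box h hk) (z_cast h)
    (Ee_box h hv hE hb.1 hb.2) (Tb_box h hv₁ hv₂' hX) hTb0
    (le_trans (Q_le_Af hk₁) (Af_mono hv₁.le h.h2 h.h5)) hAfL' (K_box h hv₁ hk₁)
    (H_box h hr₁' hb.1 hb.2 hq₂.1 hq₂.2 hl0 hw0) ?_
  unfold lhsQ at hc'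
  rw [Q1_eq]
  push_cast at hc' ⊢
  exact hc'

/-- The positive part. -/
def posQ (x : ℚ) : ℚ := if 0 ≤ x then x else 0

lemma le_posQ (x : ℚ) : x ≤ posQ x := by
  unfold posQ
  split_ifs with h
  · exact le_refl x
  · exact (not_le.mp h).le

lemma posQ_nonneg (x : ℚ) : 0 ≤ posQ x := by
  unfold posQ
  split_ifs with h
  · exact h
  · exact le_refl 0

/-- The upper bound for `g`. -/
def gHQ (lL lH v₁ v₂ r₁ r₂ : ℚ) : ℚ :=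
  (1 - v₁ ^ 2 * lL) * r₂ ^ 2 *
    posQ (5 / 4 - 3 / 2 * (v₁ ^ 2 * lL ^ 2) - (1 - v₂ ^ 2 * lH) ^ 2 * r₁ ^ 2 / 4)

/-- The lower end of the argument of `Y`. -/
def tloQ (v₁ r₁ : ℚ) : ℚ := (1 + v₁) * r₁ / (1 + v₁ * r₁ ^ 2)

/-- The lower bound of the weight. -/
def MLQ (v₂ r₁ : ℚ) : ℚ := (1 + v₂ * r₁ ^ 2) / (2 * (1 + v₂))

lemma g_box (h : BoxH v₁ v₂ r₁ r₂ v r) (hbL : 0 ≤ 1 - v₂ ^ 2 * lamHQ v₂ r₁) :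
    bet v r * r ^ 2 * (5 / 4 - 3 / 2 * mean v r ^ 2 - (bet v r * r) ^ 2 / 4) ≤
      ((gHQ (lamLQ v₁ r₂) (lamHQ v₂ r₁) v₁ v₂ r₁ r₂ : ℚ) : ℝ) := by
  have hL := lamL_cast h
  have hH := lamH_cast h
  have hL0 := lamL0_cast h
  have h0 := lam_nonneg h
  have hD := h.D
  have hβ := bet_pos h.v0 h.h5 h.h10 h.r1
  have hbe := bet_eq_lam hD.ne'
  have hm : mean v r ^ 2 = v ^ 2 * lam v r ^ 2 := by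
    rw [mean_eq_lam]
    ring
  obtain ⟨lL, hlL⟩ : ∃ l, l = lamLQ v₁ r₂ := ⟨_, rfl⟩
  obtain ⟨lH, hlH⟩ : ∃ l, l = lamHQ v₂ r₁ := ⟨_, rfl⟩
  rw [← hlL] at hL hL0 ⊢
  rw [← hlH] at hH hbL ⊢
  have hbL' : (0 : ℝ) ≤ 1 - (v₂ : ℝ) ^ 2 * (lH : ℝ) := by exact_mod_cast hbL
  have h1 : (v₁ : ℝ) ^ 2 * (lL : ℝ) ≤ v ^ 2 * lam v r := mul_le_mul h.sqv₁ hL hL0 (sq_nonneg _)
  have h2 : v ^ 2 * lam v r ≤ (v₂ : ℝ) ^ 2 * (lH : ℝ) := mul_le_mul h.sqv₂ hH h0 (sq_nonneg _)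
  have hβH : bet v r ≤ 1 - (v₁ : ℝ) ^ 2 * (lL : ℝ) := by linarith
  have hβL : 1 - (v₂ : ℝ) ^ 2 * (lH : ℝ) ≤ bet v r := by linarith
  have hm2 : (v₁ : ℝ) ^ 2 * (lL : ℝ) ^ 2 ≤ mean v r ^ 2 := by
    rw [hm]
    exact mul_le_mul h.sqv₁ (pow_le_pow_left₀ hL0 hL 2) (sq_nonneg _) (sq_nonneg _)
  have hβ2 : (1 - (v₂ : ℝ) ^ 2 * (lH : ℝ)) ^ 2 * (r₁ : ℝ) ^ 2 ≤ (bet v r * r) ^ 2 := by
    have e : (bet v r * r) ^ 2 = bet v r ^ 2 * r ^ 2 := by ring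
    rw [e]
    exact mul_le_mul (pow_le_pow_left₀ hbL' hβL 2) h.sqr₁ (sq_nonneg _) (sq_nonneg _)
  have hin : 5 / 4 - 3 / 2 * mean v r ^ 2 - (bet v r * r) ^ 2 / 4 ≤
      ((posQ (5 / 4 - 3 / 2 * (v₁ ^ 2 * lL ^ 2) - (1 - v₂ ^ 2 * lH) ^ 2 * r₁ ^ 2 / 4) : ℚ) : ℝ) := by
    have h3 : (((5 / 4 - 3 / 2 * (v₁ ^ 2 * lL ^ 2) - (1 - v₂ ^ 2 * lH) ^ 2 * r₁ ^ 2 / 4 : ℚ)) : ℝ) ≤
        ((posQ (5 / 4 - 3 / 2 * (v₁ ^ 2 * lL ^ 2) - (1 - v₂ ^ 2 * lH) ^ 2 * r₁ ^ 2 / 4) : ℚ) : ℝ) := by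
      exact_mod_cast le_posQ _
    push_cast at h3 ⊢
    linarith
  have hpos : (0 : ℝ) ≤
      ((posQ (5 / 4 - 3 / 2 * (v₁ ^ 2 * lL ^ 2) - (1 - v₂ ^ 2 * lH) ^ 2 * r₁ ^ 2 / 4) : ℚ) : ℝ) := by
    exact_mod_cast posQ_nonneg _
  unfold gHQ
  rw [Rat.cast_mul]
  have h4 : bet v r * r ^ 2 ≤ ((((1 - v₁ ^ 2 * lL) * r₂ ^ 2 : ℚ)) : ℝ) := by
    push_cast
    exact mul_le_mul hβH h.sqr₂ (sq_nonneg _) (le_trans hβ.le hβH)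
  exact le_trans (mul_le_mul_of_nonneg_left hin (by positivity))
    (mul_le_mul_of_nonneg_right h4 hpos)

lemma gH_nonneg (h : BoxH v₁ v₂ r₁ r₂ v r) :
    (0 : ℝ) ≤ ((gHQ (lamLQ v₁ r₂) (lamHQ v₂ r₁) v₁ v₂ r₁ r₂ : ℚ) : ℝ) := by
  have hL := lamL_cast h
  have hL0 := lamL0_cast h
  have h0 := lam_nonneg h
  have hD := h.D
  have hβ := bet_pos h.v0 h.h5 h.h10 h.r1
  have hbe := bet_eq_lam hD.ne'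
  have h1 : (v₁ : ℝ) ^ 2 * ((lamLQ v₁ r₂ : ℚ) : ℝ) ≤ v ^ 2 * lam v r :=
    mul_le_mul h.sqv₁ hL hL0 (sq_nonneg _)
  have hβH : 0 ≤ 1 - (v₁ : ℝ) ^ 2 * ((lamLQ v₁ r₂ : ℚ) : ℝ) := by linarith
  have hβH' : (0 : ℚ) ≤ 1 - v₁ ^ 2 * lamLQ v₁ r₂ := by exact_mod_cast hβH
  have : (0 : ℚ) ≤ gHQ (lamLQ v₁ r₂) (lamHQ v₂ r₁) v₁ v₂ r₁ r₂ := by
    unfold gHQ
    exact mul_nonneg (mul_nonneg hβH' (sq_nonneg _)) (posQ_nonneg _)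
  exact_mod_cast this

lemma tlo_le (h : BoxH v₁ v₂ r₁ r₂ v r) :
    ((tloQ v₁ r₁ : ℚ) : ℝ) ≤ (1 + v) * r / (1 + v * r ^ 2) := by
  have hv₁ : (0 : ℝ) ≤ v₁ := h.h1
  have hr₁ : (0 : ℝ) ≤ r₁ := h.h6
  have hv := h.v0
  have hr := h.h10
  unfold tloQ
  push_cast
  rw [div_le_div_iff₀ (by positivity) (by positivity)]
  have hv1 : v ≤ 1 := h.h5.le
  have hrr : r * r₁ ≤ 1 := mul_le_one₀ h.r1.le hr₁ (le_trans h.h7 h.r1.le)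
  have hvs : (v₁ : ℝ) * (r * r₁) ≤ 1 := by
    have : (v₁ : ℝ) ≤ 1 := le_trans h.h2 hv1
    calc (v₁ : ℝ) * (r * r₁) ≤ 1 * 1 := mul_le_mul this hrr (by positivity) (by norm_num)
      _ = 1 := by norm_num
  have h1 : 0 ≤ (r - (r₁ : ℝ)) * (1 - (v₁ : ℝ) * (r * r₁)) * (1 + v₁) :=
    mul_nonneg (mul_nonneg (by linarith [h.h7]) (by linarith)) (by positivity)
  have h2 : 0 ≤ (v - (v₁ : ℝ)) * (1 - r ^ 2) * ((r₁ : ℝ) * (1 + v₁ * r₁ ^ 2)) * r := by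
    have : 0 ≤ 1 - r ^ 2 := (one_sub_sq_pos (abs_lt_one_of hr.le h.r1)).le
    have h3 := h.h2
    apply mul_nonneg (mul_nonneg (mul_nonneg (by linarith) this) (by positivity)) hr.le
  -- cross-multiplied in two steps
  have s1 : (1 + (v₁ : ℝ)) * r₁ * (1 + v₁ * r ^ 2) ≤ (1 + (v₁ : ℝ)) * r * (1 + v₁ * r₁ ^ 2) := by
    have e : (1 + (v₁ : ℝ)) * r * (1 + v₁ * r₁ ^ 2) - (1 + (v₁ : ℝ)) * r₁ * (1 + v₁ * r ^ 2) =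
        (r - (r₁ : ℝ)) * (1 - (v₁ : ℝ) * (r * r₁)) * (1 + v₁) := by ring
    linarith
  have s2 : (1 + (v₁ : ℝ)) * (1 + v * r ^ 2) ≤ (1 + v) * (1 + v₁ * r ^ 2) := by
    have e : (1 + v) * (1 + (v₁ : ℝ) * r ^ 2) - (1 + (v₁ : ℝ)) * (1 + v * r ^ 2) =
        (v - (v₁ : ℝ)) * (1 - r ^ 2) := by ring
    have : 0 ≤ (v - (v₁ : ℝ)) * (1 - r ^ 2) :=
      mul_nonneg (by linarith [h.h2]) (one_sub_sq_pos (abs_lt_one_of hr.le h.r1)).le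
    linarith
  have hpos1 : 0 < 1 + (v₁ : ℝ) * r ^ 2 := by positivity
  have hpos2 : 0 < 1 + (v₁ : ℝ) * (r₁ : ℝ) ^ 2 := by positivity
  -- combine
  have s3 := mul_le_mul_of_nonneg_left s1 (show 0 ≤ 1 + v * r ^ 2 by positivity)
  have s4 := mul_le_mul_of_nonneg_left s2 (show 0 ≤ r * (1 + (v₁ : ℝ) * (r₁ : ℝ) ^ 2) by positivity)
  have key : (1 + (v₁ : ℝ)) * r₁ * (1 + v * r ^ 2) * (1 + v₁ * r ^ 2) ≤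
      (1 + v) * r * (1 + v₁ * r₁ ^ 2) * (1 + v₁ * r ^ 2) := by
    nlinarith
  exact le_of_mul_le_mul_right key hpos1

lemma tm_lt_one (h : BoxH v₁ v₂ r₁ r₂ v r) : (1 + v) * r / (1 + v * r ^ 2) < 1 := by
  have hv := h.v0
  have hr := h.h10
  rw [div_lt_one (by positivity)]
  have h1 : 0 < (1 - r) * (1 - v * r) := by
    apply mul_pos (by linarith [h.r1])
    have : v * r < 1 * 1 := mul_lt_mul'' h.h5 h.r1 hv hr.le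
    linarith
  have e : 1 + v * r ^ 2 - (1 + v) * r = (1 - r) * (1 - v * r) := by ring
  linarith

lemma ML_le (h : BoxH v₁ v₂ r₁ r₂ v r) :
    ((MLQ v₂ r₁ : ℚ) : ℝ) ≤ (1 + v * r ^ 2) / (2 * (1 + v)) := by
  have hv := h.v0
  have hr := h.h10
  have hv₂ := h.v₂0
  have hr₁ : (0 : ℝ) ≤ r₁ := h.h6
  unfold MLQ
  push_cast
  rw [div_le_div_iff₀ (by positivity) (by positivity)]
  have h1 : 0 ≤ ((v₂ : ℝ) - v) * (1 - (r₁ : ℝ) ^ 2) := by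
    apply mul_nonneg (by linarith [h.h3])
    have := h.sqr₁
    have := one_sub_sq_pos (abs_lt_one_of hr.le h.r1)
    linarith
  have h2 : 0 ≤ v * (r ^ 2 - (r₁ : ℝ) ^ 2) * (1 + v₂) :=
    mul_nonneg (mul_nonneg hv (by linarith [h.sqr₁])) (by positivity)
  have e : (1 + v * r ^ 2) * (2 * (1 + (v₂ : ℝ))) - (1 + (v₂ : ℝ) * (r₁ : ℝ) ^ 2) * (2 * (1 + v)) =
      2 * (((v₂ : ℝ) - v) * (1 - (r₁ : ℝ) ^ 2) + v * (r ^ 2 - (r₁ : ℝ) ^ 2) * (1 + v₂)) := by ring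
  linarith

/-- The form `R`. -/
def formR (v₁ v₂ r₁ r₂ : ℚ) : Bool :=
  bKnotOK r₂ && decide (0 ≤ 1 - v₂ ^ 2 * lamHQ v₂ r₁) && decide (tloQ v₁ r₁ < 1) &&
    decide (0 ≤ YLQ (tloQ v₁ r₁)) &&
    decide (gHQ (lamLQ v₁ r₂) (lamHQ v₂ r₁) v₁ v₂ r₁ r₂ * AfHQ r₂ +
        645 / 1000 * ((zHQ (lamLQ v₁ r₂) (lamHQ v₂ r₁) v₁ v₂ r₂ - 1) ^ 2 / 2) ≤
      MLQ v₂ r₁ * YLQ (tloQ v₁ r₁))

lemma formR_sound (h : BoxH v₁ v₂ r₁ r₂ v r) (hb : 0 ≤ v₁ ∧ 0 ≤ r₁) (hf : formR v₁ v₂ r₁ r₂ = true)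
    (hT : bet v r < Tm (mean v r)) : CIat v r := by
  unfold formR at hf
  simp only [Bool.and_eq_true, decide_eq_true_eq] at hf
  obtain ⟨⟨⟨⟨hk, hbL⟩, htl⟩, hY0⟩, hc⟩ := hf
  have ht0 : 0 ≤ tloQ v₁ r₁ := by
    unfold tloQ
    have := hb.1
    have := hb.2
    positivity
  have hc' : ((gHQ (lamLQ v₁ r₂) (lamHQ v₂ r₁) v₁ v₂ r₁ r₂ : ℚ) : ℝ) * ((AfHQ r₂ : ℚ) : ℝ) +
      ((645 / 1000 : ℚ) : ℝ) * ((((zHQ (lamLQ v₁ r₂) (lamHQ v₂ r₁) v₁ v₂ r₂ : ℚ) : ℝ) - 1) ^ 2 / 2) ≤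
      ((MLQ v₂ r₁ : ℚ) : ℝ) * ((YLQ (tloQ v₁ r₁) : ℚ) : ℝ) := by
    exact_mod_cast hc
  have hY0' : (0 : ℝ) ≤ ((YLQ (tloQ v₁ r₁) : ℚ) : ℝ) := by exact_mod_cast hY0
  have ht0' : (0 : ℝ) ≤ ((tloQ v₁ r₁ : ℚ) : ℝ) := by exact_mod_cast ht0
  refine CI_of_R h.v0 h.h5 h.h10 h.r1 hT (g_box h hbL) (gH_nonneg h) (Af_box h hk) (z_cast h)
    (le_trans (Q_le_Y ht0 htl) (Yf_mono ht0' (tlo_le h) (tm_lt_one h))) hY0' (ML_le h) ?_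
  rw [Q1_eq]
  exact hc'

end forms

/-- A tree of boxes. -/
inductive BT where
  | T : BT
  | A : BT
  | V : BT
  | R : BT
  | sr (n k : ℕ) (a b : BT) : BT
  | sv (n k : ℕ) (a b : BT) : BT

/-- The knot `n/2^k`. -/
def kn (n k : ℕ) : ℚ := (n : ℚ) / 2 ^ k

/-- The check of a tree on a box. -/
def chk : BT → ℚ → ℚ → ℚ → ℚ → Bool
  | .T, v₁, v₂, r₁, r₂ => boxOK v₁ v₂ r₁ r₂ && formT v₁ v₂ r₁ r₂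
  | .A, v₁, v₂, r₁, r₂ => boxOK v₁ v₂ r₁ r₂ && formA v₁ v₂ r₁ r₂
  | .V, v₁, v₂, r₁, r₂ => boxOK v₁ v₂ r₁ r₂ && formV v₁ v₂ r₁ r₂
  | .R, v₁, v₂, r₁, r₂ => boxOK v₁ v₂ r₁ r₂ && formR v₁ v₂ r₁ r₂
  | .sr n k a b, v₁, v₂, r₁, r₂ => chk a v₁ v₂ r₁ (kn n k) && chk b v₁ v₂ (kn n k) r₂
  | .sv n k a b, v₁, v₂, r₁, r₂ => chk a v₁ (kn n k) r₁ r₂ && chk b (kn n k) v₂ r₁ r₂

/-- Soundness of the tree check. -/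
theorem chk_sound (t : BT) : ∀ (v₁ v₂ r₁ r₂ : ℚ), chk t v₁ v₂ r₁ r₂ = true → ∀ v r : ℝ,
    (v₁ : ℝ) ≤ v → v ≤ (v₂ : ℝ) → v < 1 → (r₁ : ℝ) ≤ r → r ≤ (r₂ : ℝ) → 0 < r →
    bet v r < Tm (mean v r) → CIat v r := by
  induction t with
  | T =>
    intro v₁ v₂ r₁ r₂ hc v r a1 a2 a3 a4 a5 a6 hT
    simp only [chk, Bool.and_eq_true] at hc
    obtain ⟨h1, h2, h3, h4⟩ := box_of hc.1
    have hb : BoxH (v₁ : ℝ) v₂ r₁ r₂ v r := ⟨by exact_mod_cast h1, a1, a2, by exact_mod_cast h2, a3,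
      by exact_mod_cast h3, a4, a5, by exact_mod_cast h4, a6⟩
    exact (formT_sound hb hc.2 hT).elim
  | A =>
    intro v₁ v₂ r₁ r₂ hc v r a1 a2 a3 a4 a5 a6 hT
    simp only [chk, Bool.and_eq_true] at hc
    obtain ⟨h1, h2, h3, h4⟩ := box_of hc.1
    have hb : BoxH (v₁ : ℝ) v₂ r₁ r₂ v r := ⟨by exact_mod_cast h1, a1, a2, by exact_mod_cast h2, a3,
      by exact_mod_cast h3, a4, a5, by exact_mod_cast h4, a6⟩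
    have hr₁ : r₁ < 1 := by
      have : (r₁ : ℝ) < 1 := lt_of_le_of_lt a4 hb.r1
      exact_mod_cast this
    exact formA_sound hb ⟨h3, hr₁⟩ hc.2 hT
  | V =>
    intro v₁ v₂ r₁ r₂ hc v r a1 a2 a3 a4 a5 a6 hT
    simp only [chk, Bool.and_eq_true] at hc
    obtain ⟨h1, h2, h3, h4⟩ := box_of hc.1
    have hb : BoxH (v₁ : ℝ) v₂ r₁ r₂ v r := ⟨by exact_mod_cast h1, a1, a2, by exact_mod_cast h2, a3,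
      by exact_mod_cast h3, a4, a5, by exact_mod_cast h4, a6⟩
    have hr₁ : r₁ < 1 := by
      have : (r₁ : ℝ) < 1 := lt_of_le_of_lt a4 hb.r1
      exact_mod_cast this
    exact formV_sound hb ⟨h3, hr₁⟩ hc.2 hT
  | R =>
    intro v₁ v₂ r₁ r₂ hc v r a1 a2 a3 a4 a5 a6 hT
    simp only [chk, Bool.and_eq_true] at hc
    obtain ⟨h1, h2, h3, h4⟩ := box_of hc.1
    have hb : BoxH (v₁ : ℝ) v₂ r₁ r₂ v r := ⟨by exact_mod_cast h1, a1, a2, by exact_mod_cast h2, a3,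
      by exact_mod_cast h3, a4, a5, by exact_mod_cast h4, a6⟩
    exact formR_sound hb ⟨h1, h3⟩ hc.2 hT
  | sr n k a b iha ihb =>
    intro v₁ v₂ r₁ r₂ hc v r a1 a2 a3 a4 a5 a6 hT
    simp only [chk, Bool.and_eq_true] at hc
    rcases le_total r ((kn n k : ℚ) : ℝ) with hs | hs
    · exact iha v₁ v₂ r₁ (kn n k) hc.1 v r a1 a2 a3 a4 hs a6 hT
    · exact ihb v₁ v₂ (kn n k) r₂ hc.2 v r a1 a2 a3 hs a5 a6 hT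
  | sv n k a b iha ihb =>
    intro v₁ v₂ r₁ r₂ hc v r a1 a2 a3 a4 a5 a6 hT
    simp only [chk, Bool.and_eq_true] at hc
    rcases le_total v ((kn n k : ℚ) : ℝ) with hs | hs
    · exact iha v₁ (kn n k) r₁ r₂ hc.1 v r a1 hs a3 a4 a5 a6 hT
    · exact ihb (kn n k) v₂ r₁ r₂ hc.2 v r hs a2 a3 a4 a5 a6 hT

end Vale.Agent.CK
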