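import Vale.Agent.CK.IADefs

/-!
The interval check behind `Key4`, on boxes in `(τ, r)`.
-/

namespace Vale.Agent.CK

/-- The constant `1`. -/
def ivOne : IV := ivC SN
/-- `4/5`. -/
def ck45 : IV := ⟨858993459, 858993460, true⟩
/-- `1/12`. -/
def ck112 : IV := ⟨89478485, 89478486, true⟩
/-- `5/4`. -/
def ck54 : IV := ivC 1342177280
/-- `3/2`. -/
def ck32 : IV := ivC 1610612736
/-- `2`. -/
def ck2 : IV := ivC 2147483648
/-- `1/4`. -/
def ck14 : IV := ivC 268435456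
/-- `1/2`. -/
def ck12 : IV := ivC 536870912
/-- `645/2000`. -/
def ckA : IV := ⟨346281738, 346281739, true⟩
/-- `57/100`. -/
def ckK : IV := ⟨612032839, 612032840, true⟩
/-- Upper bound of `1/e`. -/
def ckE : IV := ivC 395029618

/-- `1 - x`, for `x ≤ 1`, the rounding errors truncated. -/
def ivCo (x : IV) : IV := ivTsub ivOne x

/-- `H(b, q)`. -/
def ivHq (B Q : IV) : IV :=
  let U := ivMul B Q
  ivDiv (ivSub (ivMlog (ivCo U)) U) (ivMul B B)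

/-- The lower bound of `H₂` on a box, from the corner values. -/
def ivHlo (T1 T2 Q1 : IV) : IV :=
  let B2 := ivCo T2
  let H := bif Nat.ble T2.hi 1040187392 then ivHq B2 Q1 else ivMul (ivMul Q1 Q1) ck12
  let D := ivCo (ivMul ck45 (ivMul B2 Q1))
  ivAdd H (ivDiv (ivMul (ivMul T1 ck112) (ivMul (ivMul Q1 Q1) (ivMul Q1 Q1))) (ivMul D D))

/-- Upper bound of `max (f₁ t q) 0` from the corner `(t₁, q₂)`. -/
def ivF (T1 Q2 : IV) : IV :=
  let W := ivCo (ivMul (ivCo T1) Q2)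
  ivTsub Q2 (ivMul (ivMul W (ivAdd ivOne (ivMul Q2 T1))) ck14)

/-- `Y` at a point. -/
def ivY (R : IV) : IV :=
  let Q := ivMul R R
  ivSub (ivMlog (ivCo Q)) (ivMul Q (ivAtc R))

/-- `A_f` at a point. -/
def ivAf (R : IV) : IV :=
  let Q := ivMul R R
  let Om := ivCo Q
  let AT := ivAtc R
  let L := ivMlog Om
  let RA := ivMul Q AT
  ivAdd (ivSub L RA)
    (ivMul (ivSub (ivDiv ivOne (ivMul Om AT)) ivOne)
      (ivSub (ivAdd ivLn2 (ivMul L ck12)) RA))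

/-- The check of the first alternative. -/
def chkA (T2 R2 : IV) (Hlo F : IV) : Bool :=
  let L := ivAdd (ivMul F (ivAf R2)) (ivMul (ivMul ckA T2) (ivMul F F))
  ((L.ok && Hlo.ok) && Nat.blt R2.hi SN) && Nat.ble L.hi Hlo.lo

/-- Upper bound for `g`. -/
def ivGh (T1 T2 Q1 Q2 : IV) : IV :=
  let B1 := ivCo T1
  let B2 := ivCo T2
  let U2 := ivMul B1 Q2
  let Wl := ivCo U2
  ivMul U2 (ivTsub ck54 (ivAdd (ivMul ck32 (ivMul T1 Wl)) (ivMul ck14 (ivMul (ivMul B2 B2) Q1))))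

/-- Lower bound for `x = 1 + τ f₁ - g`. -/
def ivXl (T1 T2 Q1 Q2 : IV) : IV :=
  let B1 := ivCo T1
  let B2 := ivCo T2
  let Wl := ivCo (ivMul B1 Q2)
  let Wh := ivCo (ivMul B2 Q1)
  let Sh := ivAdd (ivMul T2 Wh) (ivMul (ivMul B1 B1) Q2)
  ivAdd (ivMul (ivAdd (ivCo Q2) (ivMul ck2 (ivMul Q1 T1))) (ivCo (ivMul ck14 Sh)))
    (ivMul (ivMul T1 (ivMul B2 Q1)) Wl)

/-- Upper bound for `x = 1 + τ f₁ - g`. -/
def ivXh (T1 T2 Q1 Q2 : IV) : IV :=
  let B1 := ivCo T1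
  let B2 := ivCo T2
  let Wl := ivCo (ivMul B1 Q2)
  let Wh := ivCo (ivMul B2 Q1)
  let Sl := ivAdd (ivMul T1 Wl) (ivMul (ivMul B2 B2) Q1)
  ivAdd (ivMul (ivAdd (ivCo Q1) (ivMul ck2 (ivMul Q2 T2))) (ivCo (ivMul ck14 Sl)))
    (ivMul (ivMul T2 (ivMul B1 Q2)) Wh)

/-- Upper bound for `max 0 (- x log x)`, for `x ∈ [xl, xh]`. -/
def ivXb (xl xh : Nat) : IV :=
  bif Nat.ble SN xl then ivC 0
  else bif Nat.ble xh xlgMax then ivXlg (ivC xh)
  else bif Nat.ble 397284474 xl then ivMul (ivC xl) (ivMlog (ivC xl))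
  else ckE

/-- The check of the second alternative. -/
def chkR (T1 T2 R1 Q1 Q2 : IV) (Hlo F : IV) : Bool :=
  let XL := ivXl T1 T2 Q1 Q2
  let XH := ivXh T1 T2 Q1 Q2
  let E1 := ivMul T2 F
  let L := ivMul ckK (ivAdd (ivAdd E1 (ivMul (ivMul E1 E1) ck12)) (ivXb XL.lo XH.hi))
  let Rr := ivAdd (ivMul T1 Hlo) (ivMul (ivSub ivOne (ivGh T1 T2 Q1 Q2)) (ivY R1))
  (((L.ok && Rr.ok) && XL.ok) && XH.ok) && Nat.ble L.hi Rr.lo

/-- The test on one box. -/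
def Gk (X Y : IV) : Bool :=
  let T1 := ivC X.lo
  let T2 := ivC X.hi
  let R1 := ivC Y.lo
  let R2 := ivC Y.hi
  let Q1 := ivMul R1 R1
  let Q2 := ivMul R2 R2
  let Hlo := ivHlo T1 T2 Q1
  let F := ivF T1 Q2
  (X.ok && Y.ok) && (Nat.ble X.hi SN && Nat.ble Y.hi SN) &&
    ((Nat.ble X.hi 5368709 && Nat.ble 1065353216 Y.lo) ||
      chkA T2 R2 Hlo F || chkR T1 T2 R1 Q1 Q2 Hlo F)

/-- The check on the whole range. -/
theorem k4_chk : chk2g Gk 30 0 SN 429496729 SN = true := by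
  decide +kernel

end Vale.Agent.CK
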