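import Vale.Agent.CK.Key4Defs

/-!
The lower bound `E ≥ β τ H₂`, by differentiating in `q` at fixed `τ`.
-/

open Real Set

namespace Vale.Agent.CK

open Vale.Agent.P322

/-- `m` in the coordinates `(τ, q)`. -/
noncomputable def mh (t q : ℝ) : ℝ := √(t * (1 - (1 - t) * q))

/-- `E` in the coordinates `(τ, q)`. -/
noncomputable def Eh (t q : ℝ) : ℝ :=
  -(t * log (1 - q)) + log (1 + q * t) - 2 * mh t q * A (q * t / mh t q)

lemma a_ge_cube {z : ℝ} (h0 : 0 ≤ z) (h1 : z < 1) : z + z ^ 3 / 3 ≤ A z := by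
  have hm : MonotoneOn (fun t : ℝ => A t - t - t ^ 3 / 3) (Icc 0 z) := by
    apply mono_of_deriv (f' := fun t => 1 / (1 - t ^ 2) - 1 - t ^ 2)
    · intro t ht
      have ht' : |t| < 1 := abs_lt_one_of ht.1 (lt_of_le_of_lt ht.2 h1)
      have d := ((hasDerivAt_A ht').sub (hasDerivAt_id' t)).sub ((hasDerivAt_pow 3 t).div_const 3)
      exact d.continuousAt.continuousWithinAt
    · intro t ht
      have ht' : |t| < 1 := abs_lt_one_of ht.1.le (lt_trans ht.2 h1)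
      have d := ((hasDerivAt_A ht').sub (hasDerivAt_id' t)).sub ((hasDerivAt_pow 3 t).div_const 3)
      refine d.congr_deriv ?_
      norm_num
    · intro t ht
      have h2 : 0 < 1 - t ^ 2 := by nlinarith [ht.1, ht.2]
      have e : 1 / (1 - t ^ 2) - 1 - t ^ 2 = t ^ 4 / (1 - t ^ 2) := by
        field_simp
        ring
      rw [e]
      positivity
  have := hm (left_mem_Icc.mpr h0) (right_mem_Icc.mpr h0) h0
  simp only [A_zero] at this
  norm_num at this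
  linarith

section

variable {t q : ℝ}

lemma W_pos (ht0 : 0 < t) (ht1 : t < 1) (hq0 : 0 ≤ q) (hq1 : q ≤ 1) :
    0 < 1 - (1 - t) * q := by
  nlinarith

lemma mh_pos (ht0 : 0 < t) (ht1 : t < 1) (hq0 : 0 ≤ q) (hq1 : q ≤ 1) : 0 < mh t q :=
  Real.sqrt_pos.mpr (mul_pos ht0 (W_pos ht0 ht1 hq0 hq1))

lemma mh_sq (ht0 : 0 < t) (ht1 : t < 1) (hq0 : 0 ≤ q) (hq1 : q ≤ 1) :
    mh t q ^ 2 = t * (1 - (1 - t) * q) :=
  Real.sq_sqrt (mul_pos ht0 (W_pos ht0 ht1 hq0 hq1)).le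

lemma W_sub (t q : ℝ) : (1 - (1 - t) * q) - q ^ 2 * t = (1 - q) * (1 + q * t) := by
  ring

lemma z_lt_one (ht0 : 0 < t) (ht1 : t < 1) (hq0 : 0 ≤ q) (hq1 : q < 1) :
    q * t / mh t q < 1 := by
  have hM := mh_pos ht0 ht1 hq0 hq1.le
  have hM2 := mh_sq ht0 ht1 hq0 hq1.le
  rw [div_lt_one hM]
  have h1 : 0 < (1 - q) * (1 + q * t) := by
    have : 0 < 1 - q := by linarith
    positivity
  have h2 := W_sub t q
  have h3 : (q * t) ^ 2 < mh t q ^ 2 := by
    rw [hM2]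
    nlinarith
  exact lt_of_pow_lt_pow_left₀ 2 hM.le h3

lemma hasDerivAt_Eh (ht0 : 0 < t) (ht1 : t < 1) (hq0 : 0 ≤ q) (hq1 : q < 1) :
    HasDerivAt (Eh t) ((1 - t) * t / mh t q * A (q * t / mh t q)) q := by
  have hW := W_pos ht0 ht1 hq0 hq1.le
  have hM := mh_pos ht0 ht1 hq0 hq1.le
  have hM2 := mh_sq ht0 ht1 hq0 hq1.le
  have hz1 := z_lt_one ht0 ht1 hq0 hq1
  have hz0 : 0 ≤ q * t / mh t q := by positivity
  have hz := abs_lt_one_of hz0 hz1
  have hq1' : 0 < 1 - q := by linarith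
  have hqt : 0 < 1 + q * t := by positivity
  have dW : HasDerivAt (fun y : ℝ => t * (1 - (1 - t) * y)) (t * (-(1 - t))) q := by
    have := (((hasDerivAt_id' q).const_mul (1 - t)).const_sub 1).const_mul t
    refine this.congr_deriv ?_
    ring
  have dM : HasDerivAt (mh t) (t * (-(1 - t)) / (2 * mh t q)) q :=
    dW.sqrt (mul_pos ht0 hW).ne'
  have dz : HasDerivAt (fun y : ℝ => y * t / mh t y)
      ((1 * t * mh t q - q * t * (t * (-(1 - t)) / (2 * mh t q))) / mh t q ^ 2) q :=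
    ((hasDerivAt_id' q).mul_const t).div dM hM.ne'
  have dA : HasDerivAt (fun y : ℝ => A (y * t / mh t y))
      (1 / (1 - (q * t / mh t q) ^ 2) *
        ((1 * t * mh t q - q * t * (t * (-(1 - t)) / (2 * mh t q))) / mh t q ^ 2)) q :=
    HasDerivAt.comp (h₂ := A) (h := fun y : ℝ => y * t / mh t y) q (hasDerivAt_A hz) dz
  have dl1 : HasDerivAt (fun y : ℝ => log (1 - y)) (-1 / (1 - q)) q := by
    have := ((hasDerivAt_id' q).const_sub 1).log hq1'.ne'
    exact this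
  have dl2 : HasDerivAt (fun y : ℝ => log (1 + y * t)) (t / (1 + q * t)) q := by
    have := (((hasDerivAt_id' q).mul_const t).const_add 1).log hqt.ne'
    refine this.congr_deriv ?_
    ring
  have main := ((dl1.const_mul t).neg.add dl2).sub ((dM.const_mul 2).mul dA)
  have hfun : Eh t = (fun y : ℝ => -(t * log (1 - y)) + log (1 + y * t) -
      2 * mh t y * A (y * t / mh t y)) := by
    funext y
    rfl
  rw [hfun]
  refine main.congr_deriv ?_
  generalize A (q * t / mh t q) = AA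
  obtain ⟨M, hMe⟩ : ∃ M, M = mh t q := ⟨_, rfl⟩
  rw [← hMe] at hM hM2 ⊢
  obtain ⟨W, hWe⟩ : ∃ W, W = 1 - (1 - t) * q := ⟨_, rfl⟩
  rw [← hWe] at hW hM2
  have h1 : 1 - (q * t / M) ^ 2 = (1 - q) * (1 + q * t) / W := by
    rw [div_pow, hM2]
    have hWn := hW.ne'
    have htn := ht0.ne'
    field_simp
    rw [hWe]
    ring
  have h2 : 2 * M * ((1 * t * M - q * t * (t * (-(1 - t)) / (2 * M))) / M ^ 2) =
      t * (2 * W + q * (1 - t)) / W := by
    have hMn := hM.ne'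
    have hWn := hW.ne'
    rw [show (1 * t * M - q * t * (t * (-(1 - t)) / (2 * M))) / M ^ 2 =
      (2 * t * M ^ 2 + q * t ^ 2 * (1 - t)) / (2 * M * M ^ 2) by
        field_simp
        ring]
    rw [hM2]
    have htn := ht0.ne'
    field_simp
  have h3 : 2 * M * (1 / (1 - (q * t / M) ^ 2) *
      ((1 * t * M - q * t * (t * (-(1 - t)) / (2 * M))) / M ^ 2)) =
      t / (1 - q) + t / (1 + q * t) := by
    have e : 2 * M * (1 / (1 - (q * t / M) ^ 2) *
        ((1 * t * M - q * t * (t * (-(1 - t)) / (2 * M))) / M ^ 2)) =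
        1 / (1 - (q * t / M) ^ 2) *
          (2 * M * ((1 * t * M - q * t * (t * (-(1 - t)) / (2 * M))) / M ^ 2)) := by ring
    rw [e, h1, h2]
    have hWn := hW.ne'
    have hqn := hq1'.ne'
    have hqtn := hqt.ne'
    field_simp
    rw [hWe]
    ring
  have hMn := hM.ne'
  have e2 : -(t * (-1 / (1 - q))) + t / (1 + q * t) -
      (2 * (t * (-(1 - t)) / (2 * M)) * AA + 2 * M * (1 / (1 - (q * t / M) ^ 2) *
        ((1 * t * M - q * t * (t * (-(1 - t)) / (2 * M))) / M ^ 2))) =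
      -(t * (-1 / (1 - q))) + t / (1 + q * t) -
      2 * (t * (-(1 - t)) / (2 * M)) * AA - (t / (1 - q) + t / (1 + q * t)) := by
    rw [← h3]
    ring
  rw [e2]
  field_simp
  ring

lemma hasDerivAt_Hq (hb : (1 - t) ≠ 0) (hW : 0 < 1 - (1 - t) * q) :
    HasDerivAt (Hq (1 - t)) (q / (1 - (1 - t) * q)) q := by
  have d1 : HasDerivAt (fun y : ℝ => 1 - (1 - t) * y) (-(1 - t)) q := by
    have := ((hasDerivAt_id' q).const_mul (1 - t)).const_sub 1
    refine this.congr_deriv ?_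
    ring
  have d2 := d1.log hW.ne'
  have d3 := (d2.neg.sub ((hasDerivAt_id' q).const_mul (1 - t))).div_const ((1 - t) ^ 2)
  have hfun : Hq (1 - t) = (fun y : ℝ => (-log (1 - (1 - t) * y) - (1 - t) * y) / (1 - t) ^ 2) := by
    funext y
    rfl
  rw [hfun]
  refine d3.congr_deriv ?_
  have hWn := hW.ne'
  obtain ⟨W, hWe⟩ : ∃ W, W = 1 - (1 - t) * q := ⟨_, rfl⟩
  rw [← hWe] at hWn ⊢
  obtain ⟨b, hbe⟩ : ∃ b, b = 1 - t := ⟨_, rfl⟩
  rw [← hbe] at hb hWe ⊢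
  field_simp
  rw [hWe]
  ring

lemma hasDerivAt_S (ht0 : 0 < t) (ht1 : t < 1) (hq0 : 0 ≤ q) (hq1 : q ≤ 1) :
    HasDerivAt (fun y : ℝ => t / 12 * y ^ 4 / (1 - 4 / 5 * ((1 - t) * y)) ^ 2)
      (t / 3 * q ^ 3 * (1 - 2 / 5 * ((1 - t) * q)) / (1 - 4 / 5 * ((1 - t) * q)) ^ 3) q := by
  have hD : 0 < 1 - 4 / 5 * ((1 - t) * q) := by nlinarith [mul_nonneg hq0 (by linarith : 0 ≤ t)]
  have d1 : HasDerivAt (fun y : ℝ => 1 - 4 / 5 * ((1 - t) * y)) (-(4 / 5 * (1 - t))) q := by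
    have := (((hasDerivAt_id' q).const_mul (1 - t)).const_mul (4 / 5 : ℝ)).const_sub 1
    refine this.congr_deriv ?_
    ring
  have d2 : HasDerivAt (fun y : ℝ => (1 - 4 / 5 * ((1 - t) * y)) ^ 2)
      (2 * (1 - 4 / 5 * ((1 - t) * q)) * (-(4 / 5 * (1 - t)))) q := by
    have := d1.fun_pow 2
    refine this.congr_deriv ?_
    norm_num
  have d3 : HasDerivAt (fun y : ℝ => t / 12 * y ^ 4) (t / 12 * (4 * q ^ 3)) q := by
    have := (hasDerivAt_pow 4 q).const_mul (t / 12)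
    refine this.congr_deriv ?_
    norm_num
  have d4 := d3.fun_div d2 (pow_ne_zero 2 hD.ne')
  refine d4.congr_deriv ?_
  obtain ⟨D, hDe⟩ : ∃ D, D = 1 - 4 / 5 * ((1 - t) * q) := ⟨_, rfl⟩
  rw [← hDe] at hD ⊢
  have hDn := hD.ne'
  field_simp
  rw [hDe]
  ring

/-- The elementary comparison of the two weights. -/
lemma weight_le {u : ℝ} (h0 : 0 ≤ u) (h1 : u ≤ 1) :
    (1 - 2 / 5 * u) / (1 - 4 / 5 * u) ^ 3 ≤ 1 / (1 - u) ^ 2 ∨ u = 1 := by
  rcases eq_or_lt_of_le h1 with h | h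
  · exact Or.inr h
  left
  have hD : 0 < 1 - 4 / 5 * u := by linarith
  have hW : 0 < 1 - u := by linarith
  rw [div_le_div_iff₀ (by positivity) (by positivity)]
  have : (1 - 4 / 5 * u) ^ 3 - (1 - 2 / 5 * u) * (1 - u) ^ 2 = u ^ 2 * (3 / 25 - 14 / 125 * u) := by
    ring
  have h2 : 0 ≤ u ^ 2 * (3 / 25 - 14 / 125 * u) := by
    apply mul_nonneg (sq_nonneg u)
    linarith
  linarith

end

/-- `E ≥ β τ H₂` in the coordinates `(τ, q)`. -/
lemma Eh_ge {t q : ℝ} (ht0 : 0 < t) (ht1 : t < 1) (hq0 : 0 < q) (hq1 : q < 1) :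
    (1 - t) * t * H2 t q ≤ Eh t q := by
  have hb : 0 < 1 - t := by linarith
  have hd : ∀ y, 0 ≤ y → y < 1 → HasDerivAt (fun y => Eh t y - (1 - t) * t * H2 t y)
      ((1 - t) * t / mh t y * A (y * t / mh t y) -
      (1 - t) * t * (y / (1 - (1 - t) * y) +
        t / 3 * y ^ 3 * (1 - 2 / 5 * ((1 - t) * y)) / (1 - 4 / 5 * ((1 - t) * y)) ^ 3)) y := by
    intro y hy0 hy1
    have d1 := hasDerivAt_Eh ht0 ht1 hy0 hy1
    have d2 := hasDerivAt_Hq (t := t) (q := y) hb.ne' (W_pos ht0 ht1 hy0 hy1.le)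
    have d3 := hasDerivAt_S ht0 ht1 hy0 hy1.le
    have d4 := d1.sub ((d2.add d3).const_mul ((1 - t) * t))
    exact d4
  have hmono : MonotoneOn (fun y => Eh t y - (1 - t) * t * H2 t y) (Icc 0 q) := by
    apply mono_of_deriv (f' := fun y => (1 - t) * t / mh t y * A (y * t / mh t y) -
      (1 - t) * t * (y / (1 - (1 - t) * y) +
        t / 3 * y ^ 3 * (1 - 2 / 5 * ((1 - t) * y)) / (1 - 4 / 5 * ((1 - t) * y)) ^ 3))
    · intro y hy
      exact (hd y hy.1 (lt_of_le_of_lt hy.2 hq1)).continuousAt.continuousWithinAt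
    · intro y hy
      exact hd y hy.1.le (lt_trans hy.2 hq1)
    · intro y hy
      have hy0 := hy.1
      have hy1 : y < 1 := lt_trans hy.2 hq1
      have hM := mh_pos ht0 ht1 hy0.le hy1.le
      have hM2 := mh_sq ht0 ht1 hy0.le hy1.le
      have hW := W_pos ht0 ht1 hy0.le hy1.le
      have hz1 := z_lt_one ht0 ht1 hy0.le hy1
      have hz0 : 0 ≤ y * t / mh t y := by positivity
      have hA := a_ge_cube hz0 hz1
      have hu0 : 0 ≤ (1 - t) * y := by positivity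
      have hu1 : (1 - t) * y < 1 := by nlinarith
      have hD : 0 < 1 - 4 / 5 * ((1 - t) * y) := by linarith
      have hweight : (1 - 2 / 5 * ((1 - t) * y)) / (1 - 4 / 5 * ((1 - t) * y)) ^ 3 ≤
          1 / (1 - (1 - t) * y) ^ 2 := by
        rcases weight_le hu0 hu1.le with h | h
        · exact h
        · exact absurd h hu1.ne
      have hc : 0 ≤ (1 - t) * t / mh t y := by positivity
      have h1 := mul_le_mul_of_nonneg_left hA hc
      have e1 : (1 - t) * t / mh t y * (y * t / mh t y + (y * t / mh t y) ^ 3 / 3) =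
          (1 - t) * t * (y / (1 - (1 - t) * y) + t / 3 * y ^ 3 / (1 - (1 - t) * y) ^ 2) := by
        obtain ⟨M, hMe⟩ : ∃ M, M = mh t y := ⟨_, rfl⟩
        rw [← hMe] at hM hM2 ⊢
        obtain ⟨W, hWe⟩ : ∃ W, W = 1 - (1 - t) * y := ⟨_, rfl⟩
        rw [← hWe] at hW hM2 ⊢
        have e3 : (1 - t) * t / M * (y * t / M + (y * t / M) ^ 3 / 3) =
            (1 - t) * t * (y * t / M ^ 2 + (y * t) ^ 3 / 3 / (M ^ 2) ^ 2) := by
          have hMn := hM.ne'
          field_simp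
        rw [e3, hM2]
        have hWn := hW.ne'
        have htn := ht0.ne'
        field_simp
      rw [e1] at h1
      have h2 : t / 3 * y ^ 3 * (1 - 2 / 5 * ((1 - t) * y)) / (1 - 4 / 5 * ((1 - t) * y)) ^ 3 ≤
          t / 3 * y ^ 3 / (1 - (1 - t) * y) ^ 2 := by
        have h3 := mul_le_mul_of_nonneg_left hweight (by positivity : 0 ≤ t / 3 * y ^ 3)
        have e4 : t / 3 * y ^ 3 * ((1 - 2 / 5 * ((1 - t) * y)) / (1 - 4 / 5 * ((1 - t) * y)) ^ 3) =
            t / 3 * y ^ 3 * (1 - 2 / 5 * ((1 - t) * y)) / (1 - 4 / 5 * ((1 - t) * y)) ^ 3 := by ring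
        have e5 : t / 3 * y ^ 3 * (1 / (1 - (1 - t) * y) ^ 2) =
            t / 3 * y ^ 3 / (1 - (1 - t) * y) ^ 2 := by ring
        rw [e4, e5] at h3
        exact h3
      have h4 : 0 ≤ (1 - t) * t := by positivity
      have h5 := mul_le_mul_of_nonneg_left h2 h4
      have e6 : (1 - t) * t * (y / (1 - (1 - t) * y) + t / 3 * y ^ 3 / (1 - (1 - t) * y) ^ 2) =
          (1 - t) * t * (y / (1 - (1 - t) * y)) +
            (1 - t) * t * (t / 3 * y ^ 3 / (1 - (1 - t) * y) ^ 2) := by ring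
      have e7 : (1 - t) * t * (y / (1 - (1 - t) * y) +
          t / 3 * y ^ 3 * (1 - 2 / 5 * ((1 - t) * y)) / (1 - 4 / 5 * ((1 - t) * y)) ^ 3) =
          (1 - t) * t * (y / (1 - (1 - t) * y)) +
            (1 - t) * t * (t / 3 * y ^ 3 * (1 - 2 / 5 * ((1 - t) * y)) /
              (1 - 4 / 5 * ((1 - t) * y)) ^ 3) := by ring
      rw [e6] at h1
      rw [e7]
      linarith
  have h := hmono (left_mem_Icc.mpr hq0.le) (right_mem_Icc.mpr hq0.le) hq0.le
  simp only at h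
  have e0 : Eh t 0 = 0 := by
    unfold Eh
    simp [A_zero]
  have e1 : H2 t 0 = 0 := by
    unfold H2 Hq
    simp
  rw [e0, e1] at h
  linarith

/-- `τ = v m`. -/
lemma tau_eq_v_mean (v r : ℝ) : tau v r = v * mean v r := by
  unfold tau mean
  ring

/-- `m² = τ (1 - β q)`. -/
lemma mean_sq {v r : ℝ} (hv0 : 0 ≤ v) (hv1 : v < 1) (hr0 : 0 < r) (hr1 : r < 1) :
    mean v r ^ 2 = tau v r * (1 - (1 - tau v r) * r ^ 2) := by
  have hD := D0_pos_ee hv0 hv1.le hr0 hr1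
  have hb : 1 - tau v r = bet v r := by
    have := bet_add_tau (v := v) (r := r) hD.ne'
    linarith
  rw [hb]
  unfold mean tau bet
  obtain ⟨D, hDe⟩ : ∃ D, D = 1 - v ^ 2 * r ^ 2 := ⟨_, rfl⟩
  rw [← hDe] at hD ⊢
  have hDn := hD.ne'
  field_simp
  rw [hDe]
  ring

lemma tau_nonneg {v r : ℝ} (hv0 : 0 ≤ v) (hv1 : v < 1) (hr0 : 0 < r) (hr1 : r < 1) :
    0 ≤ tau v r := by
  have hD := D0_pos_ee hv0 hv1.le hr0 hr1
  have : 0 ≤ 1 - r ^ 2 := by nlinarith
  unfold tau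
  positivity

lemma tau_lt_one {v r : ℝ} (hv0 : 0 ≤ v) (hv1 : v < 1) (hr0 : 0 < r) (hr1 : r < 1) :
    tau v r < 1 := by
  have hD := D0_pos_ee hv0 hv1.le hr0 hr1
  have hb := bet_pos hv0 hv1 hr0 hr1
  have := bet_add_tau (v := v) (r := r) hD.ne'
  linarith

lemma mean_pos {v r : ℝ} (hv0 : 0 < v) (hv1 : v < 1) (hr0 : 0 < r) (hr1 : r < 1) :
    0 < mean v r := by
  have hD := D0_pos_ee hv0.le hv1.le hr0 hr1
  have : 0 < 1 - r ^ 2 := by nlinarith
  unfold mean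
  positivity

/-- `E` in the two coordinate systems. -/
lemma Ee_eq_Eh {v r : ℝ} (hv0 : 0 < v) (hv1 : v < 1) (hr0 : 0 < r) (hr1 : r < 1) :
    Ee v r = Eh (tau v r) (r ^ 2) := by
  have hm := mean_pos hv0 hv1 hr0 hr1
  have hm2 := mean_sq hv0.le hv1 hr0 hr1
  have e1 : mh (tau v r) (r ^ 2) = mean v r := by
    unfold mh
    rw [← hm2]
    exact Real.sqrt_sq hm.le
  unfold Ee Eh
  rw [e1, tau_eq_v_mean]
  have e2 : r ^ 2 * (v * mean v r) / mean v r = v * r ^ 2 := by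
    field_simp
  rw [e2]

/-- `E ≥ β τ H₂`. -/
theorem Ee_ge_H2 {v r : ℝ} (hv0 : 0 < v) (hv1 : v < 1) (hr0 : 0 < r) (hr1 : r < 1) :
    (1 - tau v r) * tau v r * H2 (tau v r) (r ^ 2) ≤ Ee v r := by
  rw [Ee_eq_Eh hv0 hv1 hr0 hr1]
  have ht0 : 0 < tau v r := by
    rw [tau_eq_v_mean]
    exact mul_pos hv0 (mean_pos hv0 hv1 hr0 hr1)
  exact Eh_ge ht0 (tau_lt_one hv0.le hv1 hr0 hr1) (by positivity) (by nlinarith)

end Vale.Agent.CK
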