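import Vale.Agent.CK.IA2
import Vale.Agent.CK.Key4G
import Vale.Agent.CK.Key4Lower
import Vale.Agent.CK.Key4Tail

/-!
Soundness of the check `Gk`: the two alternatives on the compact part of `(τ, r)`.
-/

open Real Set

namespace Vale.Agent.CK

open Vale.Agent.P322

attribute [local irreducible] SN smallZ

lemma rl_of (n : ℕ) : rl n = (n : ℝ) / 1073741824 := by
  unfold rl
  rw [SN_real]

lemma sound_one : Sound 1 ivOne := by
  have := sound_C SN
  rw [rl_SN] at this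
  exact this

lemma sound_ck45 : Sound (4 / 5) ck45 :=
  sound_box (by rw [rl_of]; norm_num) (by rw [rl_of]; norm_num)

lemma sound_ck112 : Sound (1 / 12) ck112 :=
  sound_box (by rw [rl_of]; norm_num) (by rw [rl_of]; norm_num)

lemma sound_ck54 : Sound (5 / 4) ck54 :=
  sound_box (by rw [rl_of]; norm_num) (by rw [rl_of]; norm_num)

lemma sound_ck32 : Sound (3 / 2) ck32 :=
  sound_box (by rw [rl_of]; norm_num) (by rw [rl_of]; norm_num)

lemma sound_ck2 : Sound 2 ck2 :=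
  sound_box (by rw [rl_of]; norm_num) (by rw [rl_of]; norm_num)

lemma sound_ck14 : Sound (1 / 4) ck14 :=
  sound_box (by rw [rl_of]; norm_num) (by rw [rl_of]; norm_num)

lemma sound_ck12 : Sound (1 / 2) ck12 :=
  sound_box (by rw [rl_of]; norm_num) (by rw [rl_of]; norm_num)

lemma sound_ckA : Sound (645 / 2000) ckA :=
  sound_box (by rw [rl_of]; norm_num) (by rw [rl_of]; norm_num)

lemma sound_ckK : Sound (57 / 100) ckK :=
  sound_box (by rw [rl_of]; norm_num) (by rw [rl_of]; norm_num)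

lemma sound_Co {x : ℝ} {X : IV} (hx1 : x ≤ 1) (h : Sound x X) : Sound (1 - x) (ivCo X) := by
  have h2 := sound_Tsub sound_one h
  rwa [max_eq_left (by linarith)] at h2

/-! ### Monotonicity of the ingredients -/

section real

variable {t t₁ t₂ q q₁ q₂ : ℝ}

lemma f1_mono (h0 : 0 ≤ t₁) (h1 : t₁ ≤ t) (h2 : t ≤ 1) (hq0 : 0 ≤ q) (hq : q ≤ q₂) (hq2 : q₂ ≤ 1) :
    f1 t q ≤ f1 t₁ q₂ := by
  have e1 : f1 t₁ q - f1 t q = q / 4 * (t - t₁) * (2 - q + q * (t + t₁)) := by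
    unfold f1
    ring
  have e2 : f1 t₁ q₂ - f1 t₁ q =
      (q₂ - q) * (5 / 4 - t₁ / 2 + (t₁ - t₁ ^ 2) * (q₂ + q) / 4) := by
    unfold f1
    ring
  have h3 : 0 ≤ q / 4 * (t - t₁) * (2 - q + q * (t + t₁)) := by
    apply mul_nonneg (mul_nonneg (by positivity) (by linarith))
    have : 0 ≤ q * (t + t₁) := mul_nonneg hq0 (by linarith)
    linarith
  have ht1 : t₁ ≤ 1 := by linarith
  have h4 : 0 ≤ (q₂ - q) * (5 / 4 - t₁ / 2 + (t₁ - t₁ ^ 2) * (q₂ + q) / 4) := by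
    apply mul_nonneg (by linarith)
    have h5 : 0 ≤ t₁ - t₁ ^ 2 := by nlinarith
    have h6 : 0 ≤ (t₁ - t₁ ^ 2) * (q₂ + q) / 4 := by
      have : 0 ≤ q₂ + q := by linarith
      positivity
    linarith
  linarith

/-- `H(b, ·)` is nondecreasing, and nondecreasing in `b`. -/
lemma Hq_mono (ht0 : 0 < t) (htt : t ≤ t₂) (ht2 : t₂ < 1) (hq0 : 0 ≤ q₁) (hqq : q₁ ≤ q)
    (hq1 : q < 1) : Hq (1 - t₂) q₁ ≤ Hq (1 - t) q := by
  have hb2 : 0 < 1 - t₂ := by linarith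
  have hb : 0 < 1 - t := by linarith
  have ht1 : t < 1 := by linarith
  have ht20 : 0 < t₂ := by linarith
  -- in `q`
  have h1 : Hq (1 - t₂) q₁ ≤ Hq (1 - t₂) q := by
    have hm : MonotoneOn (Hq (1 - t₂)) (Icc q₁ q) := by
      apply mono_of_deriv (f' := fun y => y / (1 - (1 - t₂) * y))
      · intro y hy
        exact (hasDerivAt_Hq hb2.ne' (W_pos ht20 ht2 (hq0.trans hy.1)
          (hy.2.trans hq1.le))).continuousAt.continuousWithinAt
      · intro y hy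
        exact hasDerivAt_Hq hb2.ne' (W_pos ht20 ht2 (hq0.trans hy.1.le)
          (hy.2.le.trans hq1.le))
      · intro y hy
        have := W_pos ht20 ht2 (hq0.trans hy.1.le) (hy.2.le.trans hq1.le)
        have hy0 : 0 ≤ y := hq0.trans hy.1.le
        positivity
    exact hm (left_mem_Icc.mpr hqq) (right_mem_Icc.mpr hqq) hqq
  -- in `b`
  have h2 : Hq (1 - t₂) q ≤ Hq (1 - t) q := by
    have hq00 : 0 ≤ q := hq0.trans hqq
    have hm : MonotoneOn (fun y => Hq (1 - t) y - Hq (1 - t₂) y) (Icc 0 q) := by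
      apply mono_of_deriv (f' := fun y => y / (1 - (1 - t) * y) - y / (1 - (1 - t₂) * y))
      · intro y hy
        have hy1 : y ≤ 1 := hy.2.trans hq1.le
        exact ((hasDerivAt_Hq hb.ne' (W_pos ht0 ht1 hy.1 hy1)).sub
          (hasDerivAt_Hq hb2.ne' (W_pos ht20 ht2 hy.1 hy1))).continuousAt.continuousWithinAt
      · intro y hy
        have hy1 : y ≤ 1 := hy.2.le.trans hq1.le
        exact (hasDerivAt_Hq hb.ne' (W_pos ht0 ht1 hy.1.le hy1)).sub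
          (hasDerivAt_Hq hb2.ne' (W_pos ht20 ht2 hy.1.le hy1))
      · intro y hy
        have hy1 : y ≤ 1 := hy.2.le.trans hq1.le
        have hW1 := W_pos ht0 ht1 hy.1.le hy1
        have hW2 := W_pos ht20 ht2 hy.1.le hy1
        have hle : 1 - (1 - t) * y ≤ 1 - (1 - t₂) * y := by nlinarith [hy.1]
        have := div_le_div_of_nonneg_left hy.1.le hW1 hle
        linarith
    have := hm (left_mem_Icc.mpr hq00) (right_mem_Icc.mpr hq00) hq00
    simp only at this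
    have e1 : Hq (1 - t) 0 = 0 := by
      unfold Hq
      simp
    have e2 : Hq (1 - t₂) 0 = 0 := by
      unfold Hq
      simp
    rw [e1, e2] at this
    linarith
  exact h1.trans h2

/-- `H(b, q) ≥ q²/2`. -/
lemma Hq_ge_half (ht0 : 0 < t) (ht1 : t < 1) (hq0 : 0 ≤ q) (hq1 : q < 1) :
    q * q * (1 / 2) ≤ Hq (1 - t) q := by
  have hb : 0 < 1 - t := by linarith
  have hm : MonotoneOn (fun y => Hq (1 - t) y - y ^ 2 / 2) (Icc 0 q) := by
    apply mono_of_deriv (f' := fun y => y / (1 - (1 - t) * y) - y)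
    · intro y hy
      have hy1 : y ≤ 1 := hy.2.trans hq1.le
      have d := (hasDerivAt_Hq hb.ne' (W_pos ht0 ht1 hy.1 hy1)).sub
        ((hasDerivAt_pow 2 y).div_const 2)
      exact d.continuousAt.continuousWithinAt
    · intro y hy
      have hy1 : y ≤ 1 := hy.2.le.trans hq1.le
      have d := (hasDerivAt_Hq hb.ne' (W_pos ht0 ht1 hy.1.le hy1)).sub
        ((hasDerivAt_pow 2 y).div_const 2)
      refine d.congr_deriv ?_
      norm_num
    · intro y hy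
      have hy1 : y ≤ 1 := hy.2.le.trans hq1.le
      have hW := W_pos ht0 ht1 hy.1.le hy1
      have hle : 1 - (1 - t) * y ≤ 1 := by nlinarith [hy.1]
      have : y ≤ y / (1 - (1 - t) * y) := by
        rw [le_div_iff₀ hW]
        nlinarith [hy.1]
      linarith
  have := hm (left_mem_Icc.mpr hq0) (right_mem_Icc.mpr hq0) hq0
  simp only at this
  have e1 : Hq (1 - t) 0 = 0 := by
    unfold Hq
    simp
  rw [e1] at this
  norm_num at this
  nlinarith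

/-- The second summand of `H₂` on a box. -/
lemma S_lower (h0 : 0 ≤ t₁) (h1 : t₁ ≤ t) (h2 : t ≤ t₂) (h3 : t₂ ≤ 1) (hq0 : 0 ≤ q₁) (hqq : q₁ ≤ q)
    (hq1 : q < 1) :
    (t₁ * (1 / 12)) * ((q₁ * q₁) * (q₁ * q₁)) /
        ((1 - 4 / 5 * ((1 - t₂) * q₁)) * (1 - 4 / 5 * ((1 - t₂) * q₁))) ≤
      t / 12 * q ^ 4 / (1 - 4 / 5 * ((1 - t) * q)) ^ 2 := by
  have hq : 0 ≤ q := hq0.trans hqq
  have ht : 0 ≤ t := h0.trans h1
  have hb : 0 ≤ 1 - t := by linarith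
  have hb2 : 0 ≤ 1 - t₂ := by linarith
  have hu : (1 - t₂) * q₁ ≤ (1 - t) * q := mul_le_mul (by linarith) hqq hq0 hb
  have hu1 : (1 - t) * q ≤ 1 := by nlinarith
  have hD0 : 0 < 1 - 4 / 5 * ((1 - t) * q) := by linarith
  have hD : 1 - 4 / 5 * ((1 - t) * q) ≤ 1 - 4 / 5 * ((1 - t₂) * q₁) := by linarith
  have hq4 : (q₁ * q₁) * (q₁ * q₁) ≤ q ^ 4 := by
    have h4 : q₁ * q₁ ≤ q * q := mul_le_mul hqq hqq hq0 hq
    have h5 := mul_le_mul h4 h4 (mul_nonneg hq0 hq0) (mul_nonneg hq hq)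
    refine h5.trans (le_of_eq ?_)
    ring
  have hnum : (t₁ * (1 / 12)) * ((q₁ * q₁) * (q₁ * q₁)) ≤ t / 12 * q ^ 4 := by
    have h6 := mul_le_mul (by linarith : t₁ * (1 / 12) ≤ t / 12) hq4 (by positivity) (by positivity)
    exact h6
  have hden : (1 - 4 / 5 * ((1 - t) * q)) ^ 2 ≤
      (1 - 4 / 5 * ((1 - t₂) * q₁)) * (1 - 4 / 5 * ((1 - t₂) * q₁)) := by
    rw [sq]
    exact mul_le_mul hD hD hD0.le (hD0.le.trans hD)
  exact div_le_div₀ (by positivity) hnum (by positivity) hden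

/-- `g` on a box. -/
lemma gg_le (h0 : 0 ≤ t₁) (h1 : t₁ ≤ t) (h2 : t ≤ t₂) (h3 : t₂ ≤ 1) (hq0 : 0 ≤ q₁) (hqq : q₁ ≤ q)
    (hq2 : q ≤ q₂) (hq21 : q₂ ≤ 1) :
    gg t q ≤ (1 - t₁) * q₂ * max (5 / 4 - (3 / 2 * (t₁ * (1 - (1 - t₁) * q₂)) +
      1 / 4 * ((1 - t₂) * (1 - t₂) * q₁))) 0 := by
  have hq : 0 ≤ q := hq0.trans hqq
  have ht : 0 ≤ t := h0.trans h1
  have hb : 0 ≤ 1 - t := by linarith
  have hb1 : 1 - t ≤ 1 - t₁ := by linarith
  have hb2 : 1 - t₂ ≤ 1 - t := by linarith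
  have hb20 : 0 ≤ 1 - t₂ := by linarith
  have hu : (1 - t) * q ≤ (1 - t₁) * q₂ := mul_le_mul hb1 hq2 hq (by linarith)
  have hu0 : 0 ≤ (1 - t) * q := mul_nonneg hb hq
  have hWl : 1 - (1 - t₁) * q₂ ≤ 1 - (1 - t) * q := by linarith
  have hWl0 : 0 ≤ 1 - (1 - t₁) * q₂ := by nlinarith
  have hm : t₁ * (1 - (1 - t₁) * q₂) ≤ t * (1 - (1 - t) * q) := mul_le_mul h1 hWl hWl0 ht
  have hc : (1 - t₂) * (1 - t₂) * q₁ ≤ (1 - t) ^ 2 * q := by
    rw [sq]
    exact mul_le_mul (mul_le_mul hb2 hb2 hb20 hb) hqq hq0 (mul_nonneg hb hb)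
  have hB : 5 / 4 - 3 / 2 * (t * (1 - (1 - t) * q)) - (1 - t) ^ 2 * q / 4 ≤
      max (5 / 4 - (3 / 2 * (t₁ * (1 - (1 - t₁) * q₂)) +
        1 / 4 * ((1 - t₂) * (1 - t₂) * q₁))) 0 :=
    le_max_of_le_left (by linarith)
  have hM : 0 ≤ max (5 / 4 - (3 / 2 * (t₁ * (1 - (1 - t₁) * q₂)) +
        1 / 4 * ((1 - t₂) * (1 - t₂) * q₁))) 0 := le_max_right _ _
  unfold gg
  exact (mul_le_mul_of_nonneg_left hB hu0).trans (mul_le_mul_of_nonneg_right hu hM)

/-- The positive form of `x = 1 + τ f₁ - g`. -/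
lemma xbar_eq (t q : ℝ) :
    1 + t * f1 t q - gg t q =
      ((1 - q) + 2 * (q * t)) *
        (1 - 1 / 4 * (t * (1 - (1 - t) * q) + (1 - t) * (1 - t) * q)) +
      (t * ((1 - t) * q)) * (1 - (1 - t) * q) := by
  unfold f1 gg
  ring

/-- Bounds for `x = 1 + τ f₁ - g` on a box. -/
lemma xbar_bounds (h0 : 0 ≤ t₁) (h1 : t₁ ≤ t) (h2 : t ≤ t₂) (h3 : t₂ ≤ 1) (hq0 : 0 ≤ q₁) (hqq : q₁ ≤ q)
    (hq2 : q ≤ q₂) (hq21 : q₂ ≤ 1) :
    ((1 - q₂) + 2 * (q₁ * t₁)) *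
        (1 - 1 / 4 * (t₂ * (1 - (1 - t₂) * q₁) + (1 - t₁) * (1 - t₁) * q₂)) +
      (t₁ * ((1 - t₂) * q₁)) * (1 - (1 - t₁) * q₂) ≤ 1 + t * f1 t q - gg t q ∧
    1 + t * f1 t q - gg t q ≤
      ((1 - q₁) + 2 * (q₂ * t₂)) *
        (1 - 1 / 4 * (t₁ * (1 - (1 - t₁) * q₂) + (1 - t₂) * (1 - t₂) * q₁)) +
      (t₂ * ((1 - t₁) * q₂)) * (1 - (1 - t₂) * q₁) := by
  have hq : 0 ≤ q := hq0.trans hqq
  have ht : 0 ≤ t := h0.trans h1
  have ht2 : 0 ≤ t₂ := ht.trans h2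
  have hb : 0 ≤ 1 - t := by linarith
  have hb1 : 1 - t ≤ 1 - t₁ := by linarith
  have hb2 : 1 - t₂ ≤ 1 - t := by linarith
  have hb20 : 0 ≤ 1 - t₂ := by linarith
  have hb10 : 0 ≤ 1 - t₁ := by linarith
  have hq1 : q ≤ 1 := hq2.trans hq21
  have hq11 : q₁ ≤ 1 := hqq.trans hq1
  have hq20 : 0 ≤ q₂ := hq.trans hq2
  have hu : (1 - t) * q ≤ (1 - t₁) * q₂ := mul_le_mul hb1 hq2 hq hb10
  have hu' : (1 - t₂) * q₁ ≤ (1 - t) * q := mul_le_mul hb2 hqq hq0 hb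
  have hu0 : 0 ≤ (1 - t) * q := mul_nonneg hb hq
  have hu1 : 0 ≤ (1 - t₂) * q₁ := mul_nonneg hb20 hq0
  have hu2 : (1 - t₁) * q₂ ≤ 1 := by nlinarith
  have hWl0 : 0 ≤ 1 - (1 - t₁) * q₂ := by linarith
  have hWl : 1 - (1 - t₁) * q₂ ≤ 1 - (1 - t) * q := by linarith
  have hWh : 1 - (1 - t) * q ≤ 1 - (1 - t₂) * q₁ := by linarith
  have hW0 : 0 ≤ 1 - (1 - t) * q := by linarith
  have hWh0 : 0 ≤ 1 - (1 - t₂) * q₁ := by linarith
  have hWh1 : 1 - (1 - t₂) * q₁ ≤ 1 := by linarith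
  -- the first factor
  have hA1 : (1 - q₂) + 2 * (q₁ * t₁) ≤ (1 - q) + 2 * (q * t) := by
    have := mul_le_mul hqq h1 h0 hq
    linarith
  have hA2 : (1 - q) + 2 * (q * t) ≤ (1 - q₁) + 2 * (q₂ * t₂) := by
    have := mul_le_mul hq2 h2 ht hq20
    linarith
  have hA0 : 0 ≤ (1 - q₂) + 2 * (q₁ * t₁) := by
    have := mul_nonneg hq0 h0
    linarith
  -- the sum `S`
  have hS1 : t₁ * (1 - (1 - t₁) * q₂) + (1 - t₂) * (1 - t₂) * q₁ ≤
      t * (1 - (1 - t) * q) + (1 - t) * (1 - t) * q := by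
    have a1 := mul_le_mul h1 hWl hWl0 ht
    have a2 := mul_le_mul (mul_le_mul hb2 hb2 hb20 hb) hqq hq0 (mul_nonneg hb hb)
    linarith
  have hS2 : t * (1 - (1 - t) * q) + (1 - t) * (1 - t) * q ≤
      t₂ * (1 - (1 - t₂) * q₁) + (1 - t₁) * (1 - t₁) * q₂ := by
    have a1 := mul_le_mul h2 hWh hW0 ht2
    have a2 := mul_le_mul (mul_le_mul hb1 hb1 hb hb10) hq2 hq (mul_nonneg hb10 hb10)
    linarith
  have hS3 : t₂ * (1 - (1 - t₂) * q₁) + (1 - t₁) * (1 - t₁) * q₂ ≤ 2 := by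
    have a1 : t₂ * (1 - (1 - t₂) * q₁) ≤ 1 * 1 := mul_le_mul h3 hWh1 hWh0 zero_le_one
    have a2 : (1 - t₁) * (1 - t₁) * q₂ ≤ 1 * 1 * 1 :=
      mul_le_mul (mul_le_mul (by linarith) (by linarith) hb10 zero_le_one) hq21 hq20 (by norm_num)
    linarith
  have hB0 : 0 ≤ 1 - 1 / 4 * (t₂ * (1 - (1 - t₂) * q₁) + (1 - t₁) * (1 - t₁) * q₂) := by linarith
  have hB1 : 1 - 1 / 4 * (t₂ * (1 - (1 - t₂) * q₁) + (1 - t₁) * (1 - t₁) * q₂) ≤
      1 - 1 / 4 * (t * (1 - (1 - t) * q) + (1 - t) * (1 - t) * q) := by linarith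
  have hB2 : 1 - 1 / 4 * (t * (1 - (1 - t) * q) + (1 - t) * (1 - t) * q) ≤
      1 - 1 / 4 * (t₁ * (1 - (1 - t₁) * q₂) + (1 - t₂) * (1 - t₂) * q₁) := by linarith
  -- the last term
  have hC1 : (t₁ * ((1 - t₂) * q₁)) * (1 - (1 - t₁) * q₂) ≤ (t * ((1 - t) * q)) * (1 - (1 - t) * q) :=
    mul_le_mul (mul_le_mul h1 hu' hu1 ht) hWl hWl0 (mul_nonneg ht hu0)
  have hC2 : (t * ((1 - t) * q)) * (1 - (1 - t) * q) ≤ (t₂ * ((1 - t₁) * q₂)) * (1 - (1 - t₂) * q₁) :=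
    mul_le_mul (mul_le_mul h2 hu hu0 ht2) hWh hW0 (mul_nonneg ht2 (mul_nonneg hb10 hq20))
  rw [xbar_eq]
  constructor
  · have := mul_le_mul hA1 hB1 hB0 (hA0.trans hA1)
    linarith
  · have := mul_le_mul hA2 hB2 (hB0.trans hB1) (hA0.trans (hA1.trans hA2))
    linarith

/-- `x = 1 + τ f₁ - g` is positive. -/
lemma xbar_pos (ht0 : 0 ≤ t) (ht1 : t ≤ 1) (hq0 : 0 ≤ q) (hq1 : q < 1) :
    0 < 1 + t * f1 t q - gg t q := by
  rw [xbar_eq]
  have hb : 0 ≤ 1 - t := by linarith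
  have hu0 : 0 ≤ (1 - t) * q := mul_nonneg hb hq0
  have hu1 : (1 - t) * q ≤ 1 := by nlinarith
  have hA : 0 < (1 - q) + 2 * (q * t) := by
    have := mul_nonneg hq0 ht0
    linarith
  have hS : t * (1 - (1 - t) * q) + (1 - t) * (1 - t) * q ≤ 2 := by
    have a1 : t * (1 - (1 - t) * q) ≤ 1 * 1 := mul_le_mul ht1 (by linarith) (by linarith) zero_le_one
    have a2 : (1 - t) * (1 - t) * q ≤ 1 * 1 * 1 :=
      mul_le_mul (mul_le_mul (by linarith) (by linarith) hb zero_le_one) hq1.le hq0 (by norm_num)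
    linarith
  have hB : 0 < 1 - 1 / 4 * (t * (1 - (1 - t) * q) + (1 - t) * (1 - t) * q) := by linarith
  have hC : 0 ≤ (t * ((1 - t) * q)) * (1 - (1 - t) * q) :=
    mul_nonneg (mul_nonneg ht0 hu0) (by linarith)
  have := mul_pos hA hB
  linarith

end real

/-! ### The interval functions -/

lemma sound_Hq {b q : ℝ} {B Q : IV} (hB : Sound b B) (hQ : Sound q Q) (hu : b * q ≤ 1) :
    Sound (Hq b q) (ivHq B Q) := by
  have h := sound_Div (sound_Sub (sound_Mlog (sound_Co hu (sound_Mul hB hQ))) (sound_Mul hB hQ))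
    (sound_Mul hB hB)
  have e : Hq b q = (-log (1 - b * q) - b * q) / (b * b) := by
    unfold Hq
    rw [sq]
  rw [e]
  exact h

lemma sound_Y {r : ℝ} {R : IV} (h0 : 0 ≤ r) (h1 : r < 1) (hR : Sound r R) :
    Sound (Yf r) (ivY R) := by
  have hr := abs_lt_one_of h0 h1
  have hrr : r * r ≤ 1 := by nlinarith
  have h := sound_Sub (sound_Mlog (sound_Co hrr (sound_Mul hR hR)))
    (sound_Mul (sound_Mul hR hR) (sound_Atc hR))
  have e : Yf r = -log (1 - r * r) - r * r * atcf r := by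
    unfold Yf
    rw [A_eq_mul_atcf hr, sq]
    ring
  rw [e]
  exact h

lemma sound_Af {r : ℝ} {R : IV} (h0 : 0 < r) (h1 : r < 1) (hR : Sound r R) :
    Sound (Af r) (ivAf R) := by
  have hr := abs_lt_one_of h0.le h1
  have hrr : r * r ≤ 1 := by nlinarith
  have hQ := sound_Mul hR hR
  have hOm := sound_Co hrr hQ
  have hAT := sound_Atc hR
  have hL := sound_Mlog hOm
  have hRA := sound_Mul hQ hAT
  have h := sound_Add (sound_Sub hL hRA)
    (sound_Mul (sound_Sub (sound_Div sound_one (sound_Mul hOm hAT)) sound_one)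
      (sound_Sub (sound_Add sound_Ln2 (sound_Mul hL sound_ck12)) hRA))
  have hA := A_pos h0 h1
  have hAe := A_eq_mul_atcf hr
  have hATpos : 0 < atcf r := by
    rw [hAe] at hA
    exact (pos_iff_pos_of_mul_pos hA).mp h0
  have hOmp : 0 < 1 - r * r := by nlinarith
  have e : Af r = (-log (1 - r * r) - r * r * atcf r) +
      (1 / ((1 - r * r) * atcf r) - 1) *
        (log 2 + -log (1 - r * r) * (1 / 2) - r * r * atcf r) := by
    unfold Af Yf
    rw [kap_of_pos h0, ent_formula hr, hAe, sq]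
    have e2 : r / ((1 - r * r) * (r * atcf r)) = 1 / ((1 - r * r) * atcf r) := by
      have hrn := h0.ne'
      have hn1 := hOmp.ne'
      have hn2 := hATpos.ne'
      field_simp
    rw [e2]
    ring
  rw [e]
  exact h

lemma sound_F {a : ℕ} {q₂ : ℝ} {Q2 : IV} (ht : rl a ≤ 1) (hQ2 : Sound q₂ Q2) (hq0 : 0 ≤ q₂)
    (hq1 : q₂ ≤ 1) : Sound (max (f1 (rl a) q₂) 0) (ivF (ivC a) Q2) := by
  have ht0 := rl_nonneg a
  have hu : (1 - rl a) * q₂ ≤ 1 := by nlinarith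
  have hW := sound_Co hu (sound_Mul (sound_Co ht (sound_C a)) hQ2)
  have h := sound_Tsub hQ2
    (sound_Mul (sound_Mul hW (sound_Add sound_one (sound_Mul hQ2 (sound_C a)))) sound_ck14)
  have e : f1 (rl a) q₂ = q₂ - (1 - (1 - rl a) * q₂) * (1 + q₂ * rl a) * (1 / 4) := by
    unfold f1
    ring
  rw [e]
  exact h

/-- The lower bound of `H₂`. -/
lemma sound_Hlo {a b : ℕ} {t q q₁ : ℝ} {Q1 : IV} (hQ1 : Sound q₁ Q1)
    (h1 : rl a ≤ t) (h2 : t ≤ rl b) (h3 : rl b ≤ 1) (ht0 : 0 < t) (ht1 : t < 1)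
    (hq0 : 0 ≤ q₁) (hqq : q₁ ≤ q) (hq1 : q < 1) :
    ∃ H', H' ≤ H2 t q ∧ Sound H' (ivHlo (ivC a) (ivC b) Q1) := by
  have hb0 : 0 ≤ 1 - rl b := by linarith
  have hB2 := sound_Co h3 (sound_C b)
  have hq11 : q₁ ≤ 1 := by linarith
  have hu : (1 - rl b) * q₁ ≤ 1 := by nlinarith [rl_nonneg b]
  have hu0 : 0 ≤ (1 - rl b) * q₁ := mul_nonneg hb0 hq0
  have hD := sound_Co (x := 4 / 5 * ((1 - rl b) * q₁)) (by linarith)
    (sound_Mul sound_ck45 (sound_Mul hB2 hQ1))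
  have hS := sound_Div (sound_Mul (sound_Mul (sound_C a) sound_ck112)
    (sound_Mul (sound_Mul hQ1 hQ1) (sound_Mul hQ1 hQ1))) (sound_Mul hD hD)
  have hSl := S_lower (rl_nonneg a) h1 h2 h3 hq0 hqq hq1
  cases hc : Nat.ble b 1040187392 with
  | true =>
    have hb31 : rl b ≤ 31 / 32 := by
      refine (rl_mono (ble_le hc)).trans ?_
      rw [rl_of]
      norm_num
    have hH := Hq_mono ht0 h2 (by linarith) hq0 hqq hq1
    have h5 := sound_Add (sound_Hq hB2 hQ1 hu) hS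
    have e : ivHlo (ivC a) (ivC b) Q1 = ivAdd (ivHq (ivCo (ivC b)) Q1)
        (ivDiv (ivMul (ivMul (ivC a) ck112) (ivMul (ivMul Q1 Q1) (ivMul Q1 Q1)))
          (ivMul (ivCo (ivMul ck45 (ivMul (ivCo (ivC b)) Q1)))
            (ivCo (ivMul ck45 (ivMul (ivCo (ivC b)) Q1))))) := by
      unfold ivHlo
      simp only [ivC, hc, cond_true]
    rw [← e] at h5
    refine ⟨_, ?_, h5⟩
    unfold H2
    linarith
  | false =>
    have hH := Hq_ge_half ht0 ht1 (hq0.trans hqq) hq1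
    have hqq2 : q₁ * q₁ ≤ q * q := mul_le_mul hqq hqq hq0 (hq0.trans hqq)
    have hH2 : q₁ * q₁ * (1 / 2) ≤ Hq (1 - t) q := by linarith
    have h5 := sound_Add (sound_Mul (sound_Mul hQ1 hQ1) sound_ck12) hS
    have e : ivHlo (ivC a) (ivC b) Q1 = ivAdd (ivMul (ivMul Q1 Q1) ck12)
        (ivDiv (ivMul (ivMul (ivC a) ck112) (ivMul (ivMul Q1 Q1) (ivMul Q1 Q1)))
          (ivMul (ivCo (ivMul ck45 (ivMul (ivCo (ivC b)) Q1)))
            (ivCo (ivMul ck45 (ivMul (ivCo (ivC b)) Q1))))) := by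
      unfold ivHlo
      simp only [ivC, hc, cond_false]
    rw [← e] at h5
    refine ⟨_, ?_, h5⟩
    unfold H2
    linarith

/-- `-x log x ≤ 1/e`, with a rational upper bound. -/
lemma neg_x_log_le {x : ℝ} (hx : 0 < x) : -(x * log x) ≤ 3679 / 10000 := by
  have he := Real.exp_one_gt_d9
  have hepos := Real.exp_pos 1
  have h := Real.log_le_sub_one_of_pos (by positivity : 0 < (exp 1)⁻¹ / x)
  rw [Real.log_div (by positivity) hx.ne', Real.log_inv, Real.log_exp] at h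
  have h2 := mul_le_mul_of_nonneg_left h hx.le
  have e : x * ((exp 1)⁻¹ / x - 1) = (exp 1)⁻¹ - x := by
    field_simp
  rw [e] at h2
  have h3 : (exp 1)⁻¹ ≤ 3679 / 10000 := by
    rw [inv_le_comm₀ hepos (by norm_num)]
    norm_num
    linarith
  nlinarith

/-- The bound for `max 0 (- x log x)`. -/
lemma Xb_sound {x : ℝ} {xl xh : ℕ} (hx : 0 < x) (h1 : rl xl ≤ x) (h2 : x ≤ rl xh) :
    ∃ Xr, max 0 (-(x * log x)) ≤ Xr ∧ Sound Xr (ivXb xl xh) := by
  cases hc1 : Nat.ble SN xl with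
  | true =>
    have e : ivXb xl xh = ivC 0 := by
      unfold ivXb
      rw [hc1]
      rfl
    have h3 : 1 ≤ x := by
      have := rl_mono (ble_le hc1)
      rw [rl_SN] at this
      linarith
    refine ⟨rl 0, ?_, ?_⟩
    · have e0 : rl 0 = 0 := by simp [rl]
      rw [e0]
      apply max_le le_rfl
      have := Real.log_nonneg h3
      nlinarith
    · rw [e]
      exact sound_C 0
  | false =>
    have hxl : xl < SN := lt_of_ble_false hc1
    cases hc2 : Nat.ble xh xlgMax with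
    | true =>
      have e : ivXb xl xh = ivXlg (ivC xh) := by
        unfold ivXb
        rw [hc1, hc2]
        rfl
      have hy : rl xh ≤ 9 / 25 := (rl_mono (ble_le hc2)).trans xlgMax_rl
      refine ⟨xlgf (rl xh), ?_, ?_⟩
      · apply max_le
        · unfold xlgf
          have h4 : log (rl xh) ≤ 0 := Real.log_nonpos (rl_nonneg _) (by linarith)
          nlinarith [rl_nonneg xh]
        · exact xlgf_mono hx.le h2 hy
      · rw [e]
        exact sound_Xlg (sound_C xh)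
    | false =>
      cases hc3 : Nat.ble 397284474 xl with
      | true =>
        have e : ivXb xl xh = ivMul (ivC xl) (ivMlog (ivC xl)) := by
          unfold ivXb
          rw [hc1, hc2, hc3]
          rfl
        have ha : (37 / 100 : ℝ) ≤ rl xl + 1 / 1000000 := by
          have := rl_mono (ble_le hc3)
          rw [rl_of] at this
          have e2 : ((397284474 : ℕ) : ℝ) = 397284474 := by norm_num
          rw [e2] at this
          linarith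
        have ha1 : (368 / 1000 : ℝ) ≤ rl xl := by linarith
        have ha0 : 0 < rl xl := by linarith
        have hle1 : rl xl ≤ 1 := by
          have := rl_mono hxl.le
          rwa [rl_SN] at this
        have hlog : -log (rl xl) - 1 ≤ 0 := by
          have h5 : log (368 / 1000 : ℝ) ≤ log (rl xl) := Real.log_le_log (by norm_num) ha1
          have h6 : -1 ≤ log (368 / 1000 : ℝ) := by
            rw [Real.le_log_iff_exp_le (by norm_num), Real.exp_neg]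
            have he := Real.exp_one_gt_d9
            rw [inv_le_comm₀ (Real.exp_pos 1) (by norm_num)]
            norm_num
            linarith
          linarith
        refine ⟨rl xl * -log (rl xl), ?_, ?_⟩
        · apply max_le
          · have := Real.log_nonpos ha0.le hle1
            nlinarith
          · have h7 := neg_mul_log_le hx ha0
            have h8 := mul_le_mul_of_nonneg_right h1 (by linarith : 0 ≤ -(-log (rl xl) - 1))
            nlinarith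
        · rw [e]
          exact sound_Mul (sound_C xl) (sound_Mlog (sound_C xl))
      | false =>
        have e : ivXb xl xh = ckE := by
          unfold ivXb
          rw [hc1, hc2, hc3]
          rfl
        refine ⟨rl 395029618, ?_, ?_⟩
        · have hv : (3679 / 10000 : ℝ) ≤ rl 395029618 := by
            rw [rl_of]
            norm_num
          apply max_le
          · linarith
          · exact (neg_x_log_le hx).trans hv
        · rw [e]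
          exact sound_C _

lemma rl_lt_one_k4 {d : ℕ} (h : d < SN) : rl d < 1 := by
  unfold rl
  rw [div_lt_one SN_pos']
  exact_mod_cast h

lemma sound_Gh {a b : ℕ} {q₁ q₂ : ℝ} {Q1 Q2 : IV} (ha : rl a ≤ 1) (hb : rl b ≤ 1)
    (hQ1 : Sound q₁ Q1) (hQ2 : Sound q₂ Q2) (hq20 : 0 ≤ q₂) (hq21 : q₂ ≤ 1) :
    Sound ((1 - rl a) * q₂ * max (5 / 4 - (3 / 2 * (rl a * (1 - (1 - rl a) * q₂)) +
      1 / 4 * ((1 - rl b) * (1 - rl b) * q₁))) 0) (ivGh (ivC a) (ivC b) Q1 Q2) := by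
  have ha0 := rl_nonneg a
  have hB1 := sound_Co ha (sound_C a)
  have hB2 := sound_Co hb (sound_C b)
  have hU2 := sound_Mul hB1 hQ2
  have hu : (1 - rl a) * q₂ ≤ 1 := by nlinarith
  have hWl := sound_Co hu hU2
  exact sound_Mul hU2 (sound_Tsub sound_ck54
    (sound_Add (sound_Mul sound_ck32 (sound_Mul (sound_C a) hWl))
      (sound_Mul sound_ck14 (sound_Mul (sound_Mul hB2 hB2) hQ1))))

lemma sound_Xl {a b : ℕ} {q₁ q₂ : ℝ} {Q1 Q2 : IV} (ha : rl a ≤ 1) (hb : rl b ≤ 1)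
    (hQ1 : Sound q₁ Q1) (hQ2 : Sound q₂ Q2) (hq10 : 0 ≤ q₁) (hq11 : q₁ ≤ 1)
    (hq20 : 0 ≤ q₂) (hq21 : q₂ ≤ 1) :
    Sound (((1 - q₂) + 2 * (q₁ * rl a)) *
        (1 - 1 / 4 * (rl b * (1 - (1 - rl b) * q₁) + (1 - rl a) * (1 - rl a) * q₂)) +
      (rl a * ((1 - rl b) * q₁)) * (1 - (1 - rl a) * q₂)) (ivXl (ivC a) (ivC b) Q1 Q2) := by
  have ha0 := rl_nonneg a
  have hb0 := rl_nonneg b
  have hB1 := sound_Co ha (sound_C a)
  have hB2 := sound_Co hb (sound_C b)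
  have hu1 : (1 - rl a) * q₂ ≤ 1 := by nlinarith
  have hu2 : (1 - rl b) * q₁ ≤ 1 := by nlinarith
  have hWl := sound_Co hu1 (sound_Mul hB1 hQ2)
  have hWh := sound_Co hu2 (sound_Mul hB2 hQ1)
  have hSh := sound_Add (sound_Mul (sound_C b) hWh) (sound_Mul (sound_Mul hB1 hB1) hQ2)
  have hS : 1 / 4 * (rl b * (1 - (1 - rl b) * q₁) + (1 - rl a) * (1 - rl a) * q₂) ≤ 1 := by
    have a1 : rl b * (1 - (1 - rl b) * q₁) ≤ 1 * 1 :=
      mul_le_mul hb (by nlinarith) (by linarith) zero_le_one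
    have a2 : (1 - rl a) * (1 - rl a) * q₂ ≤ 1 * 1 * 1 :=
      mul_le_mul (mul_le_mul (by linarith) (by linarith) (by linarith) zero_le_one) hq21 hq20
        (by norm_num)
    linarith
  exact sound_Add (sound_Mul (sound_Add (sound_Co hq21 hQ2)
    (sound_Mul sound_ck2 (sound_Mul hQ1 (sound_C a)))) (sound_Co hS (sound_Mul sound_ck14 hSh)))
    (sound_Mul (sound_Mul (sound_C a) (sound_Mul hB2 hQ1)) hWl)

lemma sound_Xh {a b : ℕ} {q₁ q₂ : ℝ} {Q1 Q2 : IV} (ha : rl a ≤ 1) (hb : rl b ≤ 1)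
    (hQ1 : Sound q₁ Q1) (hQ2 : Sound q₂ Q2) (hq10 : 0 ≤ q₁) (hq11 : q₁ ≤ 1)
    (hq20 : 0 ≤ q₂) (hq21 : q₂ ≤ 1) :
    Sound (((1 - q₁) + 2 * (q₂ * rl b)) *
        (1 - 1 / 4 * (rl a * (1 - (1 - rl a) * q₂) + (1 - rl b) * (1 - rl b) * q₁)) +
      (rl b * ((1 - rl a) * q₂)) * (1 - (1 - rl b) * q₁)) (ivXh (ivC a) (ivC b) Q1 Q2) := by
  have ha0 := rl_nonneg a
  have hb0 := rl_nonneg b
  have hB1 := sound_Co ha (sound_C a)
  have hB2 := sound_Co hb (sound_C b)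
  have hu1 : (1 - rl a) * q₂ ≤ 1 := by nlinarith
  have hu2 : (1 - rl b) * q₁ ≤ 1 := by nlinarith
  have hWl := sound_Co hu1 (sound_Mul hB1 hQ2)
  have hWh := sound_Co hu2 (sound_Mul hB2 hQ1)
  have hSl := sound_Add (sound_Mul (sound_C a) hWl) (sound_Mul (sound_Mul hB2 hB2) hQ1)
  have hS : 1 / 4 * (rl a * (1 - (1 - rl a) * q₂) + (1 - rl b) * (1 - rl b) * q₁) ≤ 1 := by
    have a1 : rl a * (1 - (1 - rl a) * q₂) ≤ 1 * 1 :=
      mul_le_mul ha (by nlinarith) (by linarith) zero_le_one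
    have a2 : (1 - rl b) * (1 - rl b) * q₁ ≤ 1 * 1 * 1 :=
      mul_le_mul (mul_le_mul (by linarith) (by linarith) (by linarith) zero_le_one) hq11 hq10
        (by norm_num)
    linarith
  exact sound_Add (sound_Mul (sound_Add (sound_Co hq11 hQ1)
    (sound_Mul sound_ck2 (sound_Mul hQ2 (sound_C b)))) (sound_Co hS (sound_Mul sound_ck14 hSl)))
    (sound_Mul (sound_Mul (sound_C b) (sound_Mul hB1 hQ2)) hWh)

/-- The first alternative on a box. -/
lemma cell_A {a b d : ℕ} {t r H' : ℝ} {Hlo F : IV}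
    (h1 : rl a ≤ t) (h2 : t ≤ rl b) (hb1 : rl b ≤ 1) (hr0 : 0 < r) (hr2 : r ≤ rl d)
    (hf : 0 < f1 t (r ^ 2)) (hH : H' ≤ H2 t (r ^ 2)) (sH : Sound H' Hlo)
    (hF : Sound (max (f1 (rl a) (rl d * rl d)) 0) F)
    (hc : chkA (ivC b) (ivC d) Hlo F = true) : Aform t r := by
  have hc' : (((((ivAdd (ivMul F (ivAf (ivC d))) (ivMul (ivMul ckA (ivC b)) (ivMul F F))).ok &&
      Hlo.ok) && Nat.blt d SN)) &&
      Nat.ble (ivAdd (ivMul F (ivAf (ivC d))) (ivMul (ivMul ckA (ivC b)) (ivMul F F))).hi Hlo.lo) =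
        true := hc
  obtain ⟨h3, h4⟩ := and2 hc'
  obtain ⟨h5, h6⟩ := and2 h3
  obtain ⟨h7, h8⟩ := and2 h5
  have hd1 : rl d < 1 := rl_lt_one_k4 (blt_lt h6)
  have hr2pos : 0 < rl d := lt_of_lt_of_le hr0 hr2
  have sL := sound_Add (sound_Mul hF (sound_Af hr2pos hd1 (sound_C d)))
    (sound_Mul (sound_Mul sound_ckA (sound_C b)) (sound_Mul hF hF))
  have bL := (sL h7).2
  have bH := (sH h8).1
  have bC := rl_mono (ble_le h4)
  unfold Aform
  have hq0 : 0 ≤ r ^ 2 := by positivity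
  have hq2 : r ^ 2 ≤ rl d * rl d := by
    rw [sq]
    exact mul_le_mul hr2 hr2 hr0.le hr2pos.le
  have hq21 : rl d * rl d ≤ 1 := by nlinarith
  have hfF : f1 t (r ^ 2) ≤ max (f1 (rl a) (rl d * rl d)) 0 :=
    le_max_of_le_left (f1_mono (rl_nonneg a) h1 (h2.trans hb1) hq0 hq2 hq21)
  have hFr0 : 0 ≤ max (f1 (rl a) (rl d * rl d)) 0 := le_max_right _ _
  have hAf := Af_mono hr0.le hr2 hd1
  have hAf0 := Af_nonneg hr0.le (lt_of_le_of_lt hr2 hd1)
  have m1 := mul_le_mul hfF hAf hAf0 hFr0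
  have ht0 : 0 ≤ t := (rl_nonneg a).trans h1
  have m2 : t * f1 t (r ^ 2) ^ 2 ≤ rl b * (max (f1 (rl a) (rl d * rl d)) 0 *
      max (f1 (rl a) (rl d * rl d)) 0) := by
    rw [sq]
    exact mul_le_mul h2 (mul_le_mul hfF hfF hf.le hFr0) (mul_nonneg hf.le hf.le) (ht0.trans h2)
  linarith

/-- The second alternative on a box. -/
lemma cell_R {a b c d : ℕ} {t r H' : ℝ} {Hlo F : IV}
    (h1 : rl a ≤ t) (h2 : t ≤ rl b) (hb1 : rl b ≤ 1) (ht0 : 0 < t) (ht1 : t < 1)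
    (hr0 : 0 < r) (hr1 : r < 1) (hr3 : rl c ≤ r) (hr2 : r ≤ rl d) (hd1 : rl d ≤ 1)
    (hf : 0 < f1 t (r ^ 2)) (hH : H' ≤ H2 t (r ^ 2)) (sH : Sound H' Hlo)
    (hF : Sound (max (f1 (rl a) (rl d * rl d)) 0) F)
    (hc : chkR (ivC a) (ivC b) (ivC c) (ivMul (ivC c) (ivC c)) (ivMul (ivC d) (ivC d)) Hlo F = true) :
    Rform t r := by
  have ha1 : rl a ≤ 1 := by linarith
  have hc0 := rl_nonneg c
  have hr2pos : 0 < rl d := lt_of_lt_of_le hr0 hr2
  have hQ1 := sound_Mul (sound_C c) (sound_C c)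
  have hQ2 := sound_Mul (sound_C d) (sound_C d)
  have hq0 : 0 ≤ r ^ 2 := by positivity
  have hq1 : r ^ 2 < 1 := by nlinarith
  have hq10 : 0 ≤ rl c * rl c := mul_nonneg hc0 hc0
  have hq11 : rl c * rl c ≤ r ^ 2 := by
    rw [sq]
    exact mul_le_mul hr3 hr3 hc0 hr0.le
  have hq2 : r ^ 2 ≤ rl d * rl d := by
    rw [sq]
    exact mul_le_mul hr2 hr2 hr0.le hr2pos.le
  have hq21 : rl d * rl d ≤ 1 := by nlinarith
  have hq20 : 0 ≤ rl d * rl d := mul_nonneg hr2pos.le hr2pos.le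
  have hq1' : rl c * rl c ≤ 1 := by linarith
  have sXL := sound_Xl ha1 hb1 hQ1 hQ2 hq10 hq1' hq20 hq21
  have sXH := sound_Xh ha1 hb1 hQ1 hQ2 hq10 hq1' hq20 hq21
  have sGh := sound_Gh ha1 hb1 hQ1 hQ2 hq20 hq21
  have hx := xbar_pos ht0.le ht1.le hq0 hq1
  have hbd := xbar_bounds (rl_nonneg a) h1 h2 hb1 hq10 hq11 hq2 hq21
  -- unpack the check
  obtain ⟨L, hLe⟩ : ∃ L, L = ivMul ckK (ivAdd (ivAdd (ivMul (ivC b) F)
      (ivMul (ivMul (ivMul (ivC b) F) (ivMul (ivC b) F)) ck12))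
      (ivXb (ivXl (ivC a) (ivC b) (ivMul (ivC c) (ivC c)) (ivMul (ivC d) (ivC d))).lo
        (ivXh (ivC a) (ivC b) (ivMul (ivC c) (ivC c)) (ivMul (ivC d) (ivC d))).hi)) := ⟨_, rfl⟩
  obtain ⟨Rr, hRe⟩ : ∃ Rr, Rr = ivAdd (ivMul (ivC a) Hlo)
      (ivMul (ivSub ivOne (ivGh (ivC a) (ivC b) (ivMul (ivC c) (ivC c)) (ivMul (ivC d) (ivC d))))
        (ivY (ivC c))) := ⟨_, rfl⟩
  have hc' : ((((L.ok && Rr.ok) &&
      (ivXl (ivC a) (ivC b) (ivMul (ivC c) (ivC c)) (ivMul (ivC d) (ivC d))).ok) &&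
      (ivXh (ivC a) (ivC b) (ivMul (ivC c) (ivC c)) (ivMul (ivC d) (ivC d))).ok) &&
      Nat.ble L.hi Rr.lo) = true := by
    rw [hLe, hRe]
    exact hc
  obtain ⟨h3, h4⟩ := and2 hc'
  obtain ⟨h5, h6⟩ := and2 h3
  obtain ⟨h7, h8⟩ := and2 h5
  obtain ⟨h9, h10⟩ := and2 h7
  have bXL := (sXL h8).1
  have bXH := (sXH h6).2
  obtain ⟨Xr, hXr, sXr⟩ := Xb_sound hx (bXL.trans hbd.1) (hbd.2.trans bXH)
  have sE1 := sound_Mul (sound_C b) hF
  have sL : Sound (57 / 100 * (rl b * max (f1 (rl a) (rl d * rl d)) 0 +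
      rl b * max (f1 (rl a) (rl d * rl d)) 0 * (rl b * max (f1 (rl a) (rl d * rl d)) 0) * (1 / 2) +
      Xr)) L := by
    rw [hLe]
    exact sound_Mul sound_ckK (sound_Add (sound_Add sE1 (sound_Mul (sound_Mul sE1 sE1) sound_ck12)) sXr)
  have sG1 := sound_Sub sound_one sGh
  have sRr : Sound (rl a * H' + (1 - (1 - rl a) * (rl d * rl d) *
      max (5 / 4 - (3 / 2 * (rl a * (1 - (1 - rl a) * (rl d * rl d))) +
      1 / 4 * ((1 - rl b) * (1 - rl b) * (rl c * rl c)))) 0) * Yf (rl c)) Rr := by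
    rw [hRe]
    exact sound_Add (sound_Mul (sound_C a) sH)
      (sound_Mul sG1 (sound_Y hc0 (lt_of_le_of_lt hr3 hr1) (sound_C c)))
  have bL := (sL h9).2
  have bR := (sRr h10).1
  have bC := rl_mono (ble_le h4)
  -- side facts from the flags
  have hok : Rr.ok = true := h10
  rw [hRe] at hok
  obtain ⟨o1, o2⟩ := and2 hok
  have o1' : ((ivC a).ok && Hlo.ok) = true := o1
  have o2' : ((ivSub ivOne (ivGh (ivC a) (ivC b) (ivMul (ivC c) (ivC c))
      (ivMul (ivC d) (ivC d)))).ok && (ivY (ivC c)).ok) = true := o2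
  obtain ⟨o3, o4⟩ := and2 o1'
  obtain ⟨o5, o6⟩ := and2 o2'
  have hH0 : 0 ≤ H' := sH.nonneg o4
  have hG0 := sG1.nonneg o5
  -- the comparison
  unfold Rform
  obtain ⟨f, hfe⟩ : ∃ f, f = f1 t (r ^ 2) := ⟨_, rfl⟩
  rw [← hfe] at hf ⊢
  obtain ⟨Fr, hFre⟩ : ∃ Fr, Fr = max (f1 (rl a) (rl d * rl d)) 0 := ⟨_, rfl⟩
  rw [← hFre] at bL
  have hfF : f ≤ Fr := by
    rw [hfe, hFre]
    exact le_max_of_le_left (f1_mono (rl_nonneg a) h1 ht1.le hq0 hq2 hq21)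
  have hFr0 : 0 ≤ Fr := hf.le.trans hfF
  have htf : t * f ≤ rl b * Fr := mul_le_mul h2 hfF hf.le (ht0.le.trans h2)
  have htf0 : 0 ≤ t * f := by positivity
  have htf2 : (t * f) ^ 2 ≤ rl b * Fr * (rl b * Fr) := by
    rw [sq]
    exact mul_le_mul htf htf htf0 (htf0.trans htf)
  have hgl := gg_le (rl_nonneg a) h1 h2 hb1 hq10 hq11 hq2 hq21
  have hY := Yf_mono hc0 hr3 hr1
  have hY0 := Yf_nonneg hc0 (lt_of_le_of_lt hr3 hr1)
  have m1 : rl a * H' ≤ t * H2 t (r ^ 2) :=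
    mul_le_mul h1 hH hH0 ht0.le
  have m2 : (1 - (1 - rl a) * (rl d * rl d) *
      max (5 / 4 - (3 / 2 * (rl a * (1 - (1 - rl a) * (rl d * rl d))) +
      1 / 4 * ((1 - rl b) * (1 - rl b) * (rl c * rl c)))) 0) * Yf (rl c) ≤
      (1 - gg t (r ^ 2)) * Yf r :=
    mul_le_mul (by linarith) hY hY0 (by linarith)
  rw [hfe] at htf htf2 htf0
  rw [hfe]
  have e : 57 / 100 * (rl b * Fr + rl b * Fr * (rl b * Fr) * (1 / 2) + Xr) ≤ rl L.hi := bL
  have bR' := bC.trans bR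
  linarith

/-- The statement checked on boxes. -/
def K4P (t r : ℝ) : Prop :=
  0 < t → t < 1 → 0 < r → r < 1 → 0 < f1 t (r ^ 2) → (1 / 200 < t ∨ r < 127 / 128) →
    Aform t r ∨ Rform t r

theorem Gk_sound (X Y : IV) (x y : ℝ) (hX : Sound x X) (hY : Sound y Y) (hG : Gk X Y = true) :
    K4P x y := by
  intro ht0 ht1 hr0 hr1 hf hnc
  have hG' : (((X.ok && Y.ok) && (Nat.ble X.hi SN && Nat.ble Y.hi SN)) &&
      ((Nat.ble X.hi 5368709 && Nat.ble 1065353216 Y.lo) ||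
      chkA (ivC X.hi) (ivC Y.hi)
        (ivHlo (ivC X.lo) (ivC X.hi) (ivMul (ivC Y.lo) (ivC Y.lo)))
        (ivF (ivC X.lo) (ivMul (ivC Y.hi) (ivC Y.hi))) ||
      chkR (ivC X.lo) (ivC X.hi) (ivC Y.lo) (ivMul (ivC Y.lo) (ivC Y.lo))
        (ivMul (ivC Y.hi) (ivC Y.hi))
        (ivHlo (ivC X.lo) (ivC X.hi) (ivMul (ivC Y.lo) (ivC Y.lo)))
        (ivF (ivC X.lo) (ivMul (ivC Y.hi) (ivC Y.hi))))) = true := hG
  obtain ⟨h1, h2⟩ := and2 hG'
  obtain ⟨h3, h4⟩ := and2 h1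
  obtain ⟨hXok, hYok⟩ := and2 h3
  obtain ⟨hXh, hYh⟩ := and2 h4
  have bx := hX hXok
  have by' := hY hYok
  have hb1 : rl X.hi ≤ 1 := by
    have := rl_mono (ble_le hXh)
    rwa [rl_SN] at this
  have hd1 : rl Y.hi ≤ 1 := by
    have := rl_mono (ble_le hYh)
    rwa [rl_SN] at this
  have hc0 := rl_nonneg Y.lo
  have hd0 : 0 ≤ rl Y.hi := rl_nonneg Y.hi
  have hQ1 := sound_Mul (sound_C Y.lo) (sound_C Y.lo)
  have hQ2 := sound_Mul (sound_C Y.hi) (sound_C Y.hi)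
  have hq11 : rl Y.lo * rl Y.lo ≤ y ^ 2 := by
    rw [sq]
    exact mul_le_mul by'.1 by'.1 hc0 hr0.le
  have hq1 : y ^ 2 < 1 := by nlinarith
  obtain ⟨H', hH, sH⟩ := sound_Hlo hQ1 bx.1 bx.2 hb1 ht0 ht1 (mul_nonneg hc0 hc0) hq11 hq1
  have hF := sound_F (a := X.lo) (bx.1.trans (bx.2.trans hb1)) hQ2 (mul_nonneg hd0 hd0)
    (by nlinarith)
  rcases Bool.or_eq_true_iff.mp h2 with h5 | h5
  · rcases Bool.or_eq_true_iff.mp h5 with h6 | h6
    · exfalso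
      obtain ⟨h7, h8⟩ := and2 h6
      have h9 : rl X.hi ≤ 1 / 200 := by
        refine (rl_mono (ble_le h7)).trans ?_
        rw [rl_of]
        norm_num
      have h10 : 127 / 128 ≤ rl Y.lo := by
        refine le_trans ?_ (rl_mono (ble_le h8))
        rw [rl_of]
        norm_num
      rcases hnc with h | h <;> linarith [bx.2, by'.1]
    · exact Or.inl (cell_A bx.1 bx.2 hb1 hr0 by'.2 hf hH sH hF h6)
  · exact Or.inr (cell_R bx.1 bx.2 hb1 ht0 ht1 hr0 hr1 by'.1 by'.2 hd1 hf hH sH hF h5)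

/-- The two alternatives away from the corner. -/
theorem cells_good {t r : ℝ} (ht0 : 0 < t) (ht1 : t < 1) (hr0 : 2 / 5 ≤ r) (hr1 : r < 1)
    (hf : 0 < f1 t (r ^ 2)) (hnc : 1 / 200 < t ∨ r < 127 / 128) : Aform t r ∨ Rform t r := by
  have h := chk2g_sound Gk K4P Gk_sound 30 0 SN 429496729 SN k4_chk t r
    (by simpa [rl] using ht0.le)
    (by rw [rl_SN]; exact ht1.le)
    (by
      refine le_trans ?_ hr0
      rw [rl_of]
      norm_num)
    (by rw [rl_SN]; exact hr1.le)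
  exact h ht0 ht1 (by linarith) hr1 hf hnc

end Vale.Agent.CK
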