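import Vale.Agent.CK.Key4Red

/-!
Elementary forms behind `Key4`, in the coordinates `t = τ`, `q = r²`.
-/

open Real Set

namespace Vale.Agent.CK

open Vale.Agent.P322

/-- `H(b,q) = (- log (1 - b q) - b q) / b²`. -/
noncomputable def Hq (b q : ℝ) : ℝ := (-log (1 - b * q) - b * q) / b ^ 2

/-- The lower bound of `E / (β τ)`. -/
noncomputable def H2 (t q : ℝ) : ℝ :=
  Hq (1 - t) q + t / 12 * q ^ 4 / (1 - 4 / 5 * ((1 - t) * q)) ^ 2

/-- `(ρ_T - 1) / τ`, where `ρ_T = T / β`. -/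
noncomputable def f1 (t q : ℝ) : ℝ := q - (1 - (1 - t) * q) * (1 + q * t) / 4

/-- `g = (T - T̄) / β`. -/
noncomputable def gg (t q : ℝ) : ℝ :=
  (1 - t) * q * (5 / 4 - 3 / 2 * (t * (1 - (1 - t) * q)) - (1 - t) ^ 2 * q / 4)

/-- First alternative: the entropy term `E` alone pays for the increase of `P(T, x*)`. -/
def Aform (t r : ℝ) : Prop :=
  f1 t (r ^ 2) * Af r + 645 / 2000 * t * f1 t (r ^ 2) ^ 2 ≤ H2 t (r ^ 2)

/-- Second alternative: `log`-Lipschitz bounds for both perspectives. -/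
def Rform (t r : ℝ) : Prop :=
  57 / 100 * (t * f1 t (r ^ 2) + (t * f1 t (r ^ 2)) ^ 2 / 2 +
      max 0 (-((1 + t * f1 t (r ^ 2) - gg t (r ^ 2)) *
        log (1 + t * f1 t (r ^ 2) - gg t (r ^ 2))))) ≤
    t * H2 t (r ^ 2) + (1 - gg t (r ^ 2)) * Yf r

end Vale.Agent.CK
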