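import Vale.Agent.CK.EE

/-!
Reduction of `Key4` to an inequality with elementary functions only.
-/

open Real Set

namespace Vale.Agent.CK

open Vale.Agent.P322

/-- The constant of `F1`. -/
noncomputable def Q1 : ℝ := 645 / 1000

/-- `A_f + Q log h` is antitone: `A_f s - A_f s₀ ≤ Q log (h s₀ / h s)`. -/
lemma Af_sub_le {s₀ s : ℝ} (h0 : 0 < s₀) (hs : s₀ ≤ s) (h1 : s < 1) :
    Af s - Af s₀ ≤ Q1 * (log (ent s₀) - log (ent s)) := by
  have hent : ∀ z, 0 ≤ z → z < 1 → 0 < ent z := fun z hz0 hz1 => ent_pos (abs_lt_one_of hz0 hz1)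
  let G : ℝ → ℝ := fun z => Af z + Q1 * log (ent z)
  let G' : ℝ → ℝ := fun z => dkap z * ent z + Q1 * (-A z / ent z)
  have hd : ∀ z, 0 < z → z < 1 → HasDerivAt G (G' z) z := by
    intro z hz0 hz1
    have h2 := hasDerivAt_Af hz0 hz1
    have h3 := (hasDerivAt_ent (abs_lt_one_of hz0.le hz1)).log (hent z hz0.le hz1).ne'
    exact h2.add (h3.const_mul Q1)
  have hanti : AntitoneOn G (Icc s₀ s) := by
    apply anti_of_deriv (f' := G')
    · intro z hz
      exact (hd z (lt_of_lt_of_le h0 hz.1) (lt_of_le_of_lt hz.2 h1)).continuousAt.continuousWithinAt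
    · intro z hz
      exact hd z (lt_trans h0 hz.1) (lt_trans hz.2 h1)
    · intro z hz
      have hz0 := lt_trans h0 hz.1
      have hz1 := lt_trans hz.2 h1
      have hF := F1 hz0 hz1
      have he := hent z hz0.le hz1
      have hA := A_pos hz0 hz1
      unfold Qf at hF
      simp only [G']
      have e : dkap z * ent z + Q1 * (-A z / ent z) =
          (A z / ent z) * (ent z ^ 2 * dkap z / A z - Q1) := by
        field_simp
        ring
      rw [e]
      apply mul_nonpos_of_nonneg_of_nonpos (by positivity)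
      unfold Q1
      linarith
  have h := hanti (left_mem_Icc.mpr hs) (right_mem_Icc.mpr hs) hs
  simp only [G] at h
  linarith

/-- The upper bound for the perspective above the point `(β, β h(s₀))`. -/
lemma PP_upper {β T s₀ : ℝ} (hβ : 0 < β) (hβT : β ≤ T) (h0 : 0 < s₀) (h1 : s₀ < 1) :
    PP T (β * ent s₀) ≤
      β * Yf s₀ + (T - β) * (Af s₀ - Q1) + Q1 * (T * log (T / β)) := by
  have hent : 0 < ent s₀ := ent_pos (abs_lt_one_of h0.le h1)
  set x := β * ent s₀ with hx
  have hx0 : 0 < x := by positivity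
  let F : ℝ → ℝ := fun τ => PP τ x - (Af s₀ - Q1) * τ - Q1 * (τ * log (τ / β))
  let F' : ℝ → ℝ := fun τ => Af (rinv (x / τ)) - (Af s₀ - Q1) - Q1 * (log (τ / β) + 1)
  have hd : ∀ τ, 0 < τ → HasDerivAt F (F' τ) τ := by
    intro τ hτ
    have h2 := hasDerivAt_PP_r hτ hx0
    have h3 : HasDerivAt (fun y : ℝ => (Af s₀ - Q1) * y) (Af s₀ - Q1) τ := by
      have := (hasDerivAt_id' τ).const_mul (Af s₀ - Q1)
      rwa [mul_one] at this
    have h4 : HasDerivAt (fun y : ℝ => y * log (y / β)) (log (τ / β) + 1) τ := by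
      have h5 : HasDerivAt (fun y : ℝ => y / β) (1 / β) τ := (hasDerivAt_id' τ).div_const β
      have h6 := h5.log (div_pos hτ hβ).ne'
      have h7 := (hasDerivAt_id' τ).mul h6
      have e : 1 * log (τ / β) + τ * (1 / β / (τ / β)) = log (τ / β) + 1 := by
        field_simp
      rw [e] at h7
      exact h7
    exact (h2.sub h3).sub (h4.const_mul Q1)
  have hanti : AntitoneOn F (Icc β T) := by
    apply anti_of_deriv (f' := F')
    · intro z hz
      exact (hd z (lt_of_lt_of_le hβ hz.1)).continuousAt.continuousWithinAt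
    · intro z hz
      exact hd z (lt_trans hβ hz.1)
    · intro z hz
      have hz0 : 0 < z := lt_trans hβ hz.1
      have hu : 0 < x / z := div_pos hx0 hz0
      have hule : x / z ≤ ent s₀ := by
        rw [div_le_iff₀ hz0, hx]
        nlinarith [hz.1]
      have hlog2 := ent_le_log_two s₀
      have hr := rinv_mem hu
      have hs₀le : s₀ ≤ rinv (x / z) := by
        have := rinv_anti hu hule
        rwa [rinv_ent h0.le h1] at this
      have h2 := Af_sub_le h0 hs₀le hr.2
      rw [ent_rinv hu (le_trans hule hlog2)] at h2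
      have e : log (ent s₀) - log (x / z) = log (z / β) := by
        rw [hx, Real.log_div (by positivity) hz0.ne', Real.log_mul hβ.ne' hent.ne',
          Real.log_div hz0.ne' hβ.ne']
        ring
      rw [e] at h2
      simp only [F']
      have : Q1 = 645 / 1000 := rfl
      linarith
  have h := hanti (left_mem_Icc.mpr hβT) (right_mem_Icc.mpr hβT) hβT
  simp only [F] at h
  have e : PP β x = β * Yf s₀ := by
    unfold PP
    rw [hx, mul_div_cancel_left₀ _ hβ.ne']
    unfold YY
    rw [rinv_ent h0.le h1]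
  rw [e, div_self hβ.ne', Real.log_one] at h
  nlinarith

/-- The elementary inequality behind `Key4`. -/
def CIat (v r : ℝ) : Prop :=
  (Tm (mean v r) - bet v r) * (Af r - Q1) + Q1 * (Tm (mean v r) * log (Tm (mean v r) / bet v r)) ≤
      Ee v r ∨
    (Tm (mean v r) - bet v r) * (Af r - Q1) + Q1 * (Tm (mean v r) * log (Tm (mean v r) / bet v r)) ≤
      Ee v r + (Af v * Tb (pa v r) (pb v r) - kap v * (bet v r * ent r)) ∨
    (Tm (mean v r) - bet v r) * (Af r - Q1) + Q1 * (Tm (mean v r) * log (Tm (mean v r) / bet v r)) ≤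
      Ee v r + (Af r * Tb (pa v r) (pb v r) - kap r * (bet v r * ent r))

lemma bet_pos {v r : ℝ} (hv0 : 0 ≤ v) (hv1 : v < 1) (hr0 : 0 < r) (hr1 : r < 1) : 0 < bet v r := by
  unfold bet
  have h := D0_pos_ee hv0 hv1.le hr0 hr1
  have h2 : 0 < 1 - v ^ 2 := by nlinarith
  positivity

/-- `Key4` from the elementary inequality. -/
theorem key4_of_CI {v r : ℝ} (hv0 : 0 ≤ v) (hv1 : v < 1) (hr0 : 0 < r) (hr1 : r < 1)
    (hCI : bet v r < Tm (mean v r) → CIat v r) :
    PP (Tm (mean v r)) (bet v r * ent r) - PP (Tb (pa v r) (pb v r)) (bet v r * ent r) ≤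
      bet v r * Yf r + Ee v r := by
  have hβ := bet_pos hv0 hv1 hr0 hr1
  have hent : 0 < ent r := ent_pos (abs_lt_one_of hr0.le hr1)
  have hx : 0 < bet v r * ent r := by positivity
  have hE := Ee_nonneg hv0 hv1 hr0 hr1
  have hTm := Tm_pos (abs_lt_one_mean hv0 hv1 hr0 hr1)
  have hTa := Tm_pos (abs_lt_one_pa hv0 hv1 hr0 hr1)
  have hTb' := Tm_pos (abs_lt_one_pb hv0 hv1 hr0 hr1)
  have hTb : 0 < Tb (pa v r) (pb v r) := by
    unfold Tb
    positivity
  have hP0 := PP_nonneg hTb hx
  rcases le_or_gt (Tm (mean v r)) (bet v r) with hle | hlt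
  · have h1 := PP_mono_r hTm hle hx
    have e : PP (bet v r) (bet v r * ent r) = bet v r * Yf r := by
      unfold PP
      rw [mul_div_cancel_left₀ _ hβ.ne']
      unfold YY
      rw [rinv_ent hr0.le hr1]
    rw [e] at h1
    linarith
  · have hU := PP_upper hβ hlt.le hr0 hr1
    have hv1' : v < 1 := hv1
    rcases hCI hlt with h | h | h
    · linarith
    · have ht := PP_tangent hv0 hv1' hTb hx
      linarith
    · have ht := PP_tangent hr0.le hr1 hTb hx
      linarith

end Vale.Agent.CK
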