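import Vale.Agent.CK.Key4BoxQ

namespace Vale.Agent.CK

def treeAll : BT := (.sr 410 10 (.sv 3999 12 (.sv 411 9 (.sv 129 8 (.sv 35 7 .T (.sr 27 7 .T .T)) (.sv 174 8 (.sr 27 7 .T (.sv 153 8 .T .T)) .T)) .T) .T) (.sv 8388489 23 (.sr 131006 17 (.sv 16297 14 (.sr 4012 12 (.sv 924 10 (.sr 896 10 (.sv 161 8 (.sr 182 8 (.sv 45 7 (.sr 147 8 (.sv 23 7 (.sr 63 7 .A .A) (.sr 63 7 .A (.sv 34 7 (.sr 137 8 .A .A) (.sr 137 8 .A .A)))) (.sv 23 7 (.sr 166 8 (.sv 12 7 (.sr 157 8 .A .A) (.sr 157 8 .A .A)) (.sv 12 7 (.sr 174 8 .A .A) (.sr 174 8 .A .A))) (.sr 166 8 (.sv 34 7 (.sr 157 8 .A .A) (.sr 157 8 .A .A)) (.sv 34 7 (.sr 174 8 .A .A) (.sr 174 8 .A .A))))) (.sr 147 8 (.sv 129 8 (.sr 63 7 (.sv 55 7 .A (.sr 57 7 .A .A)) (.sv 55 7 (.sr 137 8 .A .A) (.sr 137 8 .A .A))) (.sr 63 7 (.sv 146 8 (.sr 57 7 .A .A) (.sr 57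 7 .A .A)) (.sv 146 8 (.sr 137 8 .A .A) (.sr 137 8 .A .A)))) (.sv 129 8 (.sr 166 8 (.sv 55 7 (.sr 157 8 .A .A) (.sr 157 8 .A .A)) (.sv 55 7 (.sr 174 8 .A .A) (.sr 174 8 (.sv 60 7 .A .A) (.sv 60 7 .A (.sr 178 8 .A .A))))) (.sr 166 8 (.sv 146 8 (.sr 157 8 (.sv 138 8 .A .A) (.sv 138 8 .A (.sr 162 8 .A .A))) (.sr 157 8 (.sv 154 8 .A (.sr 152 8 .A .A)) (.sv 154 8 (.sr 162 8 .A .A) (.sr 162 8 .A .A)))) (.sv 146 8 (.sr 174 8 (.sv 138 8 .A (.sr 170 8 .A .A)) (.sv 138 8 (.sr 178 8 .A .A) (.sr 178 8 .A .A))) (.sr 174 8 (.sv 154 8 (.sr 170 8 .A .A) (.sr 170 8 .A .A)) (.sv 154 8 (.sr 178 8 .A .A) (.sr 178 8 .A .A)))))))) (.sv 45 7 (.sr 414 9 (.sv 23 7 (.sr 391 9 (.sv 12 7 .A (.sr 189 8 .A .A)) (.sv 12 7 .A .A)) (.sr 391 9 (.sv 34 7 (.sr 189 8 .A .A) (.sr 189 8 .A .A)) (.sv 34 7 (.sr 403 9 .A .A) (.sr 403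 9 .A .A)))) (.sv 23 7 (.sr 433 9 .A .A) (.sr 433 9 (.sv 34 7 .A (.sr 424 9 .A .A)) .A))) (.sr 414 9 (.sv 129 8 (.sr 391 9 (.sv 55 7 (.sr 189 8 .A .A) (.sr 189 8 (.sv 60 7 .A .A) (.sv 60 7 .A .A))) (.sv 55 7 (.sr 403 9 .A .A) (.sr 403 9 (.sv 60 7 .A .A) (.sv 60 7 .A .A)))) (.sr 391 9 (.sv 146 8 (.sr 189 8 (.sv 138 8 (.sr 186 8 .A .A) (.sr 186 8 .A .A)) (.sv 138 8 (.sr 385 9 .A .A) (.sr 385 9 .A .A))) (.sr 189 8 (.sv 154 8 (.sr 186 8 .A .A) (.sr 186 8 .A .A)) (.sv 154 8 (.sr 385 9 .A .A) (.sr 385 9 .A .A)))) (.sv 146 8 (.sr 403 9 (.sv 138 8 (.sr 397 9 .A .A) (.sr 397 9 .A .A)) (.sv 138 8 (.sr 409 9 .A .A) (.sr 409 9 .A .A))) (.sr 403 9 (.sv 154 8 (.sr 397 9 .A .A) (.sr 397 9 .A .A)) (.sv 154 8 (.sr 409 9 .A .A) (.sr 409 9 .A .A)))))) (.sv 129 8 (.sr 433 9 (.sv 55 7 (.sr 424 9 .A .A) (.sr 424 9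 .A .A)) (.sv 55 7 (.sr 441 9 .A .A) (.sr 441 9 .A .A))) (.sr 433 9 (.sv 146 8 (.sr 424 9 (.sv 138 8 (.sr 419 9 .A .A) (.sr 419 9 .A .A)) (.sv 138 8 .A (.sr 429 9 .A .A))) (.sr 424 9 (.sv 154 8 (.sr 419 9 .A .A) (.sr 419 9 .A .A)) (.sv 154 8 (.sr 429 9 .A .A) (.sr 429 9 .A .A)))) (.sv 146 8 (.sr 441 9 (.sv 138 8 .A .A) .A) (.sr 441 9 (.sv 154 8 (.sr 437 9 .A .A) (.sr 437 9 .A .A)) (.sv 154 8 .A (.sr 445 9 .A .A))))))))) (.sr 182 8 (.sv 412 9 (.sr 147 8 (.sv 187 8 (.sr 63 7 (.sv 175 8 (.sr 57 7 .T .A) (.sr 57 7 .T .A)) (.sv 175 8 (.sr 137 8 .A (.sv 168 8 .A .A)) (.sr 137 8 .R .R))) (.sr 63 7 .R (.sv 394 9 .R .R))) (.sv 187 8 (.sr 166 8 (.sv 175 8 (.sr 157 8 (.sv 168 8 (.sr 152 8 .A .A) (.sr 152 8 .A .A)) (.sv 168 8 (.sr 162 8 .A .A) (.sr 162 8 .A .A))) (.sr 157 8 .R (.sv 181 8 .R .R))) (.sv 175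 8 (.sr 174 8 (.sv 168 8 (.sr 170 8 .A .A) (.sr 170 8 .A .A)) (.sv 168 8 (.sr 178 8 .A .A) (.sr 178 8 .A .A))) (.sr 174 8 (.sv 181 8 (.sr 170 8 .A .A) .R) (.sv 181 8 (.sr 178 8 .A .R) .R)))) (.sr 166 8 (.sv 394 9 (.sr 157 8 .R .R) .R) (.sv 394 9 (.sr 174 8 .R .R) .R)))) (.sr 147 8 (.sv 441 9 (.sr 63 7 .R .R) .R) (.sv 441 9 (.sr 166 8 .R .R) .R))) (.sv 412 9 (.sr 414 9 (.sv 187 8 (.sr 391 9 (.sv 175 8 (.sr 189 8 (.sv 168 8 (.sr 186 8 .A .A) (.sr 186 8 (.sv 172 8 .A .A) .A)) (.sv 168 8 (.sr 385 9 .A .A) (.sr 385 9 (.sv 172 8 .A .A) (.sv 172 8 .A .A)))) (.sr 189 8 (.sv 181 8 (.sr 186 8 (.sv 178 8 .A .A) .A) (.sr 186 8 .R .R)) (.sv 181 8 (.sr 385 9 (.sv 178 8 .A (.sr 191 8 .A .A)) (.sv 178 8 .A .A)) (.sr 385 9 .R .R)))) (.sv 175 8 (.sr 403 9 (.sv 168 8 (.sr 397 9 .A (.sv 165 8 .A .A)) (.sr 397 9 (.sv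 172 8 .A .A) (.sv 172 8 .A (.sr 400 9 .A .A)))) (.sv 168 8 (.sr 409 9 (.sv 165 8 .A .A) .A) (.sr 409 9 (.sv 172 8 (.sr 406 9 .A .A) (.sr 406 9 .A .A)) (.sv 172 8 .A .A)))) (.sr 403 9 (.sv 181 8 (.sr 397 9 (.sv 178 8 (.sr 394 9 .A .A) (.sr 394 9 .A .A)) (.sv 178 8 (.sr 400 9 .A .A) (.sr 400 9 .A .A))) (.sr 397 9 (.sv 184 8 (.sr 394 9 .A .A) .R) (.sv 184 8 (.sr 400 9 .A .A) .R))) (.sv 181 8 (.sr 409 9 (.sv 178 8 (.sr 406 9 .A .A) (.sr 406 9 .A .A)) (.sv 178 8 (.sr 412 9 .A .A) (.sr 412 9 .A .A))) (.sr 409 9 (.sv 184 8 (.sr 406 9 .A .A) (.sr 406 9 .A .A)) (.sv 184 8 (.sr 412 9 .A .A) (.sr 412 9 .A .A))))))) (.sr 391 9 (.sv 394 9 (.sr 189 8 .R (.sv 384 9 .R .R)) (.sr 189 8 .R .R)) (.sv 394 9 (.sr 403 9 (.sv 384 9 (.sr 397 9 .R .R) .R) (.sv 384 9 (.sr 409 9 .R (.sv 190 8 (.sr 412 9 .A .A) .R)) (.sr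 409 9 .R .R))) (.sr 403 9 .R .R)))) (.sv 187 8 (.sr 433 9 (.sv 175 8 (.sr 424 9 (.sv 168 8 (.sr 419 9 .A (.sv 165 8 .A .A)) (.sr 419 9 (.sv 172 8 .A (.sr 417 9 .A .A)) (.sv 172 8 (.sr 422 9 .A .A) (.sr 422 9 .A .A)))) (.sv 168 8 (.sr 429 9 (.sv 165 8 .A .A) .A) (.sr 429 9 (.sv 172 8 (.sr 427 9 .A .A) (.sr 427 9 .A .A)) (.sv 172 8 .A .A)))) (.sr 424 9 (.sv 181 8 (.sr 419 9 (.sv 178 8 (.sr 417 9 .A .A) (.sr 417 9 .A .A)) (.sv 178 8 (.sr 422 9 .A .A) (.sr 422 9 .A .A))) (.sr 419 9 (.sv 184 8 (.sr 417 9 .A .A) (.sr 417 9 .A .A)) (.sv 184 8 (.sr 422 9 .A .A) (.sr 422 9 (.sv 371 9 .A .A) .A)))) (.sv 181 8 (.sr 429 9 (.sv 178 8 (.sr 427 9 .A .A) (.sr 427 9 .A .A)) (.sv 178 8 (.sr 431 9 .A .A) (.sr 431 9 .A .A))) (.sr 429 9 (.sv 184 8 (.sr 427 9 .A .A) (.sr 427 9 (.sv 371 9 .A .A) .A)) (.sv 184 8 (.sr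 431 9 .A .A) (.sr 431 9 .A .A)))))) (.sv 175 8 (.sr 441 9 (.sv 168 8 (.sr 437 9 .A .A) (.sr 437 9 (.sv 172 8 .A .A) (.sv 172 8 .A .A))) (.sv 168 8 (.sr 445 9 .A .A) (.sr 445 9 (.sv 172 8 .A .A) .A))) (.sr 441 9 (.sv 181 8 (.sr 437 9 (.sv 178 8 (.sr 435 9 .A .A) (.sr 435 9 .A .A)) (.sv 178 8 (.sr 439 9 .A .A) (.sr 439 9 .A .A))) (.sr 437 9 (.sv 184 8 (.sr 435 9 .A .A) (.sr 435 9 .A .A)) (.sv 184 8 (.sr 439 9 .A .A) (.sr 439 9 .A .A)))) (.sv 181 8 (.sr 445 9 (.sv 178 8 (.sr 443 9 .A .A) (.sr 443 9 .A .A)) (.sv 178 8 .A .A)) (.sr 445 9 (.sv 184 8 (.sr 443 9 .A .A) (.sr 443 9 .A .A)) (.sv 184 8 (.sr 893 10 .A .A) (.sv 371 9 .V .V))))))) (.sr 433 9 (.sv 394 9 (.sr 424 9 (.sv 384 9 (.sr 419 9 (.sv 190 8 (.sr 417 9 .R .A) .R) (.sv 190 8 (.sr 422 9 (.sv 377 9 .A .A) .A) (.sr 422 9 .R .A))) (.sr 419 9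 .R .R)) (.sv 384 9 (.sr 429 9 (.sv 190 8 (.sr 427 9 (.sv 377 9 .V .V) .A) (.sr 427 9 .V .A)) (.sv 190 8 (.sr 431 9 .A .A) .V)) (.sr 429 9 (.sv 389 9 (.sr 427 9 .R .R) .R) (.sv 389 9 (.sr 431 9 .R .V) .R)))) (.sr 424 9 .R (.sv 403 9 (.sr 429 9 .R .R) .R))) (.sv 394 9 (.sr 441 9 (.sv 384 9 (.sr 437 9 (.sv 190 8 (.sr 435 9 .A (.sv 377 9 .A .A)) .V) (.sv 190 8 (.sr 439 9 (.sv 377 9 .A .A) (.sv 377 9 .A .A)) .V)) (.sr 437 9 (.sv 389 9 (.sr 435 9 .V .V) .V) (.sv 389 9 (.sr 439 9 .V .V) .V))) (.sv 384 9 (.sr 445 9 (.sv 190 8 (.sr 443 9 (.sv 377 9 .A .A) (.sv 377 9 .A .A)) .V) (.sv 190 8 (.sv 377 9 .V .V) .V)) (.sr 445 9 (.sv 389 9 (.sr 443 9 .V .V) .V) (.sv 389 9 .V .V)))) (.sr 441 9 (.sv 403 9 (.sr 437 9 .R (.sv 399 9 .V .R)) (.sr 437 9 .R .R)) (.sv 403 9 (.sr 445 9 (.sv 399 9 .V .R) (.sv 399 9 .V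 .V)) (.sr 445 9 .R .R))))))) (.sr 414 9 (.sv 441 9 (.sr 391 9 .R .R) .R) (.sv 441 9 (.sr 433 9 (.sv 428 9 (.sr 424 9 .R .R) .R) (.sv 428 9 (.sr 441 9 .R .R) .R)) (.sr 433 9 .R .R)))))) (.sv 161 8 (.sr 1943 11 (.sv 45 7 (.sr 942 10 (.sv 23 7 (.sr 921 10 .A .A) (.sr 921 10 .A .A)) (.sv 23 7 .A .A)) (.sr 942 10 (.sv 129 8 (.sr 921 10 (.sv 55 7 .A (.sr 909 10 .A .A)) (.sv 55 7 .A .A)) (.sr 921 10 (.sv 146 8 (.sr 909 10 .A .A) (.sr 909 10 (.sv 154 8 .A (.sr 903 10 .A .A)) (.sv 154 8 .A .A))) (.sv 146 8 (.sr 932 10 .A .A) (.sr 932 10 .A .A)))) (.sv 129 8 (.sr 958 10 .A .A) (.sr 958 10 (.sv 146 8 .A (.sr 950 10 .A .A)) (.sv 146 8 .A .A))))) (.sv 45 7 (.sr 1981 11 .A .A) (.sr 1981 11 (.sv 129 8 .A (.sr 1964 11 .A .A)) .A))) (.sr 1943 11 (.sv 412 9 (.sr 942 10 (.sv 187 8 (.sr 921 10 (.sv 175 8 (.sr 909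 10 (.sv 168 8 (.sr 903 10 .A .A) (.sr 903 10 .A .A)) (.sv 168 8 (.sr 915 10 .A .A) (.sr 915 10 .A .A))) (.sr 909 10 (.sv 181 8 (.sr 903 10 (.sv 178 8 .A (.sr 900 10 .A .A)) (.sv 178 8 .A .A)) (.sr 903 10 (.sv 184 8 (.sr 900 10 .A .A) (.sr 900 10 .A .A)) (.sv 184 8 (.sr 906 10 .A .A) (.sr 906 10 .A .A)))) (.sv 181 8 (.sr 915 10 (.sv 178 8 .A .A) .A) (.sr 915 10 (.sv 184 8 .A (.sr 912 10 .A .A)) (.sv 184 8 .A (.sr 918 10 .A .A)))))) (.sv 175 8 (.sr 932 10 (.sv 168 8 (.sr 927 10 .A .A) (.sr 927 10 .A .A)) (.sv 168 8 .A (.sr 937 10 .A .A))) (.sr 932 10 (.sv 181 8 (.sr 927 10 .A .A) (.sr 927 10 (.sv 184 8 .A (.sr 924 10 .A .A)) (.sv 184 8 .A .A))) (.sv 181 8 (.sr 937 10 .A .A) (.sr 937 10 (.sv 184 8 .A .A) .A))))) (.sr 921 10 (.sv 394 9 (.sr 909 10 (.sv 384 9 (.sr 903 10 (.sv 190 8 (.sr 900 10 (.sv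 377 9 .A .A) .A) .V) (.sv 190 8 (.sr 906 10 .A .A) .V)) (.sr 903 10 (.sv 389 9 (.sr 900 10 .V .V) .V) (.sv 389 9 .V .V))) (.sv 384 9 (.sr 915 10 (.sv 190 8 (.sr 912 10 .A .A) .V) (.sv 190 8 (.sr 918 10 .A .A) .V)) (.sr 915 10 (.sv 389 9 .V .V) (.sv 389 9 .V .V)))) (.sr 909 10 (.sv 403 9 (.sr 903 10 (.sv 399 9 .V .V) (.sv 399 9 .V .V)) (.sr 903 10 (.sv 408 9 .V .R) (.sv 408 9 .V .R))) (.sv 403 9 (.sr 915 10 (.sv 399 9 .V .V) (.sv 399 9 .V .V)) (.sr 915 10 (.sv 408 9 .V .V) (.sv 408 9 .V .V))))) (.sv 394 9 (.sr 932 10 (.sv 384 9 (.sr 927 10 (.sv 190 8 (.sr 924 10 .A .A) .V) (.sv 190 8 (.sr 930 10 .A .A) .V)) (.sr 927 10 (.sv 389 9 .V .V) (.sv 389 9 .V .V))) (.sv 384 9 (.sr 937 10 (.sv 190 8 (.sr 935 10 .A .A) .V) (.sv 190 8 .A .V)) (.sr 937 10 (.sv 389 9 .V .V) (.sv 389 9 .V .V)))) (.sr 932 10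 (.sv 403 9 (.sr 927 10 (.sv 399 9 .V .V) (.sv 399 9 .V .V)) (.sr 927 10 (.sv 408 9 .V .V) (.sv 408 9 .V .V))) (.sv 403 9 (.sr 937 10 (.sv 399 9 .V .V) (.sv 399 9 .V .V)) (.sr 937 10 (.sv 408 9 .V .V) (.sv 408 9 .V .V))))))) (.sv 187 8 (.sr 958 10 (.sv 175 8 (.sr 950 10 .A .A) (.sr 950 10 (.sv 181 8 (.sr 946 10 .A .A) (.sr 946 10 .A .A)) (.sv 181 8 .A (.sr 954 10 .A .A)))) (.sv 175 8 (.sr 1930 11 .A .A) (.sr 1930 11 (.sv 181 8 .A (.sr 1923 11 .A .A)) .A))) (.sr 958 10 (.sv 394 9 (.sr 950 10 (.sv 384 9 (.sr 946 10 .A .A) (.sr 946 10 (.sv 389 9 .V .V) (.sv 389 9 .A .V))) (.sv 384 9 (.sr 954 10 .A .A) (.sr 954 10 (.sv 389 9 .A .V) (.sv 389 9 .A .V)))) (.sr 950 10 (.sv 403 9 (.sr 946 10 (.sv 399 9 .V .V) (.sv 399 9 .V .V)) (.sr 946 10 (.sv 408 9 .V .V) (.sv 408 9 .V .V))) (.sv 403 9 (.sr 954 10 (.sv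 399 9 .V .V) (.sv 399 9 .V .V)) (.sr 954 10 (.sv 408 9 .V .V) (.sv 408 9 .V .V))))) (.sv 394 9 (.sr 1930 11 (.sv 384 9 (.sr 1923 11 .A .A) (.sr 1923 11 .A .A)) (.sv 384 9 (.sr 1937 11 .A .A) (.sr 1937 11 .A .A))) (.sr 1930 11 (.sv 403 9 (.sr 1923 11 (.sv 399 9 .V .V) (.sv 399 9 .A .V)) (.sr 1923 11 (.sv 408 9 .V .V) (.sv 408 9 .V .V))) (.sv 403 9 (.sr 1937 11 (.sv 399 9 .A .V) .A) (.sr 1937 11 (.sv 408 9 .V .V) (.sv 408 9 .V .V)))))))) (.sr 942 10 (.sv 441 9 (.sr 921 10 (.sv 428 9 (.sr 909 10 (.sv 420 9 (.sr 903 10 .R .R) .R) (.sv 420 9 (.sr 915 10 .R (.sv 416 9 .V .R)) (.sr 915 10 .R .R))) (.sr 909 10 .R .R)) (.sv 428 9 (.sr 932 10 (.sv 420 9 (.sr 927 10 (.sv 416 9 .V .V) (.sv 416 9 .V .V)) (.sr 927 10 .R (.sv 424 9 .R .R))) (.sv 420 9 (.sr 937 10 (.sv 416 9 .V .V) (.sv 416 9 .V .V)) (.sr 937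 10 (.sv 424 9 .V .R) (.sv 424 9 .V .V)))) (.sr 932 10 .R (.sv 435 9 (.sr 937 10 .R .R) .R)))) (.sr 921 10 .R (.sv 905 10 (.sr 932 10 .R .R) .R))) (.sv 441 9 (.sr 958 10 (.sv 428 9 (.sr 950 10 (.sv 420 9 (.sr 946 10 (.sv 416 9 .V .V) (.sv 416 9 .V .V)) (.sr 946 10 (.sv 424 9 .V .V) (.sv 424 9 .V .V))) (.sv 420 9 (.sr 954 10 (.sv 416 9 .V .V) (.sv 416 9 .V .V)) (.sr 954 10 (.sv 424 9 .V .V) (.sv 424 9 .V .V)))) (.sr 950 10 (.sv 435 9 (.sr 946 10 .V .V) .V) (.sv 435 9 (.sr 954 10 .V .V) (.sr 954 10 .R .V)))) (.sv 428 9 (.sr 1930 11 (.sv 420 9 (.sr 1923 11 (.sv 416 9 .V .V) (.sv 416 9 .V .V)) (.sr 1923 11 (.sv 424 9 .V .V) (.sv 424 9 .V .V))) (.sv 420 9 (.sr 1937 11 (.sv 416 9 .V .V) (.sv 416 9 .V .V)) (.sr 1937 11 (.sv 424 9 .V .V) .V))) (.sr 1930 11 (.sv 435 9 (.sr 1923 11 .V .V) .V) (.sv 435 9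 (.sr 1937 11 .V .V) .V)))) (.sr 958 10 (.sv 905 10 (.sr 950 10 .R (.sv 447 9 (.sr 954 10 .R .R) .R)) .R) (.sv 905 10 (.sr 1930 11 (.sv 447 9 .V .R) (.sv 447 9 .V .V)) (.sr 1930 11 .R .R)))))) (.sv 412 9 (.sr 1981 11 (.sv 187 8 (.sr 1964 11 (.sv 175 8 .A (.sr 1954 11 .A .A)) (.sv 175 8 .A .A)) (.sr 1964 11 (.sv 394 9 (.sr 1954 11 (.sv 384 9 .A (.sr 1949 11 .A .A)) (.sv 384 9 .A .A)) (.sr 1954 11 (.sv 403 9 (.sr 1949 11 .A .A) (.sr 1949 11 (.sv 408 9 .V .V) (.sv 408 9 .A .A))) (.sv 403 9 (.sr 1959 11 .A .A) (.sr 1959 11 (.sv 408 9 .A .A) .A)))) (.sv 394 9 (.sr 1973 11 .A .A) (.sr 1973 11 (.sv 403 9 .A (.sr 1969 11 .A .A)) (.sv 403 9 .A (.sr 1977 11 .A .A)))))) (.sv 187 8 (.sr 3990 12 .A .A) (.sr 3990 12 (.sv 394 9 (.sr 3977 12 .A .A) (.sr 3977 12 (.sv 403 9 .A .A) .A)) (.sv 394 9 .A (.sr 4002 12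 .A .A))))) (.sr 1981 11 (.sv 441 9 (.sr 1964 11 (.sv 428 9 (.sr 1954 11 (.sv 420 9 (.sr 1949 11 (.sv 416 9 .V .V) .V) (.sr 1949 11 .V .V)) (.sv 420 9 (.sr 1959 11 .V .V) (.sr 1959 11 .V .V))) (.sr 1954 11 (.sv 435 9 (.sr 1949 11 .V .V) .V) (.sv 435 9 (.sr 1959 11 .V .V) .V))) (.sv 428 9 (.sr 1973 11 (.sv 420 9 (.sr 1969 11 .V .A) (.sr 1969 11 .V .V)) (.sv 420 9 (.sr 1977 11 .A .A) (.sr 1977 11 .V .V))) (.sr 1973 11 (.sv 435 9 (.sr 1969 11 .V .V) .V) (.sv 435 9 (.sr 1977 11 .V .V) .V)))) (.sr 1964 11 (.sv 905 10 (.sr 1954 11 (.sv 447 9 .V .V) (.sv 447 9 .V .V)) (.sr 1954 11 (.sv 915 10 .V .R) (.sv 915 10 .V .V))) (.sv 905 10 (.sr 1973 11 (.sv 447 9 .V .V) (.sv 447 9 .V .V)) (.sr 1973 11 (.sv 915 10 .V .V) (.sv 915 10 .V .V))))) (.sv 441 9 (.sr 3990 12 (.sv 428 9 (.sr 3977 12 (.sv 420 9 (.sr 3970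 12 .A .A) (.sr 3970 12 .V .A)) (.sv 420 9 .A (.sr 3984 12 .A .A))) (.sr 3977 12 (.sv 435 9 (.sr 3970 12 .V .V) .V) (.sv 435 9 .V .V))) (.sv 428 9 (.sr 4002 12 (.sv 420 9 .A (.sr 3996 12 .A .A)) .A) (.sr 4002 12 (.sv 435 9 .V .V) (.sv 435 9 .V .V)))) (.sr 3990 12 (.sv 905 10 (.sr 3977 12 (.sv 447 9 .V .V) (.sv 447 9 .V .V)) (.sr 3977 12 (.sv 915 10 .V .V) (.sv 915 10 .V .V))) (.sv 905 10 (.sr 4002 12 (.sv 447 9 .V .V) (.sv 447 9 .V .V)) (.sr 4002 12 (.sv 915 10 .V .V) (.sv 915 10 .V .V)))))))))) (.sr 896 10 (.sv 4001 12 (.sr 182 8 (.sv 1950 11 (.sr 147 8 .R .R) .R) (.sv 1950 11 (.sr 414 9 .R .R) .R)) (.sr 182 8 .R .R)) (.sv 4001 12 (.sr 1943 11 (.sv 1950 11 (.sr 942 10 (.sv 954 10 .R .R) (.sv 954 10 (.sr 958 10 .R .R) .R)) (.sr 942 10 .R .R)) (.sv 1950 11 (.sr 1981 11 (.sv 954 10 (.sr 1964 11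 (.sv 940 10 (.sr 1954 11 .R .R) .R) (.sv 940 10 (.sr 1973 11 (.sv 932 10 .V .R) (.sv 932 10 .V .V)) (.sr 1973 11 .R .R))) (.sr 1964 11 .R .R)) (.sv 954 10 (.sr 3990 12 (.sv 940 10 (.sr 3977 12 (.sv 932 10 .V .V) (.sv 932 10 .V .V)) (.sr 3977 12 (.sv 947 10 .V .R) (.sv 947 10 .V .V))) (.sv 940 10 (.sr 4002 12 (.sv 932 10 .V .V) (.sv 932 10 .V .V)) (.sr 4002 12 (.sv 947 10 .V .V) (.sv 947 10 .V .V)))) (.sr 3990 12 (.sv 1931 11 (.sr 3977 12 .R .R) .R) (.sv 1931 11 (.sr 4002 12 .V .V) (.sr 4002 12 .R .R))))) (.sr 1981 11 .R (.sv 1980 11 (.sr 3990 12 .R .R) .R)))) (.sr 1943 11 .R .R)))) (.sv 924 10 (.sr 32662 15 (.sv 161 8 (.sr 8125 13 (.sv 45 7 .A (.sr 8086 13 .A .A)) .A) (.sr 8125 13 (.sv 412 9 (.sr 8086 13 (.sv 187 8 .A (.sr 4029 12 .A .A)) .A) (.sr 8086 13 (.sv 441 9 (.sr 4029 12 (.sv 428 9 (.sr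 4021 12 .A .A) (.sr 4021 12 (.sv 435 9 .A .V) (.sv 435 9 .A .A))) (.sv 428 9 .A (.sr 8073 13 .A .A))) (.sr 4029 12 (.sv 905 10 (.sr 4021 12 (.sv 447 9 .V .V) (.sv 447 9 .V .V)) (.sr 4021 12 (.sv 915 10 .V .V) (.sv 915 10 .V .V))) (.sv 905 10 (.sr 8073 13 (.sv 447 9 .V .V) (.sv 447 9 .A .V)) (.sr 8073 13 (.sv 915 10 .V .V) (.sv 915 10 .V .V))))) (.sv 441 9 (.sr 8108 13 (.sv 428 9 .A .A) .A) (.sr 8108 13 (.sv 905 10 (.sr 8098 13 (.sv 447 9 .A .A) .A) (.sr 8098 13 (.sv 915 10 .V .V) (.sv 915 10 .V .V))) (.sv 905 10 (.sr 8117 13 .A .A) (.sr 8117 13 .V .A)))))) (.sv 412 9 (.sr 16300 14 .A .A) (.sr 16300 14 (.sv 441 9 .A (.sr 16278 14 (.sv 905 10 .A (.sr 16265 14 .A .A)) .A)) (.sv 441 9 .A (.sr 16317 14 .A .A)))))) (.sv 161 8 .A (.sr 65452 16 (.sv 412 9 .A (.sr 32701 15 .A .A)) .A))) (.sr 32662 15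 (.sv 4001 12 (.sr 8125 13 (.sv 1950 11 (.sr 8086 13 (.sv 954 10 (.sr 4029 12 (.sv 940 10 (.sr 4021 12 (.sv 932 10 .V .V) (.sv 932 10 .V .V)) (.sr 4021 12 (.sv 947 10 .V .V) (.sv 947 10 .V .V))) (.sv 940 10 (.sr 8073 13 (.sv 932 10 .V .V) (.sv 932 10 .V .V)) (.sr 8073 13 (.sv 947 10 .V .V) .V))) (.sr 4029 12 (.sv 1931 11 (.sr 4021 12 .V .V) (.sr 4021 12 .V .V)) (.sv 1931 11 (.sr 8073 13 .V .V) (.sr 8073 13 .V .V)))) (.sv 954 10 (.sr 8108 13 (.sv 940 10 (.sr 8098 13 .V .V) (.sr 8098 13 .V .V)) (.sv 940 10 (.sr 8117 13 .V .V) (.sr 8117 13 .V .V))) (.sr 8108 13 (.sv 1931 11 (.sr 8098 13 .V .V) (.sr 8098 13 .V .V)) (.sv 1931 11 (.sr 8117 13 .V .V) (.sr 8117 13 .V .V))))) (.sr 8086 13 (.sv 1980 11 (.sr 4029 12 (.sv 1966 11 (.sr 4021 12 .R .R) .R) (.sv 1966 11 (.sr 8073 13 .V .V) (.sr 8073 13 .R .R)))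 (.sr 4029 12 .R .R)) (.sv 1980 11 (.sr 8108 13 (.sv 1966 11 (.sr 8098 13 .V .V) (.sr 8098 13 .V .V)) (.sv 1966 11 .V .V)) (.sr 8108 13 (.sv 3982 12 .V .R) (.sv 3982 12 .V .V))))) (.sv 1950 11 (.sr 16300 14 (.sv 954 10 (.sr 16278 14 (.sv 940 10 (.sr 16265 14 .V .V) (.sr 16265 14 .V .V)) (.sv 940 10 .V .V)) (.sr 16278 14 (.sv 1931 11 (.sr 16265 14 .V .V) .V) (.sv 1931 11 .V .V))) (.sv 954 10 (.sr 16317 14 (.sv 940 10 .A .V) (.sv 940 10 .A .V)) (.sr 16317 14 (.sv 1931 11 .V .V) (.sv 1931 11 .V .V)))) (.sr 16300 14 (.sv 1980 11 (.sr 16278 14 (.sv 1966 11 .V .V) (.sv 1966 11 .V .V)) (.sr 16278 14 (.sv 3982 12 .V .V) (.sv 3982 12 .V .V))) (.sv 1980 11 (.sr 16317 14 (.sv 1966 11 .V .V) (.sv 1966 11 .V .V)) (.sr 16317 14 (.sv 3982 12 .V .V) (.sv 3982 12 .V .V)))))) (.sr 8125 13 (.sv 8101 13 (.sr 8086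 13 .R (.sv 4030 12 (.sr 8108 13 .R .R) .R)) .R) (.sv 8101 13 (.sr 16300 14 (.sv 4030 12 (.sr 16278 14 (.sv 4017 12 .V .R) (.sv 4017 12 .V .V)) (.sr 16278 14 .R .R)) (.sv 4030 12 (.sr 16317 14 (.sv 4017 12 .V .V) (.sv 4017 12 .V .V)) (.sr 16317 14 (.sv 8082 13 .V .R) (.sv 8082 13 .V .V)))) (.sr 16300 14 .R (.sv 16258 14 (.sr 16317 14 .R .R) .R))))) (.sv 4001 12 (.sr 65452 16 (.sv 1950 11 (.sr 32701 15 (.sv 954 10 (.sr 32684 15 .A .A) (.sr 32684 15 (.sv 1931 11 .V .V) (.sv 1931 11 .A .V))) (.sv 954 10 .A (.sr 65430 16 (.sv 1931 11 .A .V) .A))) (.sr 32701 15 (.sv 1980 11 (.sr 32684 15 (.sv 1966 11 .V .V) (.sv 1966 11 .V .V)) (.sr 32684 15 (.sv 3982 12 .V .V) (.sv 3982 12 .V .V))) (.sv 1980 11 (.sr 65430 16 (.sv 1966 11 .V .V) (.sv 1966 11 .V .V)) (.sr 65430 16 (.sv 3982 12 .V .V) (.sv 3982 12 .V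 .V))))) (.sv 1950 11 (.sr 130967 17 .A .A) (.sr 130967 17 (.sv 1980 11 (.sr 65470 16 (.sv 1966 11 .A .V) .V) (.sr 65470 16 (.sv 3982 12 .V .V) .V)) (.sv 1980 11 (.sr 130989 17 .A .A) (.sr 130989 17 .V .V))))) (.sr 65452 16 (.sv 8101 13 (.sr 32701 15 (.sv 4030 12 (.sr 32684 15 (.sv 4017 12 .V .V) (.sv 4017 12 .V .V)) (.sr 32684 15 (.sv 8082 13 .V .V) (.sv 8082 13 .V .V))) (.sv 4030 12 (.sr 65430 16 (.sv 4017 12 .V .V) (.sv 4017 12 .V .V)) (.sr 65430 16 (.sv 8082 13 .V .V) (.sv 8082 13 .V .V)))) (.sr 32701 15 (.sv 16258 14 (.sr 32684 15 (.sv 8116 13 .V .R) (.sv 8116 13 .V .V)) (.sr 32684 15 .R .R)) (.sv 16258 14 (.sr 65430 16 (.sv 8116 13 .V .V) (.sv 8116 13 .V .V)) (.sr 65430 16 (.sv 16279 14 .V .R) (.sv 16279 14 .V .V))))) (.sv 8101 13 (.sr 130967 17 (.sv 4030 12 (.sr 65470 16 (.sv 4017 12 .V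 .V) (.sv 4017 12 .V .V)) (.sr 65470 16 (.sv 8082 13 .V .V) (.sv 8082 13 .V .V))) (.sv 4030 12 (.sr 130989 17 .V .V) (.sr 130989 17 (.sv 8082 13 .V .V) .V))) (.sr 130967 17 (.sv 16258 14 (.sr 65470 16 (.sv 8116 13 .V .V) (.sv 8116 13 .V .V)) (.sr 65470 16 (.sv 16279 14 .V .V) (.sv 16279 14 .V .V))) (.sv 16258 14 (.sr 130989 17 (.sv 8116 13 .V .V) (.sv 8116 13 .V .V)) (.sr 130989 17 (.sv 16279 14 .V .V) (.sv 16279 14 .V .V)))))))))) (.sr 4012 12 (.sv 262072 18 (.sr 896 10 (.sv 65457 16 (.sr 182 8 .R .R) (.sr 182 8 .R .R)) .R) (.sr 896 10 (.sv 1048511 20 (.sr 182 8 .R .R) (.sr 182 8 .R .R)) .R)) (.sv 262072 18 (.sr 32662 15 (.sv 65457 16 (.sr 8125 13 .R .R) .R) (.sv 65457 16 (.sr 65452 16 (.sv 32685 15 (.sr 32701 15 .R (.sv 32648 15 (.sr 65430 16 .R .R) .R)) .R) (.sv 32685 15 (.sr 130967 17 (.sv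 32648 15 (.sr 65470 16 (.sv 16312 14 .V .R) (.sv 16312 14 .V .V)) (.sr 65470 16 .R (.sv 32668 15 .R .R))) (.sv 32648 15 (.sr 130989 17 (.sv 16312 14 .V .V) (.sv 16312 14 .V .V)) (.sr 130989 17 (.sv 32668 15 .V .V) (.sv 32668 15 .V .V)))) (.sr 130967 17 .R (.sv 65421 16 (.sr 130989 17 .R (.sv 32699 15 .V .R)) .R)))) (.sr 65452 16 .R .R))) .R))) (.sv 16297 14 (.sr 8388505 23 (.sv 924 10 (.sr 1048494 20 .A .A) (.sr 1048494 20 (.sv 4001 12 (.sr 524184 19 (.sv 1950 11 .A (.sr 262061 18 (.sv 1980 11 .A .V) .A)) .A) (.sr 524184 19 (.sv 8101 13 (.sr 262061 18 (.sv 4030 12 .V (.sr 262039 18 .V .V)) (.sv 4030 12 .V .V)) (.sr 262061 18 (.sv 16258 14 (.sr 262039 18 .V .V) (.sr 262039 18 (.sv 16279 14 .V .V) .V)) (.sv 16258 14 (.sr 262078 18 .V .V) (.sr 262078 18 .V .V)))) (.sv 8101 13 (.sr 524223 19 (.sv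 4030 12 .V .V) (.sv 4030 12 .A .V)) (.sr 524223 19 (.sv 16258 14 .V .V) (.sv 16258 14 .V .V))))) (.sv 4001 12 .A (.sr 2097087 21 (.sv 8101 13 (.sr 2097049 21 .A .A) (.sr 2097049 21 (.sv 16258 14 .V .V) (.sv 16258 14 .V .V))) (.sv 8101 13 .A (.sr 4194222 22 (.sv 16258 14 .A .V) .A)))))) (.sv 924 10 .A (.sr 33554368 25 (.sv 4001 12 .A (.sr 16777135 24 .A .A)) .A))) (.sr 8388505 23 (.sv 262072 18 (.sr 1048494 20 (.sv 65457 16 (.sr 524184 19 (.sv 32685 15 (.sr 262061 18 (.sv 32648 15 (.sr 262039 18 (.sv 16312 14 .V .V) (.sv 16312 14 .V .V)) (.sr 262039 18 (.sv 32668 15 .V .V) (.sv 32668 15 .V .V))) (.sv 32648 15 (.sr 262078 18 .V .V) (.sr 262078 18 .V .V))) (.sr 262061 18 (.sv 65421 16 (.sr 262039 18 (.sv 32699 15 .V .V) (.sv 32699 15 .V .V)) (.sr 262039 18 .R (.sv 65441 16 .V .R))) (.sv 65421 16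 (.sr 262078 18 .V .V) (.sr 262078 18 (.sv 65441 16 .V .V) (.sv 65441 16 .V .V))))) (.sv 32685 15 (.sr 524223 19 (.sv 32648 15 (.sr 524206 19 .V .V) (.sr 524206 19 .V .V)) (.sv 32648 15 .V .V)) (.sr 524223 19 (.sv 65421 16 (.sr 524206 19 .V .V) (.sr 524206 19 .V .V)) (.sv 65421 16 (.sr 1048473 20 .V .V) (.sr 1048473 20 .V .V))))) (.sr 524184 19 (.sv 130997 17 (.sr 262061 18 (.sv 130963 17 .R .R) (.sv 130963 17 (.sr 262078 18 .R .V) (.sr 262078 18 .R .R))) (.sr 262061 18 .R .R)) (.sv 130997 17 (.sr 524223 19 (.sv 130963 17 (.sr 524206 19 .V .V) (.sr 524206 19 .V .V)) (.sv 130963 17 (.sr 1048473 20 .V .V) (.sr 1048473 20 .V .V))) (.sr 524223 19 (.sv 262040 18 (.sr 524206 19 .R .R) .R) (.sv 262040 18 (.sr 1048473 20 .V .V) (.sr 1048473 20 .R .R)))))) (.sv 65457 16 (.sr 2097087 21 (.sv 32685 15 (.sr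 2097049 21 (.sv 32648 15 .V .V) (.sv 32648 15 .V .V)) (.sr 2097049 21 (.sv 65421 16 .V (.sr 1048511 20 .V .V)) (.sv 65421 16 .V .V))) (.sv 32685 15 (.sr 4194222 22 (.sv 32648 15 .V .V) (.sv 32648 15 .V .V)) (.sr 4194222 22 (.sv 65421 16 .V .V) (.sv 65421 16 .V .V)))) (.sr 2097087 21 (.sv 130997 17 (.sr 2097049 21 (.sv 130963 17 (.sr 1048511 20 .V .V) (.sr 1048511 20 .V .V)) (.sv 130963 17 .V (.sr 2097070 21 .V .V))) (.sr 2097049 21 (.sv 262040 18 (.sr 1048511 20 .V .V) (.sr 1048511 20 .V .V)) (.sv 262040 18 (.sr 2097070 21 .V .V) (.sr 2097070 21 .V .V)))) (.sv 130997 17 (.sr 4194222 22 (.sv 130963 17 .V .V) (.sv 130963 17 .V .V)) (.sr 4194222 22 (.sv 262040 18 .V (.sr 4194201 22 .V .V)) (.sv 262040 18 .V .V)))))) (.sr 1048494 20 (.sv 1048511 20 (.sr 524184 19 .R (.sv 524220 19 (.sr 524223 19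 .R .R) .R)) .R) (.sv 1048511 20 (.sr 2097087 21 (.sv 524220 19 (.sr 2097049 21 (.sv 524189 19 (.sr 1048511 20 .R .V) .R) (.sv 524189 19 (.sr 2097070 21 .V .V) (.sr 2097070 21 .R .V))) (.sr 2097049 21 .R .R)) (.sv 524220 19 (.sr 4194222 22 (.sv 524189 19 (.sr 4194201 22 .V .V) (.sr 4194201 22 .V .V)) (.sv 524189 19 (.sr 4194239 22 .V .V) (.sr 4194239 22 .V .V))) (.sr 4194222 22 (.sv 1048482 20 (.sr 4194201 22 .R .V) .R) (.sv 1048482 20 (.sr 4194239 22 .V .V) (.sr 4194239 22 .R .V))))) (.sr 2097087 21 .R (.sv 4194180 22 (.sr 4194222 22 .R (.sv 2097062 21 (.sr 4194239 22 .R .R) .R)) .R))))) (.sv 262072 18 (.sr 33554368 25 (.sv 65457 16 (.sr 16777135 24 (.sv 32685 15 (.sr 8388543 23 (.sv 32648 15 .V .V) .V) (.sr 8388543 23 (.sv 65421 16 .V .V) (.sv 65421 16 .V .V))) (.sv 32685 15 .V (.sr 33554330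 25 .V .V))) (.sr 16777135 24 (.sv 130997 17 (.sr 8388543 23 (.sv 130963 17 .V .V) (.sv 130963 17 .V .V)) (.sr 8388543 23 (.sv 262040 18 .V .V) (.sv 262040 18 .V .V))) (.sv 130997 17 (.sr 33554330 25 (.sv 130963 17 .V .V) (.sv 130963 17 .V .V)) (.sr 33554330 25 (.sv 262040 18 .V .V) (.sv 262040 18 .V .V))))) (.sv 65457 16 (.sr 134217626 27 (.sv 32685 15 .A .V) (.sv 32685 15 .A .V)) (.sr 134217626 27 (.sv 130997 17 (.sr 67108783 26 .V .V) (.sr 67108783 26 (.sv 262040 18 .V .V) (.sv 262040 18 .V .V))) (.sv 130997 17 .V (.sr 134217664 27 .V .V))))) (.sr 33554368 25 (.sv 1048511 20 (.sr 16777135 24 (.sv 524220 19 (.sr 8388543 23 (.sv 524189 19 .V .V) (.sv 524189 19 .V .V)) (.sr 8388543 23 (.sv 1048482 20 (.sr 8388526 23 .V .V) (.sr 8388526 23 .V .V)) (.sv 1048482 20 .V (.sr 16777113 24 .V .V)))) (.sv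 524220 19 (.sr 33554330 25 (.sv 524189 19 .V .V) (.sv 524189 19 .V .V)) (.sr 33554330 25 (.sv 1048482 20 .V .V) (.sv 1048482 20 .V .V)))) (.sr 16777135 24 (.sv 4194180 22 (.sr 8388543 23 (.sv 2097062 21 (.sr 8388526 23 .V .V) (.sr 8388526 23 .R .R)) (.sv 2097062 21 (.sr 16777113 24 .V .V) (.sr 16777113 24 .V .V))) (.sr 8388543 23 .R (.sv 4194218 22 (.sr 16777113 24 .R .R) .R))) (.sv 4194180 22 (.sr 33554330 25 (.sv 2097062 21 .V (.sr 16777152 24 .V .V)) (.sv 2097062 21 .V .V)) (.sr 33554330 25 (.sv 4194218 22 (.sr 16777152 24 .V .V) (.sr 16777152 24 .R .V)) (.sv 4194218 22 .V .V))))) (.sv 1048511 20 (.sr 134217626 27 (.sv 524220 19 (.sr 67108783 26 (.sv 524189 19 .V .V) (.sv 524189 19 .V .V)) (.sr 67108783 26 (.sv 1048482 20 .V .V) (.sv 1048482 20 .V .V))) (.sv 524220 19 (.sr 134217664 27 (.sv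 524189 19 .V .V) (.sv 524189 19 .V .V)) (.sr 134217664 27 (.sv 1048482 20 .V .V) (.sv 1048482 20 .V .V)))) (.sr 134217626 27 (.sv 4194180 22 (.sr 67108783 26 (.sv 2097062 21 .V .V) (.sv 2097062 21 .V .V)) (.sr 67108783 26 (.sv 4194218 22 .V .V) (.sv 4194218 22 .V .V))) (.sv 4194180 22 (.sr 134217664 27 (.sv 2097062 21 .V .V) (.sv 2097062 21 .V .V)) (.sr 134217664 27 (.sv 4194218 22 .V .V) (.sv 4194218 22 .V .V)))))))))) (.sr 131006 17 (.sr 4012 12 (.sr 896 10 (.sr 182 8 .R .R) .R) .R) (.sv 2147483567 31 (.sr 8388505 23 .R (.sv 134217630 27 (.sr 33554368 25 (.sv 33554324 25 (.sr 16777135 24 .R (.sv 16777103 24 (.sr 33554330 25 (.sv 8388526 23 .R .R) (.sv 8388526 23 (.sr 33554351 25 .R .V) .R)) .R)) .R) (.sv 33554324 25 (.sr 134217626 27 (.sv 16777103 24 (.sr 67108783 26 (.sv 8388526 23 .V .V)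 (.sv 8388526 23 .V .V)) (.sr 67108783 26 (.sv 16777138 24 .R .R) (.sv 16777138 24 .V .V))) (.sv 16777103 24 (.sr 134217664 27 (.sv 8388526 23 .V .V) (.sv 8388526 23 .V .V)) (.sr 134217664 27 (.sv 16777138 24 .V .V) (.sv 16777138 24 .V .V)))) (.sr 134217626 27 (.sv 67108761 26 (.sr 67108783 26 .R .R) .R) (.sv 67108761 26 (.sr 134217664 27 (.sv 33554357 25 .V .R) (.sv 33554357 25 .V .V)) (.sr 134217664 27 .R (.sv 67108793 26 .R .R)))))) (.sr 33554368 25 .R .R))) .R))))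

end Vale.Agent.CK
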