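import Vale.Agent.CK.Facts

/-!
`Mono`: for `x = d h(t)/t`, `𝒦(x/T) - 𝒦(x/T̄) ≤ c₃(t)`.
-/

open Real Set

namespace Vale.Agent.CK

open Vale.Agent.P322

/-- The mean-value `T̄`. -/
noncomputable def Tb (a b : ℝ) : ℝ := (Tm a + Tm b) / 2

/-- `κ - Q/h` is antitone when `Q` bounds `Qf`, the endpoint `x = 0` allowed. -/
lemma kap_lip0 {Q x y : ℝ} (h0 : 0 ≤ x) (hxy : x ≤ y) (h1 : y < 1)
    (hQ : ∀ z, x < z → z < y → Qf z ≤ Q) :
    kap y - kap x ≤ Q * (1 / ent y - 1 / ent x) := by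
  have hent : ∀ z, 0 ≤ z → z < 1 → 0 < ent z := fun z hz0 hz1 => ent_pos (abs_lt_one_of hz0 hz1)
  let f : ℝ → ℝ := fun z => kap z - Q * (1 / ent z)
  let f' : ℝ → ℝ := fun z => dkap z - Q * (A z / ent z ^ 2)
  have ha : AntitoneOn f (Icc x y) := by
    apply anti_of_deriv (f' := f')
    · intro z hz
      have hz0 : 0 ≤ z := le_trans h0 hz.1
      have hz1 : z < 1 := lt_of_le_of_lt hz.2 h1
      have h2 : ContinuousWithinAt kap (Icc x y) z :=
        (continuousOn_kap z ⟨hz0, hz1⟩).mono (fun w hw => ⟨le_trans h0 hw.1, lt_of_le_of_lt hw.2 h1⟩)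
      have h3 : ContinuousWithinAt (fun w => 1 / ent w) (Icc x y) z :=
        (continuousWithinAt_const).div continuous_ent.continuousWithinAt (hent z hz0 hz1).ne'
      exact h2.sub (continuousWithinAt_const.mul h3)
    · intro z hz
      have hz0 : 0 < z := lt_of_le_of_lt h0 hz.1
      have hz1 : z < 1 := lt_trans hz.2 h1
      have he := hent z hz0.le hz1
      have d1 := hasDerivAt_kap hz0 hz1
      have d2 := (hasDerivAt_const z (1 : ℝ)).div (hasDerivAt_ent (abs_lt_one_of hz0.le hz1)) he.ne'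
      have d3 : HasDerivAt f (dkap z - Q * ((0 * ent z - 1 * -A z) / ent z ^ 2)) z :=
        d1.sub (d2.const_mul Q)
      have e : (0 * ent z - 1 * -A z) / ent z ^ 2 = A z / ent z ^ 2 := by
        congr 1
        ring
      rw [e] at d3
      exact d3
    · intro z hz
      have hz0 : 0 < z := lt_of_le_of_lt h0 hz.1
      have hz1 : z < 1 := lt_trans hz.2 h1
      have he := hent z hz0.le hz1
      have hA := A_pos hz0 hz1
      have hq := hQ z hz.1 hz.2
      unfold Qf at hq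
      simp only [f']
      rw [div_le_iff₀ hA] at hq
      have : dkap z = (ent z ^ 2 * dkap z) / ent z ^ 2 := by
        field_simp
      rw [this, ← mul_div_assoc]
      have h5 : (ent z ^ 2 * dkap z) / ent z ^ 2 ≤ (Q * A z) / ent z ^ 2 := by
        apply div_le_div_of_nonneg_right hq
        positivity
      linarith
  have := ha (left_mem_Icc.mpr hxy) (right_mem_Icc.mpr hxy) hxy
  simp only [f] at this
  linarith

/-- `κ - Q/h` is antitone when `Q` bounds `Qf`: the Lipschitz bound for `κ` in terms of `1/h`. -/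
lemma kap_lip {Q x y : ℝ} (h0 : 0 < x) (hxy : x ≤ y) (h1 : y < 1)
    (hQ : ∀ z, x ≤ z → z ≤ y → Qf z ≤ Q) :
    kap y - kap x ≤ Q * (1 / ent y - 1 / ent x) :=
  kap_lip0 h0.le hxy h1 (fun z h2 h3 => hQ z h2.le h3.le)

/-- Formula for `T - T̄`. -/
lemma Tm_sub_Tb (m d : ℝ) :
    Tm m - Tb (m + d) (m - d) = d ^ 2 * (5 / 4 - 3 / 2 * m ^ 2 - d ^ 2 / 4) := by
  unfold Tm Tb Tm
  ring

/-- `F5`: a polynomial inequality. -/
lemma F5 {m d : ℝ} (hd : 0 < d) (hm : |m| + d < 1)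
    (hD : 3 / 4 * d ≤ Tm m - Tb (m + d) (m - d)) :
    Tm m - d ≤ 68 / 100 * Tb (m + d) (m - d) := by
  rw [Tm_sub_Tb] at hD
  have hd1 : d < 1 := by
    have := abs_nonneg m
    linarith
  have hmu0 : 0 ≤ m ^ 2 := sq_nonneg m
  have hmu1 : m ^ 2 ≤ 1 := by
    have h1 : |m| ≤ 1 := by linarith
    have := sq_abs m
    nlinarith [abs_nonneg m]
  -- `d (5/4 - d²/4) ≥ 3/4`
  have h1 : 3 / 4 ≤ d * (5 / 4 - d ^ 2 / 4) := by
    have h2 : 3 / 4 * d ≤ d * (d * (5 / 4 - d ^ 2 / 4)) := by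
      have : d ^ 2 * (3 / 2 * m ^ 2) ≥ 0 := by positivity
      nlinarith
    nlinarith
  have h656 : 656 / 1000 ≤ d := by
    by_contra hc
    push Not at hc
    have h3 : d * (5 / 4 - d ^ 2 / 4) ≤ (656 / 1000) * (5 / 4 - (656 / 1000) ^ 2 / 4) := by
      nlinarith [mul_pos hd hd, mul_pos (mul_pos hd hd) hd, sq_nonneg (d - 656 / 1000)]
    norm_num at h3
    linarith
  have hr : 17 / 100 * d ^ 3 + 17 / 100 * d ^ 2 - 68 / 100 * d + 32 / 100 ≤ 0 := by
    have h4 : 0 ≤ (d - 656 / 1000) * (1 - d) := mul_nonneg (by linarith) (by linarith)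
    nlinarith [mul_nonneg h4 hd.le]
  have hfinal : 32 / 100 * 1 + 68 / 100 * (d ^ 2 * (5 / 4 - d ^ 2 / 4)) ≤ d := by
    have : 32 / 100 * 1 + 68 / 100 * (d ^ 2 * (5 / 4 - d ^ 2 / 4)) - d =
        (1 - d) * (17 / 100 * d ^ 3 + 17 / 100 * d ^ 2 - 68 / 100 * d + 32 / 100) := by
      ring
    have h5 : (1 - d) * (17 / 100 * d ^ 3 + 17 / 100 * d ^ 2 - 68 / 100 * d + 32 / 100) ≤ 0 :=
      mul_nonpos_of_nonneg_of_nonpos (by linarith) hr
    linarith
  have hT1 : Tm m ≤ 1 := by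
    unfold Tm
    nlinarith
  have hD1 : Tm m - Tb (m + d) (m - d) ≤ d ^ 2 * (5 / 4 - d ^ 2 / 4) := by
    rw [Tm_sub_Tb]
    have : d ^ 2 * (3 / 2 * m ^ 2) ≥ 0 := by positivity
    nlinarith
  have e : Tb (m + d) (m - d) = Tm m - (Tm m - Tb (m + d) (m - d)) := by ring
  nlinarith

lemma Tm_pos' {a : ℝ} (ha : |a| < 1) : 0 < Tm a := Tm_pos ha

lemma Tb_pos {m d : ℝ} (hd : 0 < d) (hm : |m| + d < 1) : 0 < Tb (m + d) (m - d) := by
  have h1 : |m + d| < 1 := by
    have := abs_add_le m d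
    rw [abs_of_pos hd] at this
    linarith
  have h2 : |m - d| < 1 := by
    have := abs_sub m d
    rw [abs_of_pos hd] at this
    linarith
  have h3 := Tm_pos h1
  have h4 := Tm_pos h2
  unfold Tb
  linarith

lemma poly_mono {d t : ℝ} (hd : 0 < d) (ht : d ≤ t) (ht1 : t < 1) :
    d * (5 / 4 - d ^ 2 / 4) ≤ t * (5 / 4 - t ^ 2 / 4) := by
  have e : t * (5 / 4 - t ^ 2 / 4) - d * (5 / 4 - d ^ 2 / 4) =
      (t - d) * (5 / 4 - (t ^ 2 + t * d + d ^ 2) / 4) := by ring
  have ht0 : 0 < t := lt_of_lt_of_le hd ht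
  have h1 : t ^ 2 ≤ 1 := by nlinarith
  have h2 : d ^ 2 ≤ 1 := by nlinarith
  have h3 : t * d ≤ 1 := by nlinarith
  have h4 : 0 ≤ 5 / 4 - (t ^ 2 + t * d + d ^ 2) / 4 := by linarith
  have := mul_nonneg (sub_nonneg.mpr ht) h4
  linarith

/-- The bound on `D` against `c₃(t) x` in the first Lipschitz case. -/
lemma mono_c3_bound {m d t : ℝ} (hd : 0 < d) (ht : d ≤ t) (ht1 : t < 1)
    (hsub : t ≤ 91 / 100 ∨ d ^ 2 * (5 / 4 - 3 / 2 * m ^ 2 - d ^ 2 / 4) ≤ 3 / 4 * d) :
    645 / 1000 * (d ^ 2 * (5 / 4 - 3 / 2 * m ^ 2 - d ^ 2 / 4)) ≤ c3 t * ent t / t * d := by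
  have ht0 : 0 < t := lt_of_lt_of_le hd ht
  rcases le_or_gt t (91 / 100) with h91 | h91
  · have hF3 := F3 ht0 h91
    have h4 := poly_mono hd ht ht1
    have h5 : d * (d * (5 / 4 - d ^ 2 / 4)) ≤ d * (t * (5 / 4 - t ^ 2 / 4)) :=
      mul_le_mul_of_nonneg_left h4 hd.le
    have h6 : 0 ≤ d ^ 2 * (3 / 2 * m ^ 2) := by positivity
    have hDle : d ^ 2 * (5 / 4 - 3 / 2 * m ^ 2 - d ^ 2 / 4) ≤ d * (t * (5 / 4 - t ^ 2 / 4)) := by
      have e : d ^ 2 * (5 / 4 - 3 / 2 * m ^ 2 - d ^ 2 / 4) =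
          d * (d * (5 / 4 - d ^ 2 / 4)) - d ^ 2 * (3 / 2 * m ^ 2) := by ring
      rw [e]
      linarith
    have h7 := mul_le_mul_of_nonneg_right hF3 hd.le
    have e : 645 / 1000 * (t * (5 / 4 - t ^ 2 / 4)) * d =
        645 / 1000 * (d * (t * (5 / 4 - t ^ 2 / 4))) := by ring
    rw [e] at h7
    linarith
  · have hF3b := F3b h91.le ht1
    have hDle : d ^ 2 * (5 / 4 - 3 / 2 * m ^ 2 - d ^ 2 / 4) ≤ 3 / 4 * d := by
      rcases hsub with h | h
      · linarith
      · exact h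
    have h7 := mul_le_mul_of_nonneg_right hF3b hd.le
    have e : 645 / 1000 * (3 / 4) * d = 645 / 1000 * (3 / 4 * d) := by ring
    rw [e] at h7
    linarith

/-- The consequence of `F4`. -/
lemma mono_F4 {x Tbar : ℝ} (hx0 : 0 < x) (hTb : 0 < Tbar) :
    41 / 100 * Tbar ≤ x * (595 / 1000 + kap (rinv (x / Tbar))) := by
  have hu1 : 0 < x / Tbar := div_pos hx0 hTb
  have hs1m := rinv_mem hu1
  have hk1 : 0 ≤ kap (rinv (x / Tbar)) := kap_nonneg hs1m.1 hs1m.2
  rcases le_or_gt (x / Tbar) (log 2) with hsat | hsat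
  · have hF4 := F4 hs1m.1 hs1m.2
    rw [ent_rinv hu1 hsat] at hF4
    have e : x / Tbar * Tbar = x := by field_simp
    have h5 := mul_le_mul_of_nonneg_right hF4 hTb.le
    have e2 : (kap (rinv (x / Tbar)) * (x / Tbar) + 595 / 1000 * (x / Tbar)) * Tbar =
        (x / Tbar * Tbar) * (kap (rinv (x / Tbar)) + 595 / 1000) := by ring
    rw [e2, e] at h5
    linarith
  · have hF4 := F4 (ρ := 0) le_rfl one_pos
    rw [ent_zero, kap_zero, zero_mul, zero_add] at hF4
    have h5 : log 2 * Tbar ≤ x := by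
      rw [lt_div_iff₀ hTb] at hsat
      exact hsat.le
    have h6 : 0 ≤ x * kap (rinv (x / Tbar)) := mul_nonneg hx0.le hk1
    have h7 := mul_le_mul_of_nonneg_right hF4 hTb.le
    have h8 : 595 / 1000 * (log 2 * Tbar) ≤ 595 / 1000 * x :=
      mul_le_mul_of_nonneg_left h5 (by norm_num)
    have e : 595 / 1000 * log 2 * Tbar = 595 / 1000 * (log 2 * Tbar) := by ring
    rw [e] at h7
    linarith

/-- First Lipschitz case of `Mono`, abstractly. -/
lemma mono_case1 {T Tbar x c : ℝ} (hTb : 0 < Tbar) (hT : Tbar < T) (hx0 : 0 < x)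
    (hsat : x / T ≤ log 2) (hc : 645 / 1000 * (T - Tbar) ≤ c * x) :
    kap (rinv (x / T)) - kap (rinv (x / Tbar)) ≤ c := by
  have hTm : 0 < T := lt_trans hTb hT
  have hu : 0 < x / T := div_pos hx0 hTm
  have hu1 : 0 < x / Tbar := div_pos hx0 hTb
  have hsm := rinv_mem hu
  have hs1m := rinv_mem hu1
  have huu : x / T ≤ x / Tbar := div_le_div_of_nonneg_left hx0.le hTb hT.le
  have hss1 := rinv_anti hu huu
  have hentS : ent (rinv (x / T)) = x / T := ent_rinv hu hsat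
  have h1s : 1 / ent (rinv (x / T)) = T / x := by
    rw [hentS]
    field_simp
  have hes1 := ent_pos (abs_lt_one_of hs1m.1 hs1m.2)
  have h1s1 : Tbar / x ≤ 1 / ent (rinv (x / Tbar)) := by
    have h2 := ent_rinv_le hu1
    rw [div_le_div_iff₀ hx0 hes1]
    rw [le_div_iff₀ hTb] at h2
    linarith
  have hl := kap_lip0 (Q := 645 / 1000) hs1m.1 hss1 hsm.2
    (fun z hz1 hz2 => F1 (lt_of_le_of_lt hs1m.1 hz1) (lt_trans hz2 hsm.2))
  have h2 : 645 / 1000 * (1 / ent (rinv (x / T)) - 1 / ent (rinv (x / Tbar))) ≤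
      645 / 1000 * ((T - Tbar) / x) := by
    apply mul_le_mul_of_nonneg_left _ (by norm_num)
    rw [h1s, sub_div]
    linarith
  have h4 : 645 / 1000 * ((T - Tbar) / x) ≤ c := by
    rw [← mul_div_assoc, div_le_iff₀ hx0]
    exact hc
  linarith

/-- Second Lipschitz case of `Mono`, abstractly. -/
lemma mono_case2 {T Tbar x t d : ℝ} (hd : 0 < d) (hTb : 0 < Tbar) (hx0 : 0 < x)
    (hTm : 0 < T) (ht91 : 91 / 100 < t) (ht1 : t < 1) (hxe : x = d * ent t / t)
    (hlt : x / T < ent t) (hF5 : T - d ≤ 68 / 100 * Tbar) :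
    kap (rinv (x / T)) - kap (rinv (x / Tbar)) ≤ c3 t := by
  have ht0 : 0 < t := by linarith
  have he := ent_pos (abs_lt_one_of ht0.le ht1)
  have hu : 0 < x / T := div_pos hx0 hTm
  have hu1 : 0 < x / Tbar := div_pos hx0 hTb
  have hsm := rinv_mem hu
  have hs1m := rinv_mem hu1
  have hle2 : x / T ≤ log 2 := le_trans hlt.le (ent_le_log_two t)
  have hentS : ent (rinv (x / T)) = x / T := ent_rinv hu hle2
  have h1s : 1 / ent (rinv (x / T)) = T / x := by
    rw [hentS]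
    field_simp
  have hst : t ≤ rinv (x / T) := by
    have := rinv_anti hu hlt.le
    rwa [rinv_ent ht0.le ht1] at this
  have hl := kap_lip (Q := 6025 / 10000) ht0 hst hsm.2
    (fun z hz1 hz2 => F2 (by linarith) (lt_of_le_of_lt hz2 hsm.2))
  have h1t : d / x ≤ 1 / ent t := by
    rw [hxe, div_le_div_iff₀ (by positivity) he]
    have h3 : d * ent t * t ≤ d * ent t * 1 :=
      mul_le_mul_of_nonneg_left ht1.le (by positivity)
    rw [mul_one] at h3
    have e : 1 * (d * ent t / t) = d * ent t / t := by ring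
    rw [e]
    rw [le_div_iff₀ ht0]
    exact h3
  have h2 : 6025 / 10000 * (1 / ent (rinv (x / T)) - 1 / ent t) ≤
      6025 / 10000 * ((T - d) / x) := by
    apply mul_le_mul_of_nonneg_left _ (by norm_num)
    rw [h1s, sub_div]
    linarith
  have h3 : 6025 / 10000 * ((T - d) / x) ≤ 41 / 100 * (Tbar / x) := by
    rw [← mul_div_assoc, ← mul_div_assoc]
    apply div_le_div_of_nonneg_right _ hx0.le
    linarith
  have h4 := mono_F4 hx0 hTb
  have h5 : 41 / 100 * (Tbar / x) ≤ 595 / 1000 + kap (rinv (x / Tbar)) := by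
    rw [← mul_div_assoc, div_le_iff₀ hx0]
    linarith
  have h6 := F6 ht91.le ht1
  linarith

/-- `Mono`: the key monotonicity statement. -/
theorem mono_key {m d t : ℝ} (hd : 0 < d) (hm : |m| + d < 1) (ht : d ≤ t) (ht1 : t < 1)
    (hT : Tb (m + d) (m - d) < Tm m) :
    KK (d * ent t / t / Tm m) - KK (d * ent t / t / Tb (m + d) (m - d)) ≤ c3 t := by
  have ht0 : 0 < t := lt_of_lt_of_le hd ht
  have he := ent_pos (abs_lt_one_of ht0.le ht1)
  have hTb := Tb_pos hd hm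
  have hTm : 0 < Tm m := lt_trans hTb hT
  have hx0 : 0 < d * ent t / t := by positivity
  have hu : 0 < d * ent t / t / Tm m := div_pos hx0 hTm
  have hu1 : 0 < d * ent t / t / Tb (m + d) (m - d) := div_pos hx0 hTb
  have hsm := rinv_mem hu
  have hs1m := rinv_mem hu1
  unfold KK
  have hk1 := kap_nonneg hs1m.1 hs1m.2
  by_cases hcase : t * Tm m ≤ d
  · -- Case `t T ≤ d`: `s ≤ t`.
    have h1 : ent t ≤ d * ent t / t / Tm m := by
      rw [le_div_iff₀ hTm, le_div_iff₀ ht0]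
      have e : ent t * Tm m * t = ent t * (t * Tm m) := by ring
      rw [e, mul_comm d]
      exact mul_le_mul_of_nonneg_left hcase he.le
    have h2 : rinv (d * ent t / t / Tm m) ≤ t := by
      have := rinv_anti he h1
      rwa [rinv_ent ht0.le ht1] at this
    have h3 := kap_mono hsm.1 h2 ht1
    have h4 := F7 ht0 ht1
    linarith
  · push Not at hcase
    have hlt : d * ent t / t / Tm m < ent t := by
      rw [div_lt_iff₀ hTm, div_lt_iff₀ ht0]
      have e : ent t * Tm m * t = ent t * (t * Tm m) := by ring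
      rw [e, mul_comm d]
      exact mul_lt_mul_of_pos_left hcase he
    have hle2 : d * ent t / t / Tm m ≤ log 2 := le_trans hlt.le (ent_le_log_two t)
    have hD_eq := Tm_sub_Tb m d
    by_cases hsub : t ≤ 91 / 100 ∨ Tm m - Tb (m + d) (m - d) ≤ 3 / 4 * d
    · apply mono_case1 hTb hT hx0 hle2
      rw [hD_eq]
      rw [hD_eq] at hsub
      have h := mono_c3_bound hd ht ht1 hsub
      have e : c3 t * ent t / t * d = c3 t * (d * ent t / t) := by
        field_simp
      rw [← e]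
      exact h
    · push Not at hsub
      obtain ⟨h91, hD34⟩ := hsub
      exact mono_case2 hd hTb hx0 hTm h91 ht1 rfl hlt (F5 hd hm hD34.le)

end Vale.Agent.CK
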