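import Vale.Agent.CK.Bell

/-!
The comparison argument along the noise semigroup.
-/

open Real Set

namespace Vale.Agent.CK

open Vale.Agent.P322

/-- `2 (ln 2 - h(σ)) + Y(σ) = σ w(σ)`. -/
lemma psi_identity {σ : ℝ} (h0 : |σ| < 1) : 2 * (log 2 - ent σ) + Yf σ = σ * A σ := by
  rw [ent_formula h0]
  unfold Yf
  ring

/-- The Bellman inequality along the noise flow for a balanced function. -/
lemma bellman_noise {n : ℕ} {F : Cube n → ℝ} (hb : avg F = 0) {ρ : ℝ}
    (hw : ∀ y, |noise F ρ y| < 1) :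
    2 * (log 2 - Hn F ρ) + YY (Hn F ρ) ≤ Dir (noise F ρ) / 4 := by
  have h := bellman_S n (noise F ρ) hw
  rw [avg_noise, hb, ent_zero] at h
  have hT : Tm 0 = 1 := by
    unfold Tm
    norm_num
  rw [hT] at h
  unfold PP at h
  rw [div_one, one_mul] at h
  exact h

lemma exists_both_signs {n : ℕ} {F : Cube n → ℝ} (hF : ∀ x, F x = 1 ∨ F x = -1) (hb : avg F = 0) :
    ∃ x₀ x₁, F x₀ = 1 ∧ F x₁ = -1 := by
  have h1 : ∃ x₀, F x₀ = 1 := by
    by_contra hcon
    push Not at hcon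
    have hall : ∀ x, F x = -1 := fun x => (hF x).resolve_left (hcon x)
    have : avg F = -1 := by
      have e : F = fun _ => -1 := funext hall
      rw [e, avg_const]
    rw [this] at hb
    norm_num at hb
  have h2 : ∃ x₁, F x₁ = -1 := by
    by_contra hcon
    push Not at hcon
    have hall : ∀ x, F x = 1 := fun x => (hF x).resolve_right (hcon x)
    have : avg F = 1 := by
      have e : F = fun _ => 1 := funext hall
      rw [e, avg_const]
    rw [this] at hb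
    norm_num at hb
  obtain ⟨x₀, h₀⟩ := h1
  obtain ⟨x₁, h₁⟩ := h2
  exact ⟨x₀, x₁, h₀, h₁⟩

/-- Balanced functions: `Hn(ρ) ≥ h(ρ)`. -/
theorem Hn_ge_ent {n : ℕ} {F : Cube n → ℝ} (hF : ∀ x, F x = 1 ∨ F x = -1) (hb : avg F = 0)
    {ρ : ℝ} (hρ0 : 0 < ρ) (hρ1 : ρ < 1) : ent ρ ≤ Hn F ρ := by
  obtain ⟨x₀, x₁, h₀, h₁⟩ := exists_both_signs hF hb
  by_contra hcon
  push Not at hcon
  set r0 := ρ with hr0
  have hw : ∀ r, 0 < r → r < 1 → ∀ y, |noise F r y| < 1 := fun r h0 h1 y =>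
    abs_noise_lt hF h₀ h₁ (abs_lt_one_of h0.le h1) y
  -- the values of `Hn` on `[r0, 1)`
  have hpos : ∀ r, 0 < r → r < 1 → 0 < Hn F r := fun r h0 h1 =>
    avg_pos fun y => ent_pos (hw r h0 h1 y)
  have hlog : ∀ r, r0 ≤ r → r < 1 → Hn F r < log 2 := by
    intro r h0 h1
    have h2 := Hn_antitone hF h₀ h₁ hρ0 h0 h1
    have h3 := ent_le_log_two r0
    linarith
  -- `σ = rinv ∘ Hn`
  have hσd : ∀ r, r0 ≤ r → r < 1 → HasDerivAt (fun z => rinv (Hn F z))
      (-(1 / A (rinv (Hn F r))) * (-(Dir (noise F r) / 4) / r)) r := by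
    intro r h0 h1
    have hr : 0 < r := lt_of_lt_of_le hρ0 h0
    exact HasDerivAt.comp (h₂ := rinv) (h := Hn F) r (hasDerivAt_rinv (hpos r hr h1) (hlog r h0 h1))
      (hasDerivAt_Hn' hF h₀ h₁ hr h1)
  -- `φ = σ / r` is monotone
  let φ : ℝ → ℝ := fun z => rinv (Hn F z) / z
  let φ' : ℝ → ℝ := fun r =>
    ((-(1 / A (rinv (Hn F r))) * (-(Dir (noise F r) / 4) / r)) * r - rinv (Hn F r) * 1) / r ^ 2
  have hφd : ∀ r, r0 ≤ r → r < 1 → HasDerivAt φ (φ' r) r := by
    intro r h0 h1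
    have hr : 0 < r := lt_of_lt_of_le hρ0 h0
    exact (hσd r h0 h1).div (hasDerivAt_id' r) hr.ne'
  have hφ'nn : ∀ r, r0 ≤ r → r < 1 → 0 ≤ φ' r := by
    intro r h0 h1
    have hr : 0 < r := lt_of_lt_of_le hρ0 h0
    have hp := hpos r hr h1
    have hl := hlog r h0 h1
    have hσpos : 0 < rinv (Hn F r) := rinv_pos hp hl
    have hσlt : rinv (Hn F r) < 1 := (rinv_mem hp).2
    have hA := A_pos hσpos hσlt
    have hB := bellman_noise hb (hw r hr h1)
    have hid := psi_identity (abs_lt_one_of hσpos.le hσlt)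
    rw [ent_rinv hp hl.le] at hid
    have hYY : YY (Hn F r) = Yf (rinv (Hn F r)) := rfl
    rw [hYY, hid] at hB
    simp only [φ']
    apply div_nonneg _ (by positivity)
    have e : (-(1 / A (rinv (Hn F r))) * (-(Dir (noise F r) / 4) / r)) * r - rinv (Hn F r) * 1 =
        (Dir (noise F r) / 4 - rinv (Hn F r) * A (rinv (Hn F r))) / A (rinv (Hn F r)) := by
      field_simp
    rw [e]
    apply div_nonneg _ hA.le
    linarith
  have hmono : ∀ r, r0 ≤ r → r < 1 → φ r0 ≤ φ r := by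
    intro r h0 h1
    have hm : MonotoneOn φ (Icc r0 r) := by
      apply mono_of_deriv (f' := φ')
      · intro z hz
        exact (hφd z hz.1 (lt_of_le_of_lt hz.2 h1)).continuousAt.continuousWithinAt
      · intro z hz
        exact hφd z hz.1.le (lt_trans hz.2 h1)
      · intro z hz
        exact hφ'nn z hz.1.le (lt_trans hz.2 h1)
    exact hm (left_mem_Icc.mpr h0) (right_mem_Icc.mpr h0) h0
  have hp0 := hpos r0 hρ0 hρ1
  have hl0 := hlog r0 le_rfl hρ1
  have hs1 : rinv (Hn F r0) < 1 := (rinv_mem hp0).2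
  have hs0 : 0 ≤ rinv (Hn F r0) := (rinv_mem hp0).1
  -- `σ(r0) ≤ r0`
  have hle : rinv (Hn F r0) ≤ r0 := by
    by_contra hc
    push Not at hc
    set s := rinv (Hn F r0) with hs
    have hspos : 0 < s := lt_trans hρ0 hc
    have hr1 : r0 ≤ r0 / s := by
      rw [le_div_iff₀ hspos]
      nlinarith
    have hr2 : r0 / s < 1 := by
      rw [div_lt_one hspos]
      exact hc
    have h1 := hmono (r0 / s) hr1 hr2
    have hr3 : 0 < r0 / s := div_pos hρ0 hspos
    have hp1 := hpos (r0 / s) hr3 hr2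
    have h2 : rinv (Hn F (r0 / s)) < 1 := (rinv_mem hp1).2
    simp only [φ] at h1
    have h3 : rinv (Hn F (r0 / s)) / (r0 / s) < s / r0 := by
      rw [div_lt_div_iff₀ hr3 hρ0]
      have e : s * (r0 / s) = r0 := by field_simp
      rw [e]
      exact mul_lt_of_lt_one_left hρ0 h2
    rw [← hs] at h1
    linarith
  have h5 : ent r0 ≤ ent (rinv (Hn F r0)) :=
    ent_strictAntiOn.antitoneOn ⟨hs0, hs1.le⟩ ⟨hρ0.le, hρ1.le⟩ hle
  rw [ent_rinv hp0 hl0.le] at h5
  linarith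

/-- The closed form of `Hn_ge_ent`, with `ρ = 0` allowed. -/
theorem Hn_ge_ent' {n : ℕ} {F : Cube n → ℝ} (hF : ∀ x, F x = 1 ∨ F x = -1) (hb : avg F = 0)
    {ρ : ℝ} (hρ0 : 0 ≤ ρ) (hρ1 : ρ < 1) : ent ρ ≤ Hn F ρ := by
  have hcl : IsClosed {r : ℝ | ent r ≤ Hn F r} := isClosed_le continuous_ent (continuous_Hn F)
  have hsub : Ioo (0 : ℝ) 1 ⊆ {r : ℝ | ent r ≤ Hn F r} := fun r hr => Hn_ge_ent hF hb hr.1 hr.2
  have h2 := hcl.closure_subset_iff.mpr hsub
  rw [closure_Ioo (zero_ne_one)] at h2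
  exact h2 ⟨hρ0, hρ1.le⟩

/-- The Courtade-Kumar inequality for balanced functions. -/
theorem balanced_CK {n : ℕ} (f : (Fin n → Bool) → Bool) (hf : ∑ x, sgnF f x = 0) {ε : ℝ}
    (h0 : 0 < ε) (h1 : ε ≤ 1 / 2) : mutualInfo f ε ≤ 1 - binEntropy ε / log 2 := by
  have hlog2 : 0 < log 2 := Real.log_pos (by norm_num)
  have hid := mutualInfo_eq f h0 (by linarith)
  have ha : avg (sgnF f) = 0 := by
    unfold avg
    rw [hf, zero_div]
  rw [ha, ent_zero] at hid
  have hρ0 : 0 ≤ 1 - 2 * ε := by linarith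
  have hρ1 : 1 - 2 * ε < 1 := by linarith
  have hge := Hn_ge_ent' (sgnF_cases f) ha hρ0 hρ1
  have he : ent (1 - 2 * ε) = binEntropy ε := by
    unfold ent
    have e : (1 + (1 - 2 * ε)) / 2 = 1 - ε := by ring
    rw [e, binEntropy_one_sub]
  rw [he] at hge
  have h2 : mutualInfo f ε * log 2 ≤ log 2 - binEntropy ε := by linarith
  have h3 : 1 - binEntropy ε / log 2 = (log 2 - binEntropy ε) / log 2 := by
    field_simp
  rw [h3, le_div_iff₀ hlog2]
  exact h2

end Vale.Agent.CK
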