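import Vale.Agent.CK.Basic

/-!
The inverse of the entropy, the function `𝒴 = YY` and the perspective `PP`.
-/

open Real Set

namespace Vale.Agent.CK

open Vale.Agent.P322

lemma exists_ent_eq {u : ℝ} (hu : 0 < u) (hu2 : u ≤ log 2) : ∃ x ∈ Ico (0 : ℝ) 1, ent x = u := by
  have hc : ContinuousOn ent (Icc 0 1) := continuous_ent.continuousOn
  have h := intermediate_value_Icc' (zero_le_one (α := ℝ)) hc
  have hu' : u ∈ Icc (ent 1) (ent 0) := by
    rw [ent_one, ent_zero]
    exact ⟨hu.le, hu2⟩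
  obtain ⟨x, hx, hxu⟩ := h hu'
  refine ⟨x, ⟨hx.1, ?_⟩, hxu⟩
  rcases eq_or_lt_of_le hx.2 with h1 | h1
  · rw [h1, ent_one] at hxu
    linarith
  · exact h1

lemma rinv_of_ge {u : ℝ} (hu2 : log 2 ≤ u) : rinv u = 0 := by
  unfold rinv
  rw [if_pos hu2]

lemma rinv_of_lt {u : ℝ} (hu2 : u < log 2) : rinv u = Function.invFunOn ent (Ico 0 1) u := by
  unfold rinv
  rw [if_neg (not_le.mpr hu2)]

lemma rinv_mem {u : ℝ} (hu : 0 < u) : rinv u ∈ Ico (0 : ℝ) 1 := by
  rcases le_or_gt (log 2) u with h | h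
  · rw [rinv_of_ge h]
    exact ⟨le_rfl, one_pos⟩
  · rw [rinv_of_lt h]
    exact Function.invFunOn_mem (exists_ent_eq hu h.le)

lemma ent_rinv {u : ℝ} (hu : 0 < u) (hu2 : u ≤ log 2) : ent (rinv u) = u := by
  rcases eq_or_lt_of_le hu2 with h | h
  · rw [rinv_of_ge h.ge, ent_zero, h]
  · rw [rinv_of_lt h]
    exact Function.invFunOn_eq (exists_ent_eq hu h.le)

lemma ent_pos_of {ρ : ℝ} (h0 : 0 ≤ ρ) (h1 : ρ < 1) : 0 < ent ρ :=
  ent_pos (abs_lt_one_of h0 h1)

lemma ent_le_log_two (ρ : ℝ) : ent ρ ≤ log 2 := binEntropy_le_log_two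

lemma rinv_ent {ρ : ℝ} (h0 : 0 ≤ ρ) (h1 : ρ < 1) : rinv (ent ρ) = ρ := by
  have hp := ent_pos_of h0 h1
  have hm := rinv_mem hp
  have he := ent_rinv hp (ent_le_log_two ρ)
  exact ent_strictAntiOn.injOn ⟨hm.1, hm.2.le⟩ ⟨h0, h1.le⟩ he

/-- `rinv` is antitone. -/
lemma rinv_anti {u u' : ℝ} (hu : 0 < u) (huu : u ≤ u') : rinv u' ≤ rinv u := by
  rcases le_or_gt (log 2) u' with h | h
  · rw [rinv_of_ge h]
    exact (rinv_mem hu).1
  · by_contra hc
    push Not at hc
    have hu' : 0 < u' := lt_of_lt_of_le hu huu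
    have hm := rinv_mem hu
    have hm' := rinv_mem hu'
    have h1 := ent_strictAntiOn ⟨hm.1, hm.2.le⟩ ⟨hm'.1, hm'.2.le⟩ hc
    rw [ent_rinv hu (by linarith), ent_rinv hu' h.le] at h1
    linarith

/-- `ent ρ ≤ u` when `ρ = rinv u`. -/
lemma ent_rinv_le {u : ℝ} (hu : 0 < u) : ent (rinv u) ≤ u := by
  rcases le_or_gt (log 2) u with h | h
  · rw [rinv_of_ge h, ent_zero]
    exact h
  · exact (ent_rinv hu h.le).le

lemma continuousAt_rinv {u : ℝ} (hu : 0 < u) : ContinuousAt rinv u := by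
  have hm0 := rinv_mem hu
  unfold ContinuousAt
  rw [tendsto_order]
  constructor
  · intro a ha
    have hup : ∀ᶠ y in nhds u, 0 < y := lt_mem_nhds hu
    rcases lt_or_ge a 0 with h | h
    · filter_upwards [hup] with y hy
      exact lt_of_lt_of_le h (rinv_mem hy).1
    · have hr : 0 < rinv u := lt_of_le_of_lt h ha
      have hlt : u < log 2 := by
        by_contra hc
        push Not at hc
        rw [rinv_of_ge hc] at hr
        exact lt_irrefl _ hr
      have h1 : ent (rinv u) < ent a :=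
        ent_strictAntiOn ⟨h, lt_of_lt_of_le (lt_of_lt_of_le ha hm0.2.le) le_rfl |>.le⟩
          ⟨hm0.1, hm0.2.le⟩ ha
      rw [ent_rinv hu hlt.le] at h1
      have hev : ∀ᶠ y in nhds u, y < ent a := gt_mem_nhds h1
      filter_upwards [hup, hev] with y hy hya
      by_contra hc
      push Not at hc
      have hma := rinv_mem hy
      have h2 : ent a ≤ ent (rinv y) :=
        ent_strictAntiOn.antitoneOn ⟨hma.1, hma.2.le⟩
          ⟨h, lt_of_lt_of_le (lt_of_lt_of_le ha hm0.2.le) le_rfl |>.le⟩ hc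
      have h3 := ent_rinv_le hy
      linarith
  · intro b hb
    have hup : ∀ᶠ y in nhds u, 0 < y := lt_mem_nhds hu
    rcases le_or_gt 1 b with h | h
    · filter_upwards [hup] with y hy
      exact lt_of_lt_of_le (rinv_mem hy).2 h
    · have hb0 : 0 ≤ b := le_trans hm0.1 hb.le
      have h1 : ent b < ent (rinv u) :=
        ent_strictAntiOn ⟨hm0.1, hm0.2.le⟩ ⟨hb0, h.le⟩ hb
      have h2 := ent_rinv_le hu
      have hev : ∀ᶠ y in nhds u, ent b < y := lt_mem_nhds (lt_of_lt_of_le h1 h2)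
      filter_upwards [hup, hev] with y hy hyb
      by_contra hc
      push Not at hc
      have hbpos : 0 < b := lt_of_le_of_lt hm0.1 hb
      have hma := rinv_mem hy
      rcases le_or_gt (log 2) y with h3 | h3
      · rw [rinv_of_ge h3] at hc
        linarith
      · have h4 : ent (rinv y) ≤ ent b :=
          ent_strictAntiOn.antitoneOn ⟨hb0, h.le⟩ ⟨hma.1, hma.2.le⟩ hc
        rw [ent_rinv hy h3.le] at h4
        linarith

lemma continuousOn_rinv : ContinuousOn rinv (Ioi 0) := fun _ hu =>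
  (continuousAt_rinv hu).continuousWithinAt

lemma rinv_pos {u : ℝ} (hu : 0 < u) (hu2 : u < log 2) : 0 < rinv u := by
  have hm := rinv_mem hu
  rcases eq_or_lt_of_le hm.1 with h | h
  · have := ent_rinv hu hu2.le
    rw [← h, ent_zero] at this
    linarith
  · exact h

/-- `rinv` has a derivative where `0 < u < log 2`. -/
lemma hasDerivAt_rinv {u : ℝ} (hu : 0 < u) (hu2 : u < log 2) :
    HasDerivAt rinv (-(1 / A (rinv u))) u := by
  have hm := rinv_mem hu
  have hr := rinv_pos hu hu2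
  have hA := A_pos hr hm.2
  have hd := hasDerivAt_ent (abs_lt_one_of hm.1 hm.2)
  have he : ∀ᶠ y in nhds u, ent (rinv y) = y := by
    filter_upwards [lt_mem_nhds hu, gt_mem_nhds hu2] with y hy hy2
    exact ent_rinv hy hy2.le
  have h := HasDerivAt.of_local_left_inverse (continuousAt_rinv hu) hd (by
    simpa using hA.ne') he
  have e : (-A (rinv u))⁻¹ = -(1 / A (rinv u)) := by
    field_simp
  rw [e] at h
  exact h

lemma YY_nonneg {u : ℝ} (hu : 0 < u) : 0 ≤ YY u := by
  have hm := rinv_mem hu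
  exact Yf_nonneg hm.1 hm.2

lemma YY_of_ge {u : ℝ} (hu2 : log 2 ≤ u) : YY u = 0 := by
  unfold YY
  rw [rinv_of_ge hu2, Yf_zero]

lemma KK_nonneg {u : ℝ} (hu : 0 < u) : 0 ≤ KK u := by
  have hm := rinv_mem hu
  exact kap_nonneg hm.1 hm.2

lemma KK_of_ge {u : ℝ} (hu2 : log 2 ≤ u) : KK u = 0 := by
  unfold KK
  rw [rinv_of_ge hu2, kap_zero]

lemma KK_anti {u u' : ℝ} (hu : 0 < u) (huu : u ≤ u') : KK u' ≤ KK u := by
  have hm := rinv_mem hu
  have hm' := rinv_mem (lt_of_lt_of_le hu huu)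
  exact kap_mono hm'.1 (rinv_anti hu huu) hm.2

/-- The tangent inequality for `𝒴`. -/
lemma YY_tangent {s u : ℝ} (hs0 : 0 ≤ s) (hs1 : s < 1) (hu : 0 < u) :
    Af s - kap s * u ≤ YY u := by
  rcases le_or_gt (log 2) u with h | h
  · have h1 := Yf_tangent hs0 hs1 le_rfl one_pos
    rw [Yf_zero, ent_zero] at h1
    rw [YY_of_ge h]
    have h2 := mul_le_mul_of_nonneg_left h (kap_nonneg hs0 hs1)
    unfold Af
    linarith
  · have hm := rinv_mem hu
    have h1 := Yf_tangent hs0 hs1 hm.1 hm.2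
    rw [ent_rinv hu h.le] at h1
    unfold Af YY
    linarith

/-- Equality in the tangent inequality at `rinv u`. -/
lemma YY_eq {u : ℝ} (hu : 0 < u) : YY u = Af (rinv u) - KK u * u := by
  rcases le_or_gt (log 2) u with h | h
  · rw [YY_of_ge h, KK_of_ge h, rinv_of_ge h, Af_zero]
    ring
  · unfold Af YY KK
    rw [ent_rinv hu h.le]
    ring

lemma continuousAt_KK {u : ℝ} (hu : 0 < u) : ContinuousAt KK u := by
  have hm := rinv_mem hu
  have h1 : ContinuousWithinAt kap (Ico 0 1) (rinv u) := continuousOn_kap _ hm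
  have hmaps : MapsTo rinv (Ioi 0) (Ico 0 1) := fun y hy => rinv_mem hy
  have h2 : ContinuousWithinAt rinv (Ioi 0) u := (continuousAt_rinv hu).continuousWithinAt
  have h3 : ContinuousWithinAt KK (Ioi 0) u := h1.comp h2 hmaps
  exact h3.continuousAt (Ioi_mem_nhds hu)

/-- The two-sided bound for the increments of `𝒴`. -/
lemma YY_incr {u u' : ℝ} (hu : 0 < u) (hu' : 0 < u') :
    -KK u * (u' - u) ≤ YY u' - YY u ∧ YY u' - YY u ≤ -KK u' * (u' - u) := by
  have hm := rinv_mem hu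
  have hm' := rinv_mem hu'
  have h1 := YY_tangent hm.1 hm.2 hu'
  have h2 := YY_tangent hm'.1 hm'.2 hu
  have e1 := YY_eq hu
  have e2 := YY_eq hu'
  change Af (rinv u) - KK u * u' ≤ YY u' at h1
  change Af (rinv u') - KK u' * u ≤ YY u at h2
  constructor <;> nlinarith

/-- The derivative of `𝒴`. -/
lemma hasDerivAt_YY {u : ℝ} (hu : 0 < u) : HasDerivAt YY (-KK u) u := by
  rw [hasDerivAt_iff_tendsto_slope]
  rw [tendsto_iff_norm_sub_tendsto_zero]
  have hKK : Filter.Tendsto (fun y => |KK y - KK u|) (nhdsWithin u {u}ᶜ) (nhds 0) := by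
    have h1 : Filter.Tendsto KK (nhds u) (nhds (KK u)) := continuousAt_KK hu
    have h2 := (h1.sub_const (KK u)).abs
    rw [sub_self, abs_zero] at h2
    exact h2.mono_left nhdsWithin_le_nhds
  refine squeeze_zero' ?_ ?_ hKK
  · exact Filter.Eventually.of_forall (fun _ => norm_nonneg _)
  · have hev : ∀ᶠ y in nhdsWithin u {u}ᶜ, 0 < y :=
      nhdsWithin_le_nhds (lt_mem_nhds hu)
    filter_upwards [hev, self_mem_nhdsWithin] with y hy hne
    have hne' : y - u ≠ 0 := sub_ne_zero.mpr hne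
    obtain ⟨h1, h2⟩ := YY_incr hu hy
    have hk := KK_anti (u := u) (u' := y)
    have hk' := KK_anti (u := y) (u' := u)
    rw [slope_def_field, Real.norm_eq_abs]
    rcases lt_or_gt_of_ne hne with hlt | hgt
    · -- `y < u`
      have hneg : y - u < 0 := by linarith
      have h3 : (YY y - YY u) / (y - u) ≤ -KK u := by
        rw [div_le_iff_of_neg hneg]
        linarith
      have h4 : -KK y ≤ (YY y - YY u) / (y - u) := by
        rw [le_div_iff_of_neg hneg]
        linarith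
      rw [abs_le]
      have h5 := hk' hy hlt.le
      rw [abs_of_nonneg (by linarith)]
      constructor <;> linarith
    · have hpos : 0 < y - u := by linarith
      have h3 : -KK u ≤ (YY y - YY u) / (y - u) := by
        rw [le_div_iff₀ hpos]
        linarith
      have h4 : (YY y - YY u) / (y - u) ≤ -KK y := by
        rw [div_le_iff₀ hpos]
        linarith
      have h5 := hk hu hgt.le
      rw [abs_le, abs_sub_comm, abs_of_nonneg (by linarith)]
      constructor <;> linarith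

/-- The tangent inequality for the perspective. -/
lemma PP_tangent {s r x : ℝ} (hs0 : 0 ≤ s) (hs1 : s < 1) (hr : 0 < r) (hx : 0 < x) :
    Af s * r - kap s * x ≤ PP r x := by
  have h := YY_tangent hs0 hs1 (div_pos hx hr)
  have h2 := mul_le_mul_of_nonneg_left h hr.le
  have e : r * (Af s - kap s * (x / r)) = Af s * r - kap s * x := by
    field_simp
  rw [e] at h2
  exact h2

/-- Equality in the tangent inequality for the perspective. -/
lemma PP_eq {r x : ℝ} (hr : 0 < r) (hx : 0 < x) :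
    PP r x = Af (rinv (x / r)) * r - KK (x / r) * x := by
  unfold PP
  rw [YY_eq (div_pos hx hr)]
  field_simp

lemma PP_nonneg {r x : ℝ} (hr : 0 < r) (hx : 0 < x) : 0 ≤ PP r x :=
  mul_nonneg hr.le (YY_nonneg (div_pos hx hr))

/-- Convexity of the perspective along a midpoint. -/
lemma PP_midpoint {r₁ r₂ x₁ x₂ : ℝ} (hr₁ : 0 < r₁) (hr₂ : 0 < r₂) (hx₁ : 0 < x₁) (hx₂ : 0 < x₂) :
    PP ((r₁ + r₂) / 2) ((x₁ + x₂) / 2) ≤ (PP r₁ x₁ + PP r₂ x₂) / 2 := by
  have hr : 0 < (r₁ + r₂) / 2 := by positivity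
  have hx : 0 < (x₁ + x₂) / 2 := by positivity
  have hm := rinv_mem (div_pos hx hr)
  have h1 := PP_tangent hm.1 hm.2 hr₁ hx₁
  have h2 := PP_tangent hm.1 hm.2 hr₂ hx₂
  rw [PP_eq hr hx]
  unfold KK
  linarith

/-- Homogeneity. -/
lemma PP_smul {c r x : ℝ} (hc : 0 < c) (hr : 0 < r) : PP (c * r) (c * x) = c * PP r x := by
  unfold PP
  rw [mul_div_mul_left _ _ hc.ne']
  ring

/-- `PP` is nondecreasing in `r`. -/
lemma PP_mono_r {r r' x : ℝ} (hr : 0 < r) (hrr : r ≤ r') (hx : 0 < x) : PP r x ≤ PP r' x := by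
  have hu := div_pos hx hr
  have hm := rinv_mem hu
  have h1 := PP_tangent hm.1 hm.2 (lt_of_lt_of_le hr hrr) hx
  have h2 := mul_le_mul_of_nonneg_left hrr (Af_nonneg hm.1 hm.2)
  rw [PP_eq hr hx]
  unfold KK
  linarith

/-- The derivative of `PP` in `x`. -/
lemma hasDerivAt_PP_x {r x : ℝ} (hr : 0 < r) (hx : 0 < x) :
    HasDerivAt (fun y => PP r y) (-KK (x / r)) x := by
  have hu := div_pos hx hr
  have d1 : HasDerivAt (fun y : ℝ => y / r) (1 / r) x := (hasDerivAt_id' x).div_const r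
  have d2 : HasDerivAt (YY ∘ fun y : ℝ => y / r) (-KK (x / r) * (1 / r)) x :=
    HasDerivAt.comp (h₂ := YY) (h := fun y : ℝ => y / r) x (hasDerivAt_YY hu) d1
  have d3 := d2.const_mul r
  have e : r * (-KK (x / r) * (1 / r)) = -KK (x / r) := by
    field_simp
  rw [e] at d3
  exact d3

/-- The derivative of `PP` in `r`: it equals `A_f (rinv (x / r))`. -/
lemma hasDerivAt_PP_r {r x : ℝ} (hr : 0 < r) (hx : 0 < x) :
    HasDerivAt (fun y => PP y x) (Af (rinv (x / r))) r := by
  have hu := div_pos hx hr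
  have d1 : HasDerivAt (fun y : ℝ => x / y) (-x / r ^ 2) r := by
    have := (hasDerivAt_const r x).div (hasDerivAt_id' r) hr.ne'
    have e : (0 * r - x * 1) / r ^ 2 = -x / r ^ 2 := by ring
    rw [e] at this
    exact this
  have d2 : HasDerivAt (YY ∘ fun y : ℝ => x / y) (-KK (x / r) * (-x / r ^ 2)) r :=
    HasDerivAt.comp (h₂ := YY) (h := fun y : ℝ => x / y) r (hasDerivAt_YY hu) d1
  have d3 : HasDerivAt (fun y : ℝ => y * YY (x / y))
      (1 * YY (x / r) + r * (-KK (x / r) * (-x / r ^ 2))) r := (hasDerivAt_id' r).mul d2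
  have e : 1 * YY (x / r) + r * (-KK (x / r) * (-x / r ^ 2)) = Af (rinv (x / r)) := by
    rw [YY_eq hu]
    field_simp
    ring
  rw [e] at d3
  exact d3

lemma Tm_pos {m : ℝ} (hm : |m| < 1) : 0 < Tm m := by
  have h := one_sub_sq_pos hm
  unfold Tm
  apply mul_pos h
  nlinarith

/-- `P(T(a), h(a)) = 0` for `|a| < 1`: the base of the induction. -/
lemma PP_base {a : ℝ} (ha : |a| < 1) : PP (Tm a) (ent a) = 0 := by
  have hT := Tm_pos ha
  have h := one_sub_sq_pos ha
  have h1 := ent_ge_one_sub_sq ha.le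
  have hlog : 0 < log 2 := log_pos one_lt_two
  have h2 : log 2 ≤ ent a / Tm a := by
    rw [le_div_iff₀ hT]
    have h3 : Tm a ≤ 1 - a ^ 2 := by
      unfold Tm
      nlinarith [sq_nonneg a, mul_nonneg h.le (sq_nonneg a)]
    nlinarith
  unfold PP
  rw [YY_of_ge h2]
  ring

end Vale.Agent.CK
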