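import Vale.Agent.CK.Cert

/-!
A separable lower bound for the Bregman divergence of `K` (Jeffreys divergence) and the resulting
plane lemma.

* `g3 M = M - 1 - log M`.
* `Dv q b = ent b - ent q - A b (q - b)`: Bernoulli relative entropy.
* `Ml a b q = 1 + (a - b)(q - b)/(1 - b²)`.

`breg_ge`: the Bregman divergence of `K` at `(a,b)` is at least `g3 (Ml a b q) + g3 (Ml b a p)`.
`side`: the comparison `2 γ Dv q b ≤ g3 (Ml a b q)` for all `q` reduces to the endpoints.
-/

open Real Set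

namespace Vale.Agent.CK

open Vale.Agent.P322

/-- `g₃(M) = M - 1 - log M`. -/
noncomputable def g3 (M : ℝ) : ℝ := M - 1 - log M

/-- The Bernoulli relative entropy `D(q ‖ b)`. -/
noncomputable def Dv (q b : ℝ) : ℝ := ent b - ent q - A b * (q - b)

/-- The affine function `M`. -/
noncomputable def Ml (a b q : ℝ) : ℝ := 1 + (a - b) * (q - b) / (1 - b ^ 2)

lemma Ml_pos {a b q : ℝ} (ha : |a| < 1) (hb : |b| < 1) (hq : |q| ≤ 1) : 0 < Ml a b q := by
  have ha' := abs_lt.mp ha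
  have hb' := abs_lt.mp hb
  have hq' := abs_le.mp hq
  have hD : 0 < 1 - b ^ 2 := one_sub_sq_pos hb
  have e : Ml a b q = ((1 + q) / 2 * ((1 + a) * (1 - b)) + (1 - q) / 2 * ((1 - a) * (1 + b))) /
      (1 - b ^ 2) := by
    unfold Ml
    field_simp
    ring
  rw [e]
  apply div_pos _ hD
  have h1 : 0 < (1 + a) * (1 - b) := mul_pos (by linarith) (by linarith)
  have h2 : 0 < (1 - a) * (1 + b) := mul_pos (by linarith) (by linarith)
  rcases le_or_gt 0 q with h | h
  · have : 0 < (1 + q) / 2 * ((1 + a) * (1 - b)) := mul_pos (by linarith) h1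
    have : 0 ≤ (1 - q) / 2 * ((1 - a) * (1 + b)) := mul_nonneg (by linarith) h2.le
    linarith
  · have : 0 ≤ (1 + q) / 2 * ((1 + a) * (1 - b)) := mul_nonneg (by linarith) h1.le
    have : 0 < (1 - q) / 2 * ((1 - a) * (1 + b)) := mul_pos (by linarith) h2
    linarith

lemma log_mean_ge {P r s : ℝ} (hP0 : 0 ≤ P) (hP1 : P ≤ 1) (hr : 0 < r) (hs : 0 < s) :
    P * log r + (1 - P) * log s ≤ log (P * r + (1 - P) * s) := by
  have h := (strictConcaveOn_log_Ioi.concaveOn).2 (mem_Ioi.mpr hr) (mem_Ioi.mpr hs) hP0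
    (by linarith : 0 ≤ 1 - P) (by ring)
  simpa [smul_eq_mul] using h

/-- The separable lower bound for the Bregman divergence of `K`. -/
theorem breg_ge {a b p q : ℝ} (ha : |a| < 1) (hb : |b| < 1) (hp : |p| < 1) (hq : |q| < 1) :
    K a b + (A a - A b + (a - b) / (1 - a ^ 2)) * (p - a)
        - (A a - A b + (a - b) / (1 - b ^ 2)) * (q - b) + (g3 (Ml a b q) + g3 (Ml b a p))
      ≤ K p q := by
  have ha' := abs_lt.mp ha
  have hb' := abs_lt.mp hb
  have hp' := abs_lt.mp hp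
  have hq' := abs_lt.mp hq
  have a1 : 0 < 1 + a := by linarith
  have a2 : 0 < 1 - a := by linarith
  have b1 : 0 < 1 + b := by linarith
  have b2 : 0 < 1 - b := by linarith
  have p1 : 0 < 1 + p := by linarith
  have p2 : 0 < 1 - p := by linarith
  have q1 : 0 < 1 + q := by linarith
  have q2 : 0 < 1 - q := by linarith
  have hDa : 0 < 1 - a ^ 2 := one_sub_sq_pos ha
  have hDb : 0 < 1 - b ^ 2 := one_sub_sq_pos hb
  have h1 := log_mean_ge (P := (1 + p) / 2) (r := (1 + q) * (1 + a) / ((1 + b) * (1 + p)))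
    (s := (1 - q) * (1 - a) / ((1 - b) * (1 - p))) (by linarith) (by linarith)
    (by positivity) (by positivity)
  have h2 := log_mean_ge (P := (1 + q) / 2) (r := (1 + p) * (1 + b) / ((1 + a) * (1 + q)))
    (s := (1 - p) * (1 - b) / ((1 - a) * (1 - q))) (by linarith) (by linarith)
    (by positivity) (by positivity)
  have e1 : (1 + p) / 2 * ((1 + q) * (1 + a) / ((1 + b) * (1 + p))) +
      (1 - (1 + p) / 2) * ((1 - q) * (1 - a) / ((1 - b) * (1 - p))) = Ml a b q := by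
    unfold Ml
    have e3 : 1 - b ^ 2 = (1 - b) * (1 + b) := by ring
    rw [e3]
    field_simp
    ring
  have e2 : (1 + q) / 2 * ((1 + p) * (1 + b) / ((1 + a) * (1 + q))) +
      (1 - (1 + q) / 2) * ((1 - p) * (1 - b) / ((1 - a) * (1 - q))) = Ml b a p := by
    unfold Ml
    have e3 : 1 - a ^ 2 = (1 - a) * (1 + a) := by ring
    rw [e3]
    field_simp
    ring
  rw [e1] at h1
  rw [e2] at h2
  rw [log_div (by positivity) (by positivity), log_div (by positivity) (by positivity),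
    log_mul q1.ne' a1.ne', log_mul b1.ne' p1.ne', log_mul q2.ne' a2.ne', log_mul b2.ne' p2.ne'] at h1
  rw [log_div (by positivity) (by positivity), log_div (by positivity) (by positivity),
    log_mul p1.ne' b1.ne', log_mul a1.ne' q1.ne', log_mul p2.ne' b2.ne', log_mul a2.ne' q2.ne'] at h2
  have e3 : Ml a b q - 1 = (a - b) * (q - b) / (1 - b ^ 2) := by
    unfold Ml
    ring
  have e4 : Ml b a p - 1 = (b - a) * (p - a) / (1 - a ^ 2) := by
    unfold Ml
    ring
  have e5 : (a - b) / (1 - a ^ 2) * (p - a) = (a - b) * (p - a) / (1 - a ^ 2) := by ring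
  have e6 : (a - b) / (1 - b ^ 2) * (q - b) = (a - b) * (q - b) / (1 - b ^ 2) := by ring
  have e7 : (b - a) * (p - a) / (1 - a ^ 2) = -((a - b) * (p - a) / (1 - a ^ 2)) := by ring
  unfold g3
  rw [e7] at e4
  have e8 : (A a - A b + (a - b) / (1 - a ^ 2)) * (p - a) =
      (A a - A b) * (p - a) + (a - b) / (1 - a ^ 2) * (p - a) := by ring
  have e9 : (A a - A b + (a - b) / (1 - b ^ 2)) * (q - b) =
      (A a - A b) * (q - b) + (a - b) / (1 - b ^ 2) * (q - b) := by ring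
  rw [e8, e9, e5, e6]
  unfold K A
  nlinarith [h1, h2, e3, e4]

lemma Dv_one {b : ℝ} (hb : |b| < 1) : Dv 1 b = log 2 - log (1 + b) := by
  have hb' := abs_lt.mp hb
  have b1 : 0 < 1 + b := by linarith
  have b2 : 0 < 1 - b := by linarith
  unfold Dv
  rw [ent_one, ent_formula hb]
  have e3 : 1 - b ^ 2 = (1 + b) * (1 - b) := by ring
  rw [e3, log_mul b1.ne' b2.ne']
  unfold A
  ring

lemma Ml_one {a b : ℝ} (hb : |b| < 1) : Ml a b 1 = (1 + a) / (1 + b) := by
  have hb' := abs_lt.mp hb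
  have b1 : 0 < 1 + b := by linarith
  have b2 : 0 < 1 - b := by linarith
  unfold Ml
  have e3 : 1 - b ^ 2 = (1 + b) * (1 - b) := by ring
  rw [e3]
  field_simp
  ring

/-- The right side of the comparison. -/
lemma side_right {a b γ q : ℝ} (ha : |a| < 1) (hb : |b| < 1) (hγ : 0 ≤ γ)
    (hL : 2 * γ * (1 - b ^ 2) ≤ (a - b) ^ 2)
    (hE : 2 * γ * (log 2 - log (1 + b)) ≤ g3 ((1 + a) / (1 + b)))
    (hq0 : b ≤ q) (hq1 : q ≤ 1) : 2 * γ * Dv q b ≤ g3 (Ml a b q) := by
  have hb' := abs_lt.mp hb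
  have hDb : 0 < 1 - b ^ 2 := one_sub_sq_pos hb
  obtain ⟨e, he⟩ : ∃ e, e = (a - b) / (1 - b ^ 2) := ⟨_, rfl⟩
  have hMl : ∀ t, Ml a b t = 1 + e * (t - b) := by
    intro t
    unfold Ml
    rw [he]
    ring
  have hMpos : ∀ t, |t| ≤ 1 → 0 < 1 + e * (t - b) := by
    intro t ht
    rw [← hMl]
    exact Ml_pos ha hb ht
  let φ : ℝ → ℝ := fun t => g3 (1 + e * (t - b)) - 2 * γ * Dv t b
  let ψ : ℝ → ℝ := fun t => e * (1 - 1 / (1 + e * (t - b))) - 2 * γ * (A t - A b)
  let ψ' : ℝ → ℝ := fun t => e ^ 2 / (1 + e * (t - b)) ^ 2 - 2 * γ * (1 / (1 - t ^ 2))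
  let Q : ℝ → ℝ := fun t => e ^ 2 * (1 - t ^ 2) - 2 * γ * (1 + e * (t - b)) ^ 2
  have hQb : 0 ≤ Q b := by
    simp only [Q]
    have e1 : e ^ 2 * (1 - b ^ 2) = (a - b) ^ 2 / (1 - b ^ 2) := by
      rw [he]
      field_simp
    rw [e1]
    have : 2 * γ ≤ (a - b) ^ 2 / (1 - b ^ 2) := by
      rw [le_div_iff₀ hDb]
      exact hL
    nlinarith
  have hQid : ∀ s t w : ℝ, (w - s) * Q t = (w - t) * Q s + (t - s) * Q w +
      (1 + 2 * γ) * e ^ 2 * (t - s) * (w - t) * (w - s) := by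
    intro s t w
    simp only [Q]
    ring
  have hQ1 : ∀ s t, b ≤ s → s ≤ t → 0 ≤ Q t → 0 ≤ Q s := by
    intro s t h0 h1 h2
    rcases eq_or_lt_of_le (le_trans h0 h1) with h | h
    · have e1 : s = b := by linarith
      rw [e1]
      exact hQb
    have h3 := hQid b s t
    have h4 : 0 ≤ (t - s) * Q b := mul_nonneg (by linarith) hQb
    have h5 : 0 ≤ (s - b) * Q t := mul_nonneg (by linarith) h2
    have h6 : 0 ≤ (1 + 2 * γ) * e ^ 2 * (s - b) * (t - s) * (t - b) := by
      have : 0 ≤ s - b := by linarith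
      have : 0 ≤ t - s := by linarith
      have : 0 ≤ t - b := by linarith
      positivity
    by_contra hc
    push Not at hc
    have h7 : (t - b) * Q s < 0 := mul_neg_of_pos_of_neg (by linarith) hc
    linarith
  have hψd : ∀ t, |t| < 1 → HasDerivAt ψ (ψ' t) t := by
    intro t ht
    have hM := hMpos t ht.le
    have d1 : HasDerivAt (fun t : ℝ => 1 + e * (t - b)) e t := by
      have := ((hasDerivAt_id' t).sub_const b).const_mul e
      have h2 := this.const_add 1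
      simpa using h2
    have d2 : HasDerivAt (fun t : ℝ => 1 / (1 + e * (t - b))) (-e / (1 + e * (t - b)) ^ 2) t := by
      have := (hasDerivAt_const t (1 : ℝ)).div d1 hM.ne'
      refine this.congr_deriv ?_
      ring
    have d3 : HasDerivAt (fun t : ℝ => e * (1 - 1 / (1 + e * (t - b))))
        (e * (-(-e / (1 + e * (t - b)) ^ 2))) t := (d2.const_sub 1).const_mul e
    have d4 : HasDerivAt (fun t : ℝ => 2 * γ * (A t - A b)) (2 * γ * (1 / (1 - t ^ 2))) t :=
      ((hasDerivAt_A ht).sub_const (A b)).const_mul (2 * γ)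
    have d5 := d3.sub d4
    refine d5.congr_deriv ?_
    simp only [ψ']
    ring
  have hψ'sign : ∀ t, |t| < 1 → (0 ≤ Q t → 0 ≤ ψ' t) ∧ (Q t ≤ 0 → ψ' t ≤ 0) := by
    intro t ht
    have hM := hMpos t ht.le
    have hD : 0 < 1 - t ^ 2 := one_sub_sq_pos ht
    have e1 : ψ' t = Q t / ((1 + e * (t - b)) ^ 2 * (1 - t ^ 2)) := by
      simp only [ψ', Q]
      obtain ⟨M, hMe⟩ : ∃ M, M = 1 + e * (t - b) := ⟨_, rfl⟩
      rw [← hMe] at hM ⊢
      field_simp
    rw [e1]
    have hpos : 0 < (1 + e * (t - b)) ^ 2 * (1 - t ^ 2) := by positivity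
    constructor
    · intro h
      exact div_nonneg h hpos.le
    · intro h
      exact div_nonpos_of_nonpos_of_nonneg h hpos.le
  have hψb : ψ b = 0 := by
    simp only [ψ]
    simp
  have hφd : ∀ t, |t| < 1 → HasDerivAt φ (ψ t) t := by
    intro t ht
    have hM := hMpos t ht.le
    have d1 : HasDerivAt (fun t : ℝ => 1 + e * (t - b)) e t := by
      have := ((hasDerivAt_id' t).sub_const b).const_mul e
      have h2 := this.const_add 1
      simpa using h2
    have d2 : HasDerivAt (fun t : ℝ => g3 (1 + e * (t - b))) (e - e / (1 + e * (t - b))) t := by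
      unfold g3
      have := (d1.sub_const 1).sub (d1.log hM.ne')
      exact this
    have d3 : HasDerivAt (fun t : ℝ => Dv t b) (A t - A b) t := by
      unfold Dv
      have h1 := (hasDerivAt_ent ht).const_sub (ent b)
      have h2 := ((hasDerivAt_id' t).sub_const b).const_mul (A b)
      have h3 := h1.sub h2
      refine h3.congr_deriv ?_
      ring
    have d4 := d2.sub (d3.const_mul (2 * γ))
    refine d4.congr_deriv ?_
    simp only [ψ]
    ring
  have hbq : b < 1 := hb'.2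
  have hcφ : ContinuousOn φ (Icc b 1) := by
    intro t ht
    have ht1 : |t| ≤ 1 := abs_le.mpr ⟨by linarith [ht.1, hb'.1], ht.2⟩
    have hM := hMpos t ht1
    apply ContinuousAt.continuousWithinAt
    simp only [φ]
    unfold g3 Dv
    have hce : Continuous ent := continuous_ent
    have h1 : ContinuousAt (fun t : ℝ => 1 + e * (t - b)) t := by fun_prop
    have h2 : ContinuousAt (fun t : ℝ => log (1 + e * (t - b))) t := h1.log hM.ne'
    have h3 : ContinuousAt ent t := hce.continuousAt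
    fun_prop
  have hs : ∀ s ∈ Ioo b 1, ∀ t ∈ Ioo b 1, s ≤ t → 0 ≤ ψ t → 0 ≤ ψ s := by
    intro s hs t ht hst hψt
    by_cases hQs : 0 ≤ Q s
    · -- `ψ` is monotone on `[b, s]`
      have hm : MonotoneOn ψ (Icc b s) := by
        apply mono_of_deriv (f' := ψ')
        · intro z hz
          have hz1 : |z| < 1 := abs_lt.mpr ⟨by linarith [hz.1, hb'.1], by linarith [hz.2, hs.2]⟩
          exact (hψd z hz1).continuousAt.continuousWithinAt
        · intro z hz
          exact hψd z (abs_lt.mpr ⟨by linarith [hz.1, hb'.1], by linarith [hz.2, hs.2]⟩)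
        · intro z hz
          have hz1 : |z| < 1 := abs_lt.mpr ⟨by linarith [hz.1, hb'.1], by linarith [hz.2, hs.2]⟩
          exact (hψ'sign z hz1).1 (hQ1 z s hz.1.le hz.2.le hQs)
      have := hm (left_mem_Icc.mpr hs.1.le) (right_mem_Icc.mpr hs.1.le) hs.1.le
      rw [hψb] at this
      exact this
    · -- `ψ` is antitone on `[s, t]`
      push Not at hQs
      have hm : AntitoneOn ψ (Icc s t) := by
        apply anti_of_deriv (f' := ψ')
        · intro z hz
          have hz1 : |z| < 1 := abs_lt.mpr ⟨by linarith [hz.1, hs.1, hb'.1], by linarith [hz.2, ht.2]⟩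
          exact (hψd z hz1).continuousAt.continuousWithinAt
        · intro z hz
          exact hψd z (abs_lt.mpr ⟨by linarith [hz.1, hs.1, hb'.1], by linarith [hz.2, ht.2]⟩)
        · intro z hz
          have hz1 : |z| < 1 := abs_lt.mpr ⟨by linarith [hz.1, hs.1, hb'.1], by linarith [hz.2, ht.2]⟩
          apply (hψ'sign z hz1).2
          by_contra hc
          push Not at hc
          have := hQ1 s z hs.1.le hz.1.le hc.le
          linarith
      have := hm (left_mem_Icc.mpr hst) (right_mem_Icc.mpr hst) hst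
      linarith
  have hφb : 0 ≤ φ b := by
    simp only [φ]
    unfold g3 Dv
    simp
  have hφ1 : 0 ≤ φ 1 := by
    simp only [φ]
    rw [← hMl, Ml_one hb, Dv_one hb]
    linarith
  have hfin := nonneg_of_updown hcφ (fun x hx =>
    hφd x (abs_lt.mpr ⟨by linarith [hx.1, hb'.1], hx.2⟩)) hφb hφ1 hs q ⟨hq0, hq1⟩
  simp only [φ] at hfin
  rw [hMl]
  linarith

lemma Dv_neg (q b : ℝ) : Dv (-q) (-b) = Dv q b := by
  unfold Dv
  rw [ent_symm, ent_symm, A_neg]
  ring

/-- The comparison on the whole interval. -/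
theorem side {a b γ q : ℝ} (ha : |a| < 1) (hb : |b| < 1) (hγ : 0 ≤ γ)
    (hL : 2 * γ * (1 - b ^ 2) ≤ (a - b) ^ 2)
    (hE : 2 * γ * (log 2 - log (1 + b)) ≤ g3 ((1 + a) / (1 + b)))
    (hE' : 2 * γ * (log 2 - log (1 - b)) ≤ g3 ((1 - a) / (1 - b)))
    (hq : |q| < 1) : 2 * γ * Dv q b ≤ g3 (Ml a b q) := by
  have hq' := abs_lt.mp hq
  rcases le_total b q with h | h
  · exact side_right ha hb hγ hL hE h hq'.2.le
  · have ha2 : |-a| < 1 := by rwa [abs_neg]
    have hb2 : |-b| < 1 := by rwa [abs_neg]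
    have hL2 : 2 * γ * (1 - (-b) ^ 2) ≤ (-a - -b) ^ 2 := by
      have e1 : (-b) ^ 2 = b ^ 2 := by ring
      have e2 : (-a - -b) ^ 2 = (a - b) ^ 2 := by ring
      rw [e1, e2]
      exact hL
    have hE2 : 2 * γ * (log 2 - log (1 + -b)) ≤ g3 ((1 + -a) / (1 + -b)) := by
      have e1 : 1 + -b = 1 - b := by ring
      have e2 : 1 + -a = 1 - a := by ring
      rw [e1, e2]
      exact hE'
    have h3 := side_right ha2 hb2 hγ hL2 hE2 (q := -q) (by linarith) (by linarith)
    rw [Dv_neg] at h3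
    have e1 : Ml (-a) (-b) (-q) = Ml a b q := by
      unfold Ml
      have e2 : (-b) ^ 2 = b ^ 2 := by ring
      rw [e2]
      ring
    rw [e1] at h3
    exact h3

/-- The plane lemma. -/
theorem plane {a b p q γ : ℝ} (ha : |a| < 1) (hb : |b| < 1) (hp : |p| < 1) (hq : |q| < 1)
    (hγ : 0 ≤ γ)
    (hLb : 2 * γ * (1 - b ^ 2) ≤ (a - b) ^ 2) (hLa : 2 * γ * (1 - a ^ 2) ≤ (a - b) ^ 2)
    (hE1 : 2 * γ * (log 2 - log (1 + b)) ≤ g3 ((1 + a) / (1 + b)))
    (hE2 : 2 * γ * (log 2 - log (1 - b)) ≤ g3 ((1 - a) / (1 - b)))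
    (hE3 : 2 * γ * (log 2 - log (1 + a)) ≤ g3 ((1 + b) / (1 + a)))
    (hE4 : 2 * γ * (log 2 - log (1 - a)) ≤ g3 ((1 - b) / (1 - a))) :
    K a b + (A a - A b + (a - b) / (1 - a ^ 2)) * (p - a)
        - (A a - A b + (a - b) / (1 - b ^ 2)) * (q - b) + 2 * γ * (Dv q b + Dv p a)
      ≤ K p q := by
  have h1 := breg_ge ha hb hp hq
  have h2 := side ha hb hγ hLb hE1 hE2 hq
  have hLa' : 2 * γ * (1 - a ^ 2) ≤ (b - a) ^ 2 := by
    have e : (b - a) ^ 2 = (a - b) ^ 2 := by ring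
    rw [e]
    exact hLa
  have h3 := side hb ha hγ hLa' hE3 hE4 hp
  nlinarith

/-- The averaged plane lemma. -/
theorem avg_plane {n : ℕ} (X Z : Cube n → ℝ) (hX : ∀ y, |X y| < 1) (hZ : ∀ y, |Z y| < 1) {γ : ℝ}
    (hγ : 0 ≤ γ)
    (hLb : 2 * γ * (1 - avg Z ^ 2) ≤ (avg X - avg Z) ^ 2)
    (hLa : 2 * γ * (1 - avg X ^ 2) ≤ (avg X - avg Z) ^ 2)
    (hE1 : 2 * γ * (log 2 - log (1 + avg Z)) ≤ g3 ((1 + avg X) / (1 + avg Z)))
    (hE2 : 2 * γ * (log 2 - log (1 - avg Z)) ≤ g3 ((1 - avg X) / (1 - avg Z)))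
    (hE3 : 2 * γ * (log 2 - log (1 + avg X)) ≤ g3 ((1 + avg Z) / (1 + avg X)))
    (hE4 : 2 * γ * (log 2 - log (1 - avg X)) ≤ g3 ((1 - avg Z) / (1 - avg X))) :
    K (avg X) (avg Z) + 2 * γ * ((ent (avg Z) - avg (fun y => ent (Z y))) +
        (ent (avg X) - avg (fun y => ent (X y))))
      ≤ avg (fun y => K (X y) (Z y)) := by
  have ha := abs_avg_lt hX
  have hb := abs_avg_lt hZ
  have hpt := fun y => plane ha hb (hX y) (hZ y) hγ hLb hLa hE1 hE2 hE3 hE4
  have h := avg_le_avg hpt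
  refine le_trans (le_of_eq ?_) h
  unfold Dv
  obtain ⟨a, hae⟩ : ∃ a, a = avg X := ⟨_, rfl⟩
  obtain ⟨b, hbe⟩ : ∃ b, b = avg Z := ⟨_, rfl⟩
  rw [← hae, ← hbe]
  obtain ⟨x₁, hx₁⟩ : ∃ x₁, x₁ = avg (fun y => ent (X y)) := ⟨_, rfl⟩
  obtain ⟨x₂, hx₂⟩ : ∃ x₂, x₂ = avg (fun y => ent (Z y)) := ⟨_, rfl⟩
  rw [← hx₁, ← hx₂]
  have e : (fun y => K a b + (A a - A b + (a - b) / (1 - a ^ 2)) * (X y - a) -
      (A a - A b + (a - b) / (1 - b ^ 2)) * (Z y - b) +
      2 * γ * (ent b - ent (Z y) - A b * (Z y - b) + (ent a - ent (X y) - A a * (X y - a)))) =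
      fun y => (A a - A b + (a - b) / (1 - a ^ 2) - 2 * γ * A a) * X y +
        (-(A a - A b + (a - b) / (1 - b ^ 2)) - 2 * γ * A b) * Z y +
        (-2 * γ) * (ent (X y) + ent (Z y)) +
        (K a b - (A a - A b + (a - b) / (1 - a ^ 2)) * a + (A a - A b + (a - b) / (1 - b ^ 2)) * b +
          2 * γ * (ent a + ent b + A a * a + A b * b)) := by
    funext y
    ring
  rw [e, avg_add, avg_add, avg_add, avg_mul_left, avg_mul_left, avg_mul_left, avg_add, avg_const,
    ← hae, ← hbe, ← hx₁, ← hx₂]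
  ring

end Vale.Agent.CK
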