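import Vale.Agent.CK.Cert
import Vale.Agent.CK.Key4

/-!
The two-point inequality `D3`, from `key4` and `mono_key`.
-/

open Real Set

namespace Vale.Agent.CK

open Vale.Agent.P322

/-- The correction `PP T y - PP T̄ y`. -/
noncomputable def Corr (T Tbar y : ℝ) : ℝ := PP T y - PP Tbar y

lemma hasDerivAt_Corr {T Tbar y : ℝ} (hT : 0 < T) (hTb : 0 < Tbar) (hy : 0 < y) :
    HasDerivAt (Corr T Tbar) (-KK (y / T) - -KK (y / Tbar)) y :=
  (hasDerivAt_PP_x hT hy).sub (hasDerivAt_PP_x hTb hy)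

/-- The correction is antitone in the entropy. -/
lemma Corr_anti {T Tbar x y : ℝ} (hTb : 0 < Tbar) (hT : Tbar < T) (hx : 0 < x) (hxy : x ≤ y) :
    Corr T Tbar y ≤ Corr T Tbar x := by
  have hT0 : 0 < T := hTb.trans hT
  have hd : AntitoneOn (Corr T Tbar) (Icc x y) := by
    apply antitoneOn_of_deriv_nonpos (convex_Icc x y)
    · intro u hu
      exact (hasDerivAt_Corr hT0 hTb (lt_of_lt_of_le hx hu.1)).continuousAt.continuousWithinAt
    · intro u hu
      rw [interior_Icc] at hu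
      exact (hasDerivAt_Corr hT0 hTb (hx.trans hu.1)).differentiableAt.differentiableWithinAt
    · intro u hu
      rw [interior_Icc] at hu
      have hu0 : 0 < u := hx.trans hu.1
      rw [(hasDerivAt_Corr hT0 hTb hu0).deriv]
      have h1 : u / T ≤ u / Tbar := div_le_div_of_nonneg_left hu0.le hTb hT.le
      have h2 := KK_anti (div_pos hu0 hT0) h1
      linarith
  exact hd (left_mem_Icc.2 hxy) (right_mem_Icc.2 hxy) hxy

/-- The entropy parameter `X(t) = d h(t)/t`. -/
noncomputable def XX (d t : ℝ) : ℝ := d * ent t / t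

lemma hasDerivAt_XX {d t : ℝ} (h0 : 0 < t) (h1 : t < 1) :
    HasDerivAt (XX d) (-(d * Lf t / t ^ 2)) t := by
  have ht : |t| < 1 := by rw [abs_of_pos h0]; exact h1
  have h := ((hasDerivAt_ent ht).const_mul d).div (hasDerivAt_id' t) h0.ne'
  have h' : HasDerivAt (XX d) ((d * -A t * t - d * ent t * 1) / t ^ 2) t := h
  refine h'.congr_deriv ?_
  unfold Lf
  ring

/-- The monotonicity of `G(t) = d w(t) - Corr(X(t))`. -/
lemma G_mono {m d T r t : ℝ} (hd : 0 < d) (hm : |m| + d < 1) (hTb : 0 < Tb (m + d) (m - d))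
    (hT : Tb (m + d) (m - d) < Tm m) (hTe : T = Tm m) (hdr : d ≤ r) (hr0 : 0 < r) (hrt : r ≤ t)
    (ht1 : t < 1) :
    d * A r - Corr T (Tb (m + d) (m - d)) (XX d r) ≤
      d * A t - Corr T (Tb (m + d) (m - d)) (XX d t) := by
  subst hTe
  have hT0 : 0 < Tm m := hTb.trans hT
  have hder : ∀ s ∈ Icc r t, HasDerivAt (fun s => d * A s - Corr (Tm m) (Tb (m + d) (m - d)) (XX d s))
      (d * (1 / (1 - s ^ 2)) - (-KK (XX d s / Tm m) - -KK (XX d s / Tb (m + d) (m - d))) *
        (-(d * Lf s / s ^ 2))) s := by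
    intro s hs
    have hs0 : 0 < s := lt_of_lt_of_le hr0 hs.1
    have hs1 : s < 1 := lt_of_le_of_lt hs.2 ht1
    have hsa : |s| < 1 := by rw [abs_of_pos hs0]; exact hs1
    have hX : 0 < XX d s := by
      unfold XX
      have := ent_pos hsa
      positivity
    have h1 := (hasDerivAt_A hsa).const_mul d
    have h2 := (hasDerivAt_Corr hT0 hTb hX).comp s (hasDerivAt_XX (d := d) hs0 hs1)
    exact h1.sub h2
  have hmono : MonotoneOn (fun s => d * A s - Corr (Tm m) (Tb (m + d) (m - d)) (XX d s))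
      (Icc r t) := by
    apply monotoneOn_of_deriv_nonneg (convex_Icc r t)
    · intro s hs
      exact (hder s hs).continuousAt.continuousWithinAt
    · intro s hs
      rw [interior_Icc] at hs
      exact (hder s ⟨hs.1.le, hs.2.le⟩).differentiableAt.differentiableWithinAt
    · intro s hs
      rw [interior_Icc] at hs
      have hs' : s ∈ Icc r t := ⟨hs.1.le, hs.2.le⟩
      rw [(hder s hs').deriv]
      have hs0 : 0 < s := hr0.trans hs.1
      have hs1 : s < 1 := hs.2.trans ht1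
      have hsa : |s| < 1 := by rw [abs_of_pos hs0]; exact hs1
      have hkey := mono_key hd hm (hdr.trans hs.1.le) hs1 hT
      have hL := Lf_pos hsa
      have hD : 0 < 1 - s ^ 2 := by nlinarith
      have hc : c3 s * (d * Lf s / s ^ 2) = d * (1 / (1 - s ^ 2)) := by
        unfold c3
        have hLn := hL.ne'
        have hDn := hD.ne'
        have hsn := hs0.ne'
        generalize Lf s = LL at *
        field_simp
      have hpos : 0 ≤ d * Lf s / s ^ 2 := by positivity
      have h3 := mul_le_mul_of_nonneg_right hkey hpos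
      unfold XX
      nlinarith
  exact hmono (left_mem_Icc.2 hrt) (right_mem_Icc.2 hrt) hrt

/-- The two-point inequality, normalized. -/
theorem D3_normal {v r x K' : ℝ} (hv0 : 0 ≤ v) (hv1 : v < 1) (hr0 : 0 < r) (hr1 : r < 1)
    (hx : 0 < x)
    (hC1 : K (pa v r) (pb v r) / 4 ≤ K')
    (hC2 : ∀ ρ, 0 < ρ → ρ < 1 → c2 ρ * (bet v r * r) - c3 ρ * x ≤ K') :
    2 * ent (mean v r) - ent (pa v r) - ent (pb v r) +
      PP (Tm (mean v r)) x - PP (Tb (pa v r) (pb v r)) x ≤ K' := by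
  have hD := D0_pos_ee hv0 hv1.le hr0 hr1
  have hV : 0 < 1 - v ^ 2 := by nlinarith
  have hbet0 : 0 < bet v r := div_pos hV hD
  have hbet1 : bet v r ≤ 1 := by
    unfold bet
    rw [div_le_one hD]
    have hq : r ^ 2 ≤ 1 := by nlinarith
    have : v ^ 2 * r ^ 2 ≤ v ^ 2 * 1 := mul_le_mul_of_nonneg_left hq (sq_nonneg v)
    linarith
  have hra : |r| < 1 := by rw [abs_of_pos hr0]; exact hr1
  have hva : |v| < 1 := by rw [abs_of_nonneg hv0]; exact hv1
  have hent : 0 < ent r := ent_pos hra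
  obtain ⟨d, hde⟩ : ∃ d, d = bet v r * r := ⟨_, rfl⟩
  obtain ⟨m, hme⟩ : ∃ m, m = mean v r := ⟨_, rfl⟩
  have hd : 0 < d := by rw [hde]; positivity
  have hdr : d ≤ r := by rw [hde]; nlinarith
  have hpa : pa v r = m + d := by
    have h1 := pa_add_pb hv0 hv1 hr0 hr1
    have h2 := pa_sub_pb hv0 hv1 hr0 hr1
    rw [hme, hde]
    linarith
  have hpb : pb v r = m - d := by
    have h1 := pa_add_pb hv0 hv1 hr0 hr1
    have h2 := pa_sub_pb hv0 hv1 hr0 hr1
    rw [hme, hde]
    linarith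
  have hpaa := abs_lt.mp (abs_lt_one_pa hv0 hv1 hr0 hr1)
  have hpba := abs_lt.mp (abs_lt_one_pb hv0 hv1 hr0 hr1)
  have hma : |m| + d < 1 := by
    rw [hpa] at hpaa
    rw [hpb] at hpba
    rcases abs_cases m with ⟨h, _⟩ | ⟨h, _⟩ <;> rw [h] <;> linarith
  have hmlt : |m| < 1 := by linarith
  have hTpos : 0 < Tm m := Tm_pos hmlt
  have hTbpos : 0 < Tb (m + d) (m - d) := Tb_pos hd hma
  -- the value of `K`
  have hJ : K (pa v r) (pb v r) / 4 = d * A r := by
    have hAa : A (pa v r) = A v + A r := A_add hva hra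
    have hAb : A (pb v r) = A v - A r := A_sub hva hra
    unfold K
    rw [hAa, hAb, hpa, hpb]
    ring
  have hkeyid := J_sub_f hv0 hv1 hr0 hr1
  rw [← hde, ← hme] at hkeyid
  have hYf : 0 ≤ Yf r := Yf_nonneg hr0.le hr1
  have hEe : 0 ≤ Ee v r := Ee_nonneg hv0 hv1 hr0 hr1
  have hbY : 0 ≤ bet v r * Yf r := mul_nonneg hbet0.le hYf
  rw [← hme]
  rw [hJ] at hC1
  have hC2' := hC2
  rw [← hde] at hC2'
  rw [hpa, hpb] at hkeyid ⊢
  rcases le_or_gt (Tm m) (Tb (m + d) (m - d)) with hTle | hTlt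
  · -- Case 1
    have := PP_mono_r hTpos hTle hx
    linarith
  -- key4
  have hk4 := key4 hv0 hv1 hr0 hr1 (by rw [← hme, hpa, hpb]; exact hTlt)
  rw [← hme, hpa, hpb] at hk4
  rcases le_or_gt (bet v r * ent r) x with hxs | hxs
  · -- Case 2
    have h1 := Corr_anti hTbpos hTlt (by positivity : 0 < bet v r * ent r) hxs
    unfold Corr at h1
    linarith
  -- Case 3
  have hXr : XX d r = bet v r * ent r := by
    unfold XX
    rw [hde]
    field_simp
  have hX1 : XX d 1 = 0 := by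
    unfold XX
    rw [ent_one]
    simp
  have hcont : ContinuousOn (XX d) (Icc r 1) := by
    unfold XX
    apply ContinuousOn.div
    · exact (continuous_const.mul continuous_ent).continuousOn
    · exact continuousOn_id
    · intro y hy
      exact (lt_of_lt_of_le hr0 hy.1).ne'
  have hmem : x ∈ Icc (XX d 1) (XX d r) := by
    rw [hX1, hXr]
    exact ⟨hx.le, hxs.le⟩
  obtain ⟨t, ht, hXt⟩ := intermediate_value_Icc' hr1.le hcont hmem
  have ht1 : t < 1 := by
    rcases eq_or_lt_of_le ht.2 with h | h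
    · rw [h, hX1] at hXt
      linarith
    · exact h
  have ht0 : 0 < t := lt_of_lt_of_le hr0 ht.1
  have hG := G_mono hd hma hTbpos hTlt rfl hdr hr0 ht.1 ht1
  rw [hXt, hXr] at hG
  have hCt := hC2' t ht0 ht1
  have hct : c2 t * d - c3 t * x = d * A t := by
    rw [← hXt]
    unfold XX c2
    have := ht0.ne'
    field_simp
    ring
  rw [hct] at hCt
  unfold Corr at hG
  linarith

/-- Auxiliary normal form of `D3`. -/
lemma D3_aux {a b x K' : ℝ} (ha : |a| < 1) (hb : |b| < 1) (hx : 0 < x) (hab : b < a)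
    (hsum : 0 ≤ a + b) (hC1 : K a b / 4 ≤ K')
    (hC2 : ∀ ρ, 0 < ρ → ρ < 1 → c2 ρ * (|a - b| / 2) - c3 ρ * x ≤ K') :
    2 * ent ((a + b) / 2) - ent a - ent b + PP (Tm ((a + b) / 2)) x - PP (Tb a b) x ≤ K' := by
  obtain ⟨v, r, hv, hr0, hr1, hae, hbe⟩ := exists_vr ha hb hab
  have hv0 : 0 ≤ v := by
    apply v_nonneg_of hv hr0 hr1
    rw [← hae, ← hbe]
    exact hsum
  have hv1 : v < 1 := (abs_lt.mp hv).2
  have hpa : pa v r = a := hae.symm
  have hpb : pb v r = b := hbe.symm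
  have hmean : (a + b) / 2 = mean v r := by
    rw [← hpa, ← hpb]
    exact pa_add_pb hv0 hv1 hr0 hr1
  have hdif : |a - b| / 2 = bet v r * r := by
    rw [abs_of_pos (by linarith), ← pa_sub_pb hv0 hv1 hr0 hr1, hpa, hpb]
  rw [hdif] at hC2
  rw [hmean]
  have := D3_normal hv0 hv1 hr0 hr1 hx (K' := K') (by rw [hpa, hpb]; exact hC1) hC2
  rw [hpa, hpb] at this
  exact this

lemma Tm_neg (x : ℝ) : Tm (-x) = Tm x := by
  unfold Tm
  ring

lemma Tb_neg (a b : ℝ) : Tb (-a) (-b) = Tb a b := by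
  unfold Tb
  rw [Tm_neg, Tm_neg]

lemma Tb_comm (a b : ℝ) : Tb a b = Tb b a := by
  unfold Tb
  ring

lemma K_neg' (a b : ℝ) : K (-a) (-b) = K a b := by
  unfold K
  rw [A_neg, A_neg]
  ring

/-- `D3` when `b < a`. -/
lemma D3_lt {a b x K' : ℝ} (ha : |a| < 1) (hb : |b| < 1) (hx : 0 < x) (hab : b < a)
    (hC1 : K a b / 4 ≤ K')
    (hC2 : ∀ ρ, 0 < ρ → ρ < 1 → c2 ρ * (|a - b| / 2) - c3 ρ * x ≤ K') :
    2 * ent ((a + b) / 2) - ent a - ent b + PP (Tm ((a + b) / 2)) x - PP (Tb a b) x ≤ K' := by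
  rcases le_or_gt 0 (a + b) with hsum | hsum
  · exact D3_aux ha hb hx hab hsum hC1 hC2
  · have h := D3_aux (a := -b) (b := -a) (x := x) (K' := K')
      (by rw [abs_neg]; exact hb) (by rw [abs_neg]; exact ha) hx (by linarith) (by linarith)
      (by rw [K_neg', K_symm]; exact hC1)
      (by
        intro ρ h0 h1
        have e : |(-b) - (-a)| = |a - b| := by
          rw [show (-b) - (-a) = a - b by ring]
        rw [e]
        exact hC2 ρ h0 h1)
    have e1 : (-b + -a) / 2 = -((a + b) / 2) := by ring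
    rw [e1, ent_symm, Tm_neg, ent_symm, ent_symm, Tb_neg, Tb_comm] at h
    linarith

/-- The two-point inequality. -/
theorem D3 {a b x K' : ℝ} (ha : |a| < 1) (hb : |b| < 1) (hx : 0 < x)
    (hC1 : K a b / 4 ≤ K')
    (hC2 : ∀ ρ, 0 < ρ → ρ < 1 → c2 ρ * (|a - b| / 2) - c3 ρ * x ≤ K') :
    2 * ent ((a + b) / 2) - ent a - ent b + PP (Tm ((a + b) / 2)) x - PP (Tb a b) x ≤ K' := by
  rcases lt_trichotomy a b with hab | hab | hab
  · have h := D3_lt (a := b) (b := a) (x := x) (K' := K') hb ha hx hab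
      (by rw [K_symm]; exact hC1)
      (by
        intro ρ h0 h1
        rw [abs_sub_comm]
        exact hC2 ρ h0 h1)
    rw [add_comm b a, Tb_comm] at h
    linarith
  · subst hab
    have e1 : (a + a) / 2 = a := by ring
    have e2 : Tb a a = Tm a := by
      unfold Tb
      ring
    rw [e1, e2]
    have e3 : K a a = 0 := by
      unfold K
      ring
    rw [e3] at hC1
    linarith
  · exact D3_lt ha hb hx hab hC1 hC2

end Vale.Agent.CK
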