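import Vale.Agent.CK.Cert

/-!
The strong Jensen inequality for `K`: the Bregman divergence of `K` at `(a,b)` dominates
`((a-b)²/(2(1-ab))) [(u-a)²/(1-a²) + (v-b)²/(1-b²)]`.
-/

open Real

namespace Vale.Agent.CK

open Vale.Agent.P322

/-- The one variable core: concave in `τ`, with good endpoints. -/
lemma hyp_core (y τ : ℝ) (h1 : -1 ≤ τ) (h2 : τ ≤ 1) :
    0 ≤ y * sinh y + τ * (y * cosh y - sinh y) - τ ^ 2 * (cosh y - 1) := by
  have hc : 0 ≤ cosh y - 1 := by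
    have := one_le_cosh y
    linarith
  have e1 : 0 ≤ 1 - (1 - y) * exp y := by
    have h3 : 1 - y ≤ exp (-y) := by
      have := add_one_le_exp (-y)
      linarith
    have h4 := mul_le_mul_of_nonneg_right h3 (exp_pos y).le
    rw [← exp_add, neg_add_cancel, exp_zero] at h4
    linarith
  have e2 : 0 ≤ 1 - (1 + y) * exp (-y) := by
    have h3 : 1 + y ≤ exp y := by
      have := add_one_le_exp y
      linarith
    have h4 := mul_le_mul_of_nonneg_right h3 (exp_pos (-y)).le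
    rw [← exp_add, add_neg_cancel, exp_zero] at h4
    linarith
  have hs : sinh y + cosh y = exp y := sinh_add_cosh y
  have hm : cosh y - sinh y = exp (-y) := cosh_sub_sinh y
  have g1 : y * sinh y + (y * cosh y - sinh y) - (cosh y - 1) = 1 - (1 - y) * exp y := by
    rw [← hs]
    ring
  have g2 : y * sinh y - (y * cosh y - sinh y) - (cosh y - 1) = 1 - (1 + y) * exp (-y) := by
    rw [← hm]
    ring
  have key : y * sinh y + τ * (y * cosh y - sinh y) - τ ^ 2 * (cosh y - 1) =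
      (1 + τ) / 2 * (y * sinh y + (y * cosh y - sinh y) - (cosh y - 1)) +
      (1 - τ) / 2 * (y * sinh y - (y * cosh y - sinh y) - (cosh y - 1)) +
      (1 - τ ^ 2) * (cosh y - 1) := by
    ring
  rw [key, g1, g2]
  have h5 : 0 ≤ 1 - τ ^ 2 := by nlinarith
  have h6 := mul_nonneg (by linarith : 0 ≤ (1 + τ) / 2) e1
  have h7 := mul_nonneg (by linarith : 0 ≤ (1 - τ) / 2) e2
  have h8 := mul_nonneg h5 hc
  linarith

lemma sqrt_one_sub_pos {x : ℝ} (hx : |x| < 1) : 0 < √(1 - x ^ 2) :=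
  Real.sqrt_pos.mpr (one_sub_sq_pos hx)

/-- `exp (A x)` in closed form. -/
lemma exp_A {x : ℝ} (hx : |x| < 1) : exp (A x) = (1 + x) / √(1 - x ^ 2) := by
  have h := abs_lt.mp hx
  have h1 : 0 < 1 + x := by linarith
  have h2 : 0 < 1 - x := by linarith
  have hs := sqrt_one_sub_pos hx
  have hq : √(1 - x ^ 2) ^ 2 = (1 + x) * (1 - x) := by
    rw [Real.sq_sqrt (one_sub_sq_pos hx).le]
    ring
  have e : A x = log ((1 + x) / √(1 - x ^ 2)) := by
    have h3 : log (√(1 - x ^ 2)) = (log (1 + x) + log (1 - x)) / 2 := by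
      rw [Real.log_sqrt (one_sub_sq_pos hx).le]
      have : 1 - x ^ 2 = (1 + x) * (1 - x) := by ring
      rw [this, log_mul h1.ne' h2.ne']
    rw [log_div h1.ne' hs.ne', h3]
    unfold A
    ring
  rw [e, exp_log (div_pos h1 hs)]

lemma exp_neg_A {x : ℝ} (hx : |x| < 1) : exp (-A x) = (1 - x) / √(1 - x ^ 2) := by
  have h := abs_lt.mp hx
  have h1 : 0 < 1 + x := by linarith
  have h2 : 0 < 1 - x := by linarith
  have hs := sqrt_one_sub_pos hx
  have hq : √(1 - x ^ 2) ^ 2 = (1 + x) * (1 - x) := by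
    rw [Real.sq_sqrt (one_sub_sq_pos hx).le]
    ring
  rw [exp_neg, exp_A hx, inv_div]
  rw [div_eq_div_iff h1.ne' hs.ne']
  nlinarith

lemma cosh_A {x : ℝ} (hx : |x| < 1) : cosh (A x) = 1 / √(1 - x ^ 2) := by
  rw [cosh_eq, exp_A hx, exp_neg_A hx]
  have hs := sqrt_one_sub_pos hx
  field_simp
  ring

lemma sinh_A {x : ℝ} (hx : |x| < 1) : sinh (A x) = x / √(1 - x ^ 2) := by
  rw [sinh_eq, exp_A hx, exp_neg_A hx]
  have hs := sqrt_one_sub_pos hx
  field_simp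
  ring

lemma cosh_sub_A {x y : ℝ} (hx : |x| < 1) (hy : |y| < 1) :
    cosh (A x - A y) = (1 - x * y) / (√(1 - x ^ 2) * √(1 - y ^ 2)) := by
  have hsx := sqrt_one_sub_pos hx
  have hsy := sqrt_one_sub_pos hy
  rw [cosh_sub, cosh_A hx, cosh_A hy, sinh_A hx, sinh_A hy]
  field_simp

lemma sinh_sub_A {x y : ℝ} (hx : |x| < 1) (hy : |y| < 1) :
    sinh (A x - A y) = (x - y) / (√(1 - x ^ 2) * √(1 - y ^ 2)) := by
  have hsx := sqrt_one_sub_pos hx
  have hsy := sqrt_one_sub_pos hy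
  rw [sinh_sub, cosh_A hx, cosh_A hy, sinh_A hx, sinh_A hy]
  field_simp

lemma core_hyp {T T₀ τ : ℝ} (hτc : sinh T₀ = τ * cosh T₀) (h1 : -1 ≤ τ) (h2 : τ ≤ 1) :
    0 ≤ (T - T₀) * sinh T - sinh T₀ * sinh (T - T₀) - τ * sinh T₀ * (cosh (T - T₀) - 1) := by
  have hcore := hyp_core (T - T₀) τ h1 h2
  have hCpos : 0 < cosh T₀ := cosh_pos _
  have h3 := mul_nonneg hCpos.le hcore
  have hsT : sinh T = sinh T₀ * cosh (T - T₀) + cosh T₀ * sinh (T - T₀) := by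
    rw [← sinh_add]
    ring_nf
  rw [hsT, hτc]
  linarith

lemma alg_core {S S₀ m₀ D y n mm : ℝ} (hS : S ≠ 0) (hS₀ : S₀ ≠ 0) (hm : m₀ ≠ 0)
    (h : S₀ ^ 2 = m₀ ^ 2 - D ^ 2) :
    S * (y * (n / S) - (D / S₀) * ((n / S) * (m₀ / S₀) - (mm / S) * (D / S₀)) -
      (D / m₀) * (D / S₀) * (((mm / S) * (m₀ / S₀) - (n / S) * (D / S₀)) - 1)) =
    y * n - (D / m₀) * (n - D * S / S₀) := by
  field_simp
  linear_combination (D * n) * h

/-- The main consequence of the core inequality: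
`(u-v)(T-T₀) ≥ (a-b)/(1-ab) [(u-v) - (a-b) S/S₀]`. -/
lemma core_ineq {a b u v : ℝ} (ha : |a| < 1) (hb : |b| < 1) (hu : |u| < 1) (hv : |v| < 1) :
    (a - b) / (1 - a * b) * ((u - v) - (a - b) * (√(1 - u ^ 2) * √(1 - v ^ 2)) /
        (√(1 - a ^ 2) * √(1 - b ^ 2))) ≤
      (u - v) * ((A u - A v) - (A a - A b)) := by
  have hsa := sqrt_one_sub_pos ha
  have hsb := sqrt_one_sub_pos hb
  have hsu := sqrt_one_sub_pos hu
  have hsv := sqrt_one_sub_pos hv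
  have sa2 : √(1 - a ^ 2) ^ 2 = 1 - a ^ 2 := Real.sq_sqrt (one_sub_sq_pos ha).le
  have sb2 : √(1 - b ^ 2) ^ 2 = 1 - b ^ 2 := Real.sq_sqrt (one_sub_sq_pos hb).le
  have hab := abs_lt.mp ha
  have hbb := abs_lt.mp hb
  have hm0 : 0 < 1 - a * b := by nlinarith
  have hT₀c := cosh_sub_A ha hb
  have hT₀s := sinh_sub_A ha hb
  have hTc := cosh_sub_A hu hv
  have hTs := sinh_sub_A hu hv
  have hτ1 : (a - b) / (1 - a * b) ≤ 1 := by
    rw [div_le_one hm0]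
    nlinarith
  have hτ2 : -1 ≤ (a - b) / (1 - a * b) := by
    rw [le_div_iff₀ hm0]
    nlinarith
  have hτc : sinh (A a - A b) = (a - b) / (1 - a * b) * cosh (A a - A b) := by
    rw [hT₀c, hT₀s]
    field_simp
  have h1 := core_hyp (T := A u - A v) hτc hτ2 hτ1
  have hS : 0 < √(1 - u ^ 2) * √(1 - v ^ 2) := mul_pos hsu hsv
  have hS₀ : 0 < √(1 - a ^ 2) * √(1 - b ^ 2) := mul_pos hsa hsb
  have hS₀2 : (√(1 - a ^ 2) * √(1 - b ^ 2)) ^ 2 = (1 - a * b) ^ 2 - (a - b) ^ 2 := by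
    rw [mul_pow, sa2, sb2]
    ring
  have h3 := mul_nonneg hS.le h1
  rw [sinh_sub (A u - A v) (A a - A b), cosh_sub (A u - A v) (A a - A b), hTc, hTs, hT₀c, hT₀s] at h3
  have e3 := alg_core (y := A u - A v - (A a - A b)) (n := u - v) (mm := 1 - u * v) hS.ne' hS₀.ne' hm0.ne' hS₀2
  rw [e3] at h3
  have e4 : (u - v) * (A u - A v - (A a - A b)) = (A u - A v - (A a - A b)) * (u - v) := by ring
  rw [e4]
  linarith

/-- **Strong Jensen.** -/
theorem strong_jensen {a b u v : ℝ} (ha : |a| < 1) (hb : |b| < 1) (hu : |u| < 1) (hv : |v| < 1) :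
    K a b + ((a - b) / (1 - a ^ 2) + (A a - A b)) * (u - a) +
        (-((a - b) / (1 - b ^ 2)) - (A a - A b)) * (v - b) +
        (a - b) ^ 2 / (2 * (1 - a * b)) * ((u - a) ^ 2 / (1 - a ^ 2) + (v - b) ^ 2 / (1 - b ^ 2)) ≤
      K u v := by
  have hcore := core_ineq ha hb hu hv
  have hsa := sqrt_one_sub_pos ha
  have hsb := sqrt_one_sub_pos hb
  have hsu := sqrt_one_sub_pos hu
  have hsv := sqrt_one_sub_pos hv
  have hA := one_sub_sq_pos ha
  have hB := one_sub_sq_pos hb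
  have hab := abs_lt.mp ha
  have hbb := abs_lt.mp hb
  have hm0 : 0 < 1 - a * b := by nlinarith
  have sa2 : √(1 - a ^ 2) ^ 2 = 1 - a ^ 2 := Real.sq_sqrt hA.le
  have sb2 : √(1 - b ^ 2) ^ 2 = 1 - b ^ 2 := Real.sq_sqrt hB.le
  have su2 : √(1 - u ^ 2) ^ 2 = 1 - u ^ 2 := Real.sq_sqrt (one_sub_sq_pos hu).le
  have sv2 : √(1 - v ^ 2) ^ 2 = 1 - v ^ 2 := Real.sq_sqrt (one_sub_sq_pos hv).le
  -- AM-GM on the ratio of the square roots
  have hgm : (√(1 - u ^ 2) * √(1 - v ^ 2)) / (√(1 - a ^ 2) * √(1 - b ^ 2)) ≤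
      ((1 - u ^ 2) / (1 - a ^ 2) + (1 - v ^ 2) / (1 - b ^ 2)) / 2 := by
    set x₁ := √(1 - u ^ 2) / √(1 - a ^ 2) with hx₁
    set x₂ := √(1 - v ^ 2) / √(1 - b ^ 2) with hx₂
    have e1 : (√(1 - u ^ 2) * √(1 - v ^ 2)) / (√(1 - a ^ 2) * √(1 - b ^ 2)) = x₁ * x₂ := by
      rw [hx₁, hx₂]
      field_simp
    have e2 : (1 - u ^ 2) / (1 - a ^ 2) = x₁ ^ 2 := by
      rw [hx₁, div_pow, sa2, su2]
    have e3 : (1 - v ^ 2) / (1 - b ^ 2) = x₂ ^ 2 := by
      rw [hx₂, div_pow, sb2, sv2]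
    rw [e1, e2, e3]
    nlinarith [sq_nonneg (x₁ - x₂)]
  set D := a - b with hD
  set Z₁ := (u - a) / (1 - a ^ 2) with hZ₁
  set Z₂ := (v - b) / (1 - b ^ 2) with hZ₂
  have hu1 : u - a = (1 - a ^ 2) * Z₁ := by
    rw [hZ₁]
    field_simp
  have hv1 : v - b = (1 - b ^ 2) * Z₂ := by
    rw [hZ₂]
    field_simp
  -- the algebraic identity
  have iden : (u - v) - (1 - a * b) * (Z₁ - Z₂) = D * (1 - a * Z₁ - b * Z₂) := by
    have e1 : u - v = D + (u - a) - (v - b) := by rw [hD]; ring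
    rw [e1, hu1, hv1, hD]
    ring
  have x₁e : (1 - u ^ 2) / (1 - a ^ 2) = 1 - 2 * a * Z₁ - (1 - a ^ 2) * Z₁ ^ 2 := by
    have : u = a + (1 - a ^ 2) * Z₁ := by linarith
    rw [div_eq_iff hA.ne', this]
    ring
  have x₂e : (1 - v ^ 2) / (1 - b ^ 2) = 1 - 2 * b * Z₂ - (1 - b ^ 2) * Z₂ ^ 2 := by
    have : v = b + (1 - b ^ 2) * Z₂ := by linarith
    rw [div_eq_iff hB.ne', this]
    ring
  have chi₁ : (u - a) ^ 2 / (1 - a ^ 2) = (1 - a ^ 2) * Z₁ ^ 2 := by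
    rw [hu1]
    field_simp
  have chi₂ : (v - b) ^ 2 / (1 - b ^ 2) = (1 - b ^ 2) * Z₂ ^ 2 := by
    rw [hv1]
    field_simp
  -- Expand `K`.
  have hKab : K a b = D * (A a - A b) := by
    unfold K
    rw [hD]
    ring
  have hKuv : K u v = (u - v) * (A u - A v) := by
    unfold K
    ring
  rw [hKab, hKuv, chi₁, chi₂]
  -- the term with the square roots: two cases for the sign of `D`.
  set RR := (√(1 - u ^ 2) * √(1 - v ^ 2)) / (√(1 - a ^ 2) * √(1 - b ^ 2)) with hRR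
  have hc2 : D / (1 - a * b) * ((u - v) - D * RR) ≤ (u - v) * ((A u - A v) - (A a - A b)) := by
    have : D * (√(1 - u ^ 2) * √(1 - v ^ 2)) / (√(1 - a ^ 2) * √(1 - b ^ 2)) = D * RR := by
      rw [hRR]
      ring
    rw [this] at hcore
    exact hcore
  have hR2 : D ^ 2 * RR ≤ D ^ 2 * (((1 - u ^ 2) / (1 - a ^ 2) + (1 - v ^ 2) / (1 - b ^ 2)) / 2) :=
    mul_le_mul_of_nonneg_left hgm (sq_nonneg D)
  rw [x₁e, x₂e] at hR2
  -- now the final combination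
  have hgoal : D * (A a - A b) + (D / (1 - a ^ 2) + (A a - A b)) * (u - a) +
      (-(D / (1 - b ^ 2)) - (A a - A b)) * (v - b) +
      D ^ 2 / (2 * (1 - a * b)) * ((1 - a ^ 2) * Z₁ ^ 2 + (1 - b ^ 2) * Z₂ ^ 2) =
      (u - v) * (A a - A b) + D * (Z₁ - Z₂) +
      D ^ 2 / (2 * (1 - a * b)) * ((1 - a ^ 2) * Z₁ ^ 2 + (1 - b ^ 2) * Z₂ ^ 2) := by
    have e1 : D / (1 - a ^ 2) * (u - a) = D * Z₁ := by
      rw [hZ₁]
      ring
    have e2 : D / (1 - b ^ 2) * (v - b) = D * Z₂ := by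
      rw [hZ₂]
      ring
    have e3 : u - v = D + (u - a) - (v - b) := by rw [hD]; ring
    rw [e3]
    linear_combination e1 - e2
  rw [hgoal]
  -- `D * (Z₁ - Z₂) + ... ≤ D / m₀ ((u-v) - D RR)`
  have hlast : D * (Z₁ - Z₂) +
      D ^ 2 / (2 * (1 - a * b)) * ((1 - a ^ 2) * Z₁ ^ 2 + (1 - b ^ 2) * Z₂ ^ 2) ≤
      D / (1 - a * b) * ((u - v) - D * RR) := by
    have e1 : D / (1 - a * b) * ((u - v) - D * RR) =
        (D * (u - v) - D ^ 2 * RR) / (1 - a * b) := by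
      field_simp
    rw [e1, le_div_iff₀ hm0]
    have e2 : (D * (Z₁ - Z₂) +
        D ^ 2 / (2 * (1 - a * b)) * ((1 - a ^ 2) * Z₁ ^ 2 + (1 - b ^ 2) * Z₂ ^ 2)) * (1 - a * b) =
        D * (Z₁ - Z₂) * (1 - a * b) +
          D ^ 2 / 2 * ((1 - a ^ 2) * Z₁ ^ 2 + (1 - b ^ 2) * Z₂ ^ 2) := by
      field_simp
    rw [e2]
    have e3 : D * (u - v) = D * ((1 - a * b) * (Z₁ - Z₂) + D * (1 - a * Z₁ - b * Z₂)) := by
      rw [← iden]
      ring
    rw [e3]
    have e6 : D * ((1 - a * b) * (Z₁ - Z₂) + D * (1 - a * Z₁ - b * Z₂)) - D ^ 2 * RR =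
        D * (Z₁ - Z₂) * (1 - a * b) + D ^ 2 * (1 - a * Z₁ - b * Z₂ - RR) := by ring
    rw [e6]
    have e7 : D ^ 2 * ((1 - 2 * a * Z₁ - (1 - a ^ 2) * Z₁ ^ 2 +
        (1 - 2 * b * Z₂ - (1 - b ^ 2) * Z₂ ^ 2)) / 2) = D ^ 2 * (1 - a * Z₁ - b * Z₂) -
        D ^ 2 / 2 * ((1 - a ^ 2) * Z₁ ^ 2 + (1 - b ^ 2) * Z₂ ^ 2) := by ring
    rw [e7] at hR2
    have e8 : D ^ 2 * (1 - a * Z₁ - b * Z₂ - RR) = D ^ 2 * (1 - a * Z₁ - b * Z₂) - D ^ 2 * RR := by
      ring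
    rw [e8]
    linarith
  have e9 : (u - v) * (A u - A v) = (u - v) * (A a - A b) +
      (u - v) * ((A u - A v) - (A a - A b)) := by ring
  rw [e9]
  linarith

/-- The Kullback-Leibler divergence is at most the `χ²` divergence. -/
lemma kl_le_chi {a u : ℝ} (ha : |a| < 1) (hu : |u| < 1) :
    ent a - A a * (u - a) - ent u ≤ (u - a) ^ 2 / (1 - a ^ 2) := by
  have ha' := abs_lt.mp ha
  have hu' := abs_lt.mp hu
  have h1 : 0 < 1 + a := by linarith
  have h2 : 0 < 1 - a := by linarith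
  have h3 : 0 < 1 + u := by linarith
  have h4 : 0 < 1 - u := by linarith
  have e1 : log (1 - a ^ 2) = log (1 + a) + log (1 - a) := by
    rw [← Real.log_mul h1.ne' h2.ne']
    congr 1
    ring
  have e2 : log (1 - u ^ 2) = log (1 + u) + log (1 - u) := by
    rw [← Real.log_mul h3.ne' h4.ne']
    congr 1
    ring
  have l1 : log (1 + u) - log (1 + a) ≤ (1 + u) / (1 + a) - 1 := by
    rw [← Real.log_div h3.ne' h1.ne']
    exact Real.log_le_sub_one_of_pos (div_pos h3 h1)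
  have l2 : log (1 - u) - log (1 - a) ≤ (1 - u) / (1 - a) - 1 := by
    rw [← Real.log_div h4.ne' h2.ne']
    exact Real.log_le_sub_one_of_pos (div_pos h4 h2)
  have e3 : ent a - A a * (u - a) - ent u =
      (1 + u) / 2 * (log (1 + u) - log (1 + a)) + (1 - u) / 2 * (log (1 - u) - log (1 - a)) := by
    rw [ent_formula ha, ent_formula hu, e1, e2]
    unfold A
    ring
  have e4 : (u - a) ^ 2 / (1 - a ^ 2) =
      (1 + u) / 2 * ((1 + u) / (1 + a) - 1) + (1 - u) / 2 * ((1 - u) / (1 - a) - 1) := by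
    have e5 : 1 - a ^ 2 = (1 + a) * (1 - a) := by ring
    rw [e5]
    field_simp
    ring
  rw [e3, e4]
  have m1 := mul_le_mul_of_nonneg_left l1 (by linarith : (0 : ℝ) ≤ (1 + u) / 2)
  have m2 := mul_le_mul_of_nonneg_left l2 (by linarith : (0 : ℝ) ≤ (1 - u) / 2)
  linarith

/-- The pointwise form of the entropy improved Jensen inequality. -/
lemma strong_pointwise {a b u v : ℝ} (ha : |a| < 1) (hb : |b| < 1) (hu : |u| < 1) (hv : |v| < 1) :
    K a b + ((a - b) / (1 - a ^ 2) + (A a - A b)) * (u - a) +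
        (-((a - b) / (1 - b ^ 2)) - (A a - A b)) * (v - b) +
        (a - b) ^ 2 / (2 * (1 - a * b)) *
          ((ent a - A a * (u - a) - ent u) + (ent b - A b * (v - b) - ent v)) ≤
      K u v := by
  have h := strong_jensen ha hb hu hv
  have hab := abs_lt.mp ha
  have hbb := abs_lt.mp hb
  have hm0 : 0 < 1 - a * b := by nlinarith
  have hc : 0 ≤ (a - b) ^ 2 / (2 * (1 - a * b)) := by positivity
  have h1 := kl_le_chi ha hu
  have h2 := kl_le_chi hb hv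
  have h3 := mul_le_mul_of_nonneg_left (add_le_add h1 h2) hc
  linarith

/-- The entropy improved Jensen inequality, averaged: with `a, b` the means of `X, Z`,
`avg K(X,Z)/4 ≥ K(a,b)/4 + (d²/(1-ab)) ((h a + h b)/2 - (avg (h X) + avg (h Z))/2)`, where
`d = (a-b)/2`. -/
theorem avg_K_ge_strong {n : ℕ} (X Z : Cube n → ℝ) (hX : ∀ y, |X y| < 1) (hZ : ∀ y, |Z y| < 1) :
    K (avg X) (avg Z) / 4 + ((avg X - avg Z) / 2) ^ 2 / (1 - avg X * avg Z) *
        ((ent (avg X) + ent (avg Z)) / 2 -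
          (avg (fun y => ent (X y)) + avg (fun y => ent (Z y))) / 2) ≤
      avg (fun y => K (X y) (Z y)) / 4 := by
  have ha := abs_avg_lt hX
  have hb := abs_avg_lt hZ
  obtain ⟨a, hadef⟩ : ∃ a, a = avg X := ⟨_, rfl⟩
  obtain ⟨b, hbdef⟩ : ∃ b, b = avg Z := ⟨_, rfl⟩
  rw [← hadef] at ha ⊢
  rw [← hbdef] at hb ⊢
  have hab := abs_lt.mp ha
  have hbb := abs_lt.mp hb
  have hm0 : 0 < 1 - a * b := by nlinarith
  obtain ⟨c₁, hc₁⟩ : ∃ c₁, c₁ = (a - b) / (1 - a ^ 2) + (A a - A b) := ⟨_, rfl⟩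
  obtain ⟨c₂, hc₂⟩ : ∃ c₂, c₂ = -((a - b) / (1 - b ^ 2)) - (A a - A b) := ⟨_, rfl⟩
  obtain ⟨c, hc⟩ : ∃ c, c = (a - b) ^ 2 / (2 * (1 - a * b)) := ⟨_, rfl⟩
  have hpt : ∀ y, (c₁ - c * A a) * X y + (c₂ - c * A b) * Z y +
      (K a b - (c₁ - c * A a) * a - (c₂ - c * A b) * b + c * (ent a + ent b)) -
      c * (ent (X y) + ent (Z y)) ≤ K (X y) (Z y) := by
    intro y
    have h := strong_pointwise ha hb (hX y) (hZ y)
    rw [← hc₁, ← hc₂, ← hc] at h
    refine le_trans (le_of_eq ?_) h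
    ring
  have h := avg_le_avg hpt
  have e : avg (fun y => (c₁ - c * A a) * X y + (c₂ - c * A b) * Z y +
      (K a b - (c₁ - c * A a) * a - (c₂ - c * A b) * b + c * (ent a + ent b)) -
      c * (ent (X y) + ent (Z y))) =
      (c₁ - c * A a) * avg X + (c₂ - c * A b) * avg Z +
      (K a b - (c₁ - c * A a) * a - (c₂ - c * A b) * b + c * (ent a + ent b)) -
      c * (avg (fun y => ent (X y)) + avg (fun y => ent (Z y))) := by
    rw [avg_sub, avg_affine, avg_mul_left, avg_add]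
  rw [e, ← hadef, ← hbdef] at h
  have e2 : ((a - b) / 2) ^ 2 / (1 - a * b) = c / 2 := by
    rw [hc]
    field_simp
  rw [e2]
  nlinarith

end Vale.Agent.CK
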