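import Vale.Agent.CK.Yc

/-!
The truncated nonlinear log-Sobolev inequality on the cube:
`2 u + yc u ≤ Dir g / 4`, `u = ent (avg g) - avg (ent ∘ g)`, for every `g` with values in `(-1,1)`.
-/

open Real Set

namespace Vale.Agent.CK

open Vale.Agent.P322

lemma ent_logs {x : ℝ} (hx : |x| < 1) :
    ent x = log 2 - ((1 + x) * log (1 + x) + (1 - x) * log (1 - x)) / 2 := by
  have h := abs_lt.mp hx
  have h1 : 0 < 1 + x := by linarith
  have h2 : 0 < 1 - x := by linarith
  have e3 : 1 - x ^ 2 = (1 + x) * (1 - x) := by ring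
  rw [ent_formula hx, e3, log_mul h1.ne' h2.ne']
  unfold A
  ring

/-- `2 (ln 2 - h(σ)) + Y(σ) = σ w(σ)`. -/
lemma psi_identity' {σ : ℝ} (h0 : |σ| < 1) : 2 * (log 2 - ent σ) + Yf σ = σ * A σ := by
  rw [ent_formula h0]
  unfold Yf
  ring

section id

variable {a b : ℝ}

/-- `log (1 + τ₊)` etc. in terms of the logarithms of `1 ± a`, `1 ± b`. -/
lemma log_tp_add (ha : |a| < 1) (hb : |b| < 1) :
    log (1 + tp a b) = log (1 + a) - log (2 * Mp a b) := by
  have h1 := Mp_pos ha hb
  have h2 : 0 < tp a b ∨ tp a b ≤ 0 := lt_or_ge 0 (tp a b)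
  have hb' := abs_lt.mp hb
  have ha' := abs_lt.mp ha
  have h3 := two_add_pos ha hb
  have h4 : 0 < 1 + tp a b := by
    have : 1 + tp a b = (1 + a) / (2 * Mp a b) := by
      rw [one_add_a_eq ha hb]
      field_simp
    rw [this]
    apply div_pos (by linarith) (by positivity)
  rw [one_add_a_eq ha hb, log_mul (by positivity) h4.ne']
  ring

lemma log_tp_sub (ha : |a| < 1) (hb : |b| < 1) :
    log (1 - tp a b) = log (1 + b) - log (2 * Mp a b) := by
  have h1 := Mp_pos ha hb
  have hb' := abs_lt.mp hb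
  have h4 : 0 < 1 - tp a b := by linarith [tp_lt ha hb]
  rw [one_add_b_eq ha hb, log_mul (by positivity) h4.ne']
  ring

lemma log_tm_add (ha : |a| < 1) (hb : |b| < 1) :
    log (1 + tm a b) = log (1 - b) - log (2 * Mm a b) := by
  have h1 := Mm_pos ha hb
  have hb' := abs_lt.mp hb
  have h4 : 0 < 1 + tm a b := by
    have : 1 + tm a b = (1 - b) / (2 * Mm a b) := by
      rw [one_sub_b_eq ha hb]
      field_simp
    rw [this]
    apply div_pos (by linarith) (by positivity)
  rw [one_sub_b_eq ha hb, log_mul (by positivity) h4.ne']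
  ring

lemma log_tm_sub (ha : |a| < 1) (hb : |b| < 1) :
    log (1 - tm a b) = log (1 - a) - log (2 * Mm a b) := by
  have h1 := Mm_pos ha hb
  have h4 : 0 < 1 - tm a b := by linarith [tm_lt ha hb]
  rw [one_sub_a_eq ha hb, log_mul (by positivity) h4.ne']
  ring

lemma abs_tp_lt (ha : |a| < 1) (hb : |b| < 1) (hab : b < a) : |tp a b| < 1 :=
  abs_lt_one_of (tp_pos ha hb hab).le (tp_lt ha hb)

lemma abs_tm_lt (ha : |a| < 1) (hb : |b| < 1) (hab : b < a) : |tm a b| < 1 :=
  abs_lt_one_of (tm_pos ha hb hab).le (tm_lt ha hb)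

/-- `K a b / 4 = M₊ τ₊ w(τ₊) + M₋ τ₋ w(τ₋)`. -/
lemma K_decomp (ha : |a| < 1) (hb : |b| < 1) :
    K a b / 4 = Mp a b * (tp a b * A (tp a b)) + Mm a b * (tm a b * A (tm a b)) := by
  have e1 : Mp a b * (tp a b * A (tp a b)) = (Mp a b * tp a b) * A (tp a b) := by ring
  have e2 : Mm a b * (tm a b * A (tm a b)) = (Mm a b * tm a b) * A (tm a b) := by ring
  rw [e1, e2, Mp_tp ha hb, Mm_tm ha hb]
  unfold K
  have e3 : A (tp a b) = (log (1 + a) - log (1 + b)) / 2 := by
    unfold A
    rw [log_tp_add ha hb, log_tp_sub ha hb]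
    ring
  have e4 : A (tm a b) = (log (1 - b) - log (1 - a)) / 2 := by
    unfold A
    rw [log_tm_add ha hb, log_tm_sub ha hb]
    ring
  rw [e3, e4]
  unfold A
  ring

/-- `h(m) - (h(a)+h(b))/2 = M₊ (ln 2 - h(τ₊)) + M₋ (ln 2 - h(τ₋))`. -/
lemma F_decomp (ha : |a| < 1) (hb : |b| < 1) (hab : b < a) :
    ent ((a + b) / 2) - (ent a + ent b) / 2 =
      Mp a b * (log 2 - ent (tp a b)) + Mm a b * (log 2 - ent (tm a b)) := by
  have hm : |(a + b) / 2| < 1 := by
    have ha' := abs_lt.mp ha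
    have hb' := abs_lt.mp hb
    exact abs_lt.mpr ⟨by linarith, by linarith⟩
  rw [ent_logs hm, ent_logs ha, ent_logs hb, ent_logs (abs_tp_lt ha hb hab),
    ent_logs (abs_tm_lt ha hb hab), log_tp_add ha hb, log_tp_sub ha hb, log_tm_add ha hb,
    log_tm_sub ha hb]
  have e1 : 1 + (a + b) / 2 = 2 * Mp a b := by
    unfold Mp
    ring
  have e2 : 1 - (a + b) / 2 = 2 * Mm a b := by
    unfold Mm
    ring
  rw [e1, e2]
  obtain ⟨l₁, hl₁⟩ : ∃ l₁, l₁ = log (2 * Mp a b) := ⟨_, rfl⟩
  obtain ⟨l₂, hl₂⟩ : ∃ l₂, l₂ = log (2 * Mm a b) := ⟨_, rfl⟩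
  rw [← hl₁, ← hl₂]
  have f1 := one_add_a_eq ha hb
  have f2 := one_add_b_eq ha hb
  have f3 := one_sub_a_eq ha hb
  have f4 := one_sub_b_eq ha hb
  have g1 : Mp a b * (1 + tp a b) = (1 + a) / 2 := by linarith
  have g2 : Mp a b * (1 - tp a b) = (1 + b) / 2 := by linarith
  have g3' : Mm a b * (1 - tm a b) = (1 - a) / 2 := by linarith
  have g4 : Mm a b * (1 + tm a b) = (1 - b) / 2 := by linarith
  have h1 : Mp a b * (log 2 - (log 2 - ((1 + tp a b) * (log (1 + a) - l₁) +
      (1 - tp a b) * (log (1 + b) - l₁)) / 2)) =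
      ((Mp a b * (1 + tp a b)) * (log (1 + a) - l₁) +
      (Mp a b * (1 - tp a b)) * (log (1 + b) - l₁)) / 2 := by ring
  have h2 : Mm a b * (log 2 - (log 2 - ((1 + tm a b) * (log (1 - b) - l₂) +
      (1 - tm a b) * (log (1 - a) - l₂)) / 2)) =
      ((Mm a b * (1 + tm a b)) * (log (1 - b) - l₂) +
      (Mm a b * (1 - tm a b)) * (log (1 - a) - l₂)) / 2 := by ring
  rw [h1, h2, g1, g2, g3', g4]
  unfold Mp Mm
  ring

/-- The weighted slope. -/
noncomputable def gam (a b : ℝ) : ℝ :=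
  Mp a b * pid (log 2 - ent (tp a b)) + Mm a b * pid (log 2 - ent (tm a b))

lemma u_nonneg (τ : ℝ) : 0 ≤ log 2 - ent τ := by
  have := ent_le_log_two τ
  linarith

lemma gam_nonneg (ha : |a| < 1) (hb : |b| < 1) : 0 ≤ gam a b := by
  have h1 := (Mp_pos ha hb).le
  have h2 := (Mm_pos ha hb).le
  have h3 := pid_nonneg (u_nonneg (tp a b))
  have h4 := pid_nonneg (u_nonneg (tm a b))
  unfold gam
  positivity

/-- The hypotheses of the plane lemma hold for `γ = gam a b`. -/
lemma gam_hyps (ha : |a| < 1) (hb : |b| < 1) (hab : b < a) :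
    2 * gam a b * (1 - b ^ 2) ≤ (a - b) ^ 2 ∧ 2 * gam a b * (1 - a ^ 2) ≤ (a - b) ^ 2 ∧
    2 * gam a b * (log 2 - log (1 + b)) ≤ g3 ((1 + a) / (1 + b)) ∧
    2 * gam a b * (log 2 - log (1 - b)) ≤ g3 ((1 - a) / (1 - b)) ∧
    2 * gam a b * (log 2 - log (1 + a)) ≤ g3 ((1 + b) / (1 + a)) ∧
    2 * gam a b * (log 2 - log (1 - a)) ≤ g3 ((1 - b) / (1 - a)) := by
  have tp0 := tp_pos ha hb hab
  have tm0 := tm_pos ha hb hab
  have Mp0 := Mp_pos ha hb
  have Mm0 := Mm_pos ha hb
  have hMp := Mp_mul ha hb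
  have hMm := Mm_mul ha hb
  have hMm' : Mm a b * (tp a b + tm a b) = tp a b := by
    rw [add_comm]
    exact hMm
  have hMp' : Mp a b * (tm a b + tp a b) = tm a b := by
    rw [add_comm]
    exact hMp
  have hk := le_trans (pid_le_k1 (log 2 - ent (tm a b))) k1_le
  have hk' := le_trans (pid_le_k1 (log 2 - ent (tp a b))) k1_le
  have b1 := gamma_bounds tp0 tm0 Mp0 Mm0 hMp hMm' (c := 7743 / 10000) (τ₂ := 291 / 1000)
    (by norm_num) (by norm_num) (pid_le_sq tp0.le) (pid_le_sq tm0.le) hk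
  have b2 := gamma_bounds tm0 tp0 Mm0 Mp0 hMm hMp' (c := 7743 / 10000) (τ₂ := 291 / 1000)
    (by norm_num) (by norm_num) (pid_le_sq tm0.le) (pid_le_sq tp0.le) hk'
  have e : Mm a b * pid (log 2 - ent (tm a b)) + Mp a b * pid (log 2 - ent (tp a b)) = gam a b := by
    unfold gam
    ring
  rw [e] at b2
  exact plane_hyps ha hb hab (gam_nonneg ha hb) b1.1 b1.2 b2.2 (by norm_num) (by norm_num)
    (by norm_num) (by norm_num)

/-- The step for `yc`. -/
lemma step_core (ha : |a| < 1) (hb : |b| < 1) (hab : b < a) {x : ℝ} (hx : 0 ≤ x) :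
    yc (x + (ent ((a + b) / 2) - (ent a + ent b) / 2)) +
        2 * (ent ((a + b) / 2) - (ent a + ent b) / 2) ≤ yc x + K a b / 4 + gam a b * x := by
  have tp0 := tp_pos ha hb hab
  have tm0 := tm_pos ha hb hab
  have tp1 := tp_lt ha hb
  have tm1 := tm_lt ha hb
  have Mp0 := Mp_pos ha hb
  have Mm0 := Mm_pos ha hb
  rw [F_decomp ha hb hab, K_decomp ha hb]
  obtain ⟨up, hup⟩ : ∃ up, up = log 2 - ent (tp a b) := ⟨_, rfl⟩
  obtain ⟨um, hum⟩ : ∃ um, um = log 2 - ent (tm a b) := ⟨_, rfl⟩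
  have hup0 : 0 ≤ up := by rw [hup]; exact u_nonneg _
  have hum0 : 0 ≤ um := by rw [hum]; exact u_nonneg _
  have i1 := psi_identity' (abs_tp_lt ha hb hab)
  have i2 := psi_identity' (abs_tm_lt ha hb hab)
  rw [← hup] at i1
  rw [← hum] at i2
  rw [← hup, ← hum, ← i1, ← i2]
  have c1 := yc_convex.2 (mem_univ (x + up)) (mem_univ (x + um)) Mp0.le Mm0.le (Mp_add_Mm a b)
  simp only [smul_eq_mul] at c1
  have e1 : Mp a b * (x + up) + Mm a b * (x + um) = x + (Mp a b * up + Mm a b * um) := by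
    have := Mp_add_Mm a b
    have e2 : x = (Mp a b + Mm a b) * x := by rw [this, one_mul]
    nth_rw 3 [e2]
    ring
  rw [e1] at c1
  have s1' := yc_super hx hup0
  have s2 := yc_super hx hum0
  have p1 := yc_le_Yf tp0.le tp1
  have p2 := yc_le_Yf tm0.le tm1
  rw [← hup] at p1
  rw [← hum] at p2
  have hgam : gam a b = Mp a b * pid up + Mm a b * pid um := by
    unfold gam
    rw [hup, hum]
  rw [hgam]
  have m1 := mul_le_mul_of_nonneg_left s1' Mp0.le
  have m2 := mul_le_mul_of_nonneg_left s2 Mm0.le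
  have m3 := mul_le_mul_of_nonneg_left p1 Mp0.le
  have m4 := mul_le_mul_of_nonneg_left p2 Mm0.le
  have hsum := Mp_add_Mm a b
  have e3 : yc x = (Mp a b + Mm a b) * yc x := by rw [hsum, one_mul]
  nlinarith

end id

lemma A_mono {x y : ℝ} (hx : |x| < 1) (hy : |y| < 1) (hxy : x ≤ y) : A x ≤ A y := by
  have hx' := abs_lt.mp hx
  have hy' := abs_lt.mp hy
  have h1 := log_le_log (x := 1 + x) (y := 1 + y) (by linarith) (by linarith)
  have h2 := log_le_log (x := 1 - y) (y := 1 - x) (by linarith) (by linarith)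
  unfold A
  linarith

/-- The relative entropy is nonnegative. -/
lemma Dv_nonneg {q b : ℝ} (hq : |q| < 1) (hb : |b| < 1) : 0 ≤ Dv q b := by
  have hq' := abs_lt.mp hq
  have hb' := abs_lt.mp hb
  have hd : ∀ t, |t| < 1 → HasDerivAt (fun t => Dv t b) (A t - A b) t := by
    intro t ht
    unfold Dv
    have h1 := (hasDerivAt_ent ht).const_sub (ent b)
    have h2 := ((hasDerivAt_id' t).sub_const b).const_mul (A b)
    have h3 := h1.sub h2
    refine h3.congr_deriv ?_
    ring
  have hbb : Dv b b = 0 := by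
    unfold Dv
    ring
  rcases le_total b q with h | h
  · have hm : MonotoneOn (fun t => Dv t b) (Icc b q) := by
      apply mono_of_deriv (f' := fun t => A t - A b)
      · intro t ht
        have ht1 : |t| < 1 := abs_lt.mpr ⟨by linarith [ht.1], by linarith [ht.2]⟩
        exact (hd t ht1).continuousAt.continuousWithinAt
      · intro t ht
        exact hd t (abs_lt.mpr ⟨by linarith [ht.1], by linarith [ht.2]⟩)
      · intro t ht
        have ht1 : |t| < 1 := abs_lt.mpr ⟨by linarith [ht.1], by linarith [ht.2]⟩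
        have := A_mono hb ht1 ht.1.le
        linarith
    have := hm (left_mem_Icc.mpr h) (right_mem_Icc.mpr h) h
    simp only at this
    linarith
  · have hm : AntitoneOn (fun t => Dv t b) (Icc q b) := by
      apply anti_of_deriv (f' := fun t => A t - A b)
      · intro t ht
        have ht1 : |t| < 1 := abs_lt.mpr ⟨by linarith [ht.1], by linarith [ht.2]⟩
        exact (hd t ht1).continuousAt.continuousWithinAt
      · intro t ht
        exact hd t (abs_lt.mpr ⟨by linarith [ht.1], by linarith [ht.2]⟩)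
      · intro t ht
        have ht1 : |t| < 1 := abs_lt.mpr ⟨by linarith [ht.1], by linarith [ht.2]⟩
        have := A_mono ht1 hb ht.2.le
        linarith
    have := hm (left_mem_Icc.mpr h) (right_mem_Icc.mpr h) h
    simp only at this
    linarith

/-- Jensen for the entropy. -/
lemma avg_ent_le {n : ℕ} (X : Cube n → ℝ) (hX : ∀ y, |X y| < 1) :
    avg (fun y => ent (X y)) ≤ ent (avg X) := by
  have ha := abs_avg_lt hX
  have h := avg_nonneg (fun y => Dv_nonneg (hX y) ha)
  unfold Dv at h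
  have e : (fun y => ent (avg X) - ent (X y) - A (avg X) * (X y - avg X)) =
      fun y => (-A (avg X)) * X y + (-1) * ent (X y) + (ent (avg X) + A (avg X) * avg X) := by
    funext y
    ring
  rw [e, avg_add, avg_add, avg_mul_left, avg_mul_left, avg_const] at h
  linarith

/-- The step on the cube when `avg Z < avg X`. -/
lemma cube_step_lt {n : ℕ} (X Z : Cube n → ℝ) (hX : ∀ y, |X y| < 1) (hZ : ∀ y, |Z y| < 1)
    (hab : avg Z < avg X) :
    yc (((ent (avg X) - avg (fun y => ent (X y))) + (ent (avg Z) - avg (fun y => ent (Z y)))) / 2 +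
        (ent ((avg X + avg Z) / 2) - (ent (avg X) + ent (avg Z)) / 2)) +
      2 * (ent ((avg X + avg Z) / 2) - (ent (avg X) + ent (avg Z)) / 2)
    ≤ yc (((ent (avg X) - avg (fun y => ent (X y))) + (ent (avg Z) - avg (fun y => ent (Z y)))) / 2) +
      avg (fun y => K (X y) (Z y)) / 4 := by
  have ha := abs_avg_lt hX
  have hb := abs_avg_lt hZ
  have hua := avg_ent_le X hX
  have hub := avg_ent_le Z hZ
  obtain ⟨h1, h2, h3, h4, h5, h6⟩ := gam_hyps ha hb hab
  have hp := avg_plane X Z hX hZ (gam_nonneg ha hb) h1 h2 h3 h4 h5 h6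
  have hs := step_core ha hb hab (x := ((ent (avg X) - avg (fun y => ent (X y))) +
    (ent (avg Z) - avg (fun y => ent (Z y)))) / 2) (by linarith)
  nlinarith

/-- The step on the cube in general. -/
lemma cube_step {n : ℕ} (X Z : Cube n → ℝ) (hX : ∀ y, |X y| < 1) (hZ : ∀ y, |Z y| < 1) :
    yc (((ent (avg X) - avg (fun y => ent (X y))) + (ent (avg Z) - avg (fun y => ent (Z y)))) / 2 +
        (ent ((avg X + avg Z) / 2) - (ent (avg X) + ent (avg Z)) / 2)) +
      2 * (ent ((avg X + avg Z) / 2) - (ent (avg X) + ent (avg Z)) / 2)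
    ≤ yc (((ent (avg X) - avg (fun y => ent (X y))) + (ent (avg Z) - avg (fun y => ent (Z y)))) / 2) +
      avg (fun y => K (X y) (Z y)) / 4 := by
  rcases lt_trichotomy (avg Z) (avg X) with h | h | h
  · exact cube_step_lt X Z hX hZ h
  · rw [h]
    have e1 : (avg X + avg X) / 2 = avg X := by ring
    have e2 : (ent (avg X) + ent (avg X)) / 2 = ent (avg X) := by ring
    rw [e1, e2, sub_self, add_zero, mul_zero, add_zero]
    have h0 : 0 ≤ avg (fun y => K (X y) (Z y)) := avg_nonneg fun y => K_nonneg (hX y) (hZ y)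
    linarith
  · have h2 := cube_step_lt Z X hZ hX h
    have e1 : (fun y => K (Z y) (X y)) = fun y => K (X y) (Z y) := by
      funext y
      exact K_symm _ _
    rw [e1] at h2
    have e2 : (avg Z + avg X) / 2 = (avg X + avg Z) / 2 := by ring
    have e3 : (ent (avg Z) + ent (avg X)) / 2 = (ent (avg X) + ent (avg Z)) / 2 := by ring
    have e4 : ((ent (avg Z) - avg (fun y => ent (Z y))) + (ent (avg X) - avg (fun y => ent (X y)))) / 2
        = ((ent (avg X) - avg (fun y => ent (X y))) + (ent (avg Z) - avg (fun y => ent (Z y)))) / 2 := by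
      ring
    rw [e2, e3, e4] at h2
    exact h2

/-- **The truncated nonlinear log-Sobolev inequality.** -/
theorem tnlsi : ∀ (n : ℕ) (g : Cube n → ℝ), (∀ x, |g x| < 1) →
    2 * (ent (avg g) - avg (fun x => ent (g x))) +
        yc (ent (avg g) - avg (fun x => ent (g x))) ≤ Dir g / 4 := by
  intro n
  induction n with
  | zero =>
    intro w hw
    have h1 : avg w = w default := by
      unfold avg
      simp
      exact congrArg w (Subsingleton.elim _ _)
    have h2 : avg (fun x => ent (w x)) = ent (w default) := by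
      unfold avg
      simp
      exact congrArg (fun z => ent (w z)) (Subsingleton.elim _ _)
    have h3 : Dir w = 0 := by
      unfold Dir
      simp
    rw [h1, h2, h3, sub_self, yc_zero]
    simp
  | succ n ih =>
    intro w hw
    have hw₁ : ∀ y, |w (cons' true y)| < 1 := fun y => hw _
    have hw₂ : ∀ y, |w (cons' false y)| < 1 := fun y => hw _
    have ih₁ := ih (fun y => w (cons' true y)) hw₁
    have ih₂ := ih (fun y => w (cons' false y)) hw₂
    have hstep := cube_step (fun y => w (cons' true y)) (fun y => w (cons' false y)) hw₁ hw₂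
    have hD := Dir_succ w
    have hmean : avg w = (avg (fun y => w (cons' true y)) + avg (fun y => w (cons' false y))) / 2 :=
      avg_succ w
    have hent : avg (fun x => ent (w x)) =
        (avg (fun y => ent (w (cons' true y))) + avg (fun y => ent (w (cons' false y)))) / 2 :=
      avg_succ _
    rw [hmean, hent, hD]
    obtain ⟨a, ha⟩ : ∃ a, a = avg (fun y => w (cons' true y)) := ⟨_, rfl⟩
    obtain ⟨b, hb⟩ : ∃ b, b = avg (fun y => w (cons' false y)) := ⟨_, rfl⟩
    obtain ⟨x₁, hx₁⟩ : ∃ x₁, x₁ = avg (fun y => ent (w (cons' true y))) := ⟨_, rfl⟩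
    obtain ⟨x₂, hx₂⟩ : ∃ x₂, x₂ = avg (fun y => ent (w (cons' false y))) := ⟨_, rfl⟩
    obtain ⟨K', hK'⟩ : ∃ K', K' = avg (fun y => K (w (cons' true y)) (w (cons' false y))) := ⟨_, rfl⟩
    rw [← ha, ← hb, ← hx₁, ← hx₂, ← hK']
    rw [← ha, ← hx₁] at ih₁
    rw [← hb, ← hx₂] at ih₂
    rw [← ha, ← hb, ← hx₁, ← hx₂, ← hK'] at hstep
    obtain ⟨F, hF⟩ : ∃ F, F = ent ((a + b) / 2) - (ent a + ent b) / 2 := ⟨_, rfl⟩
    rw [← hF] at hstep
    have e : ent ((a + b) / 2) - (x₁ + x₂) / 2 = ((ent a - x₁) + (ent b - x₂)) / 2 + F := by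
      rw [hF]
      ring
    rw [e]
    have hc := yc_convex.2 (mem_univ (ent a - x₁)) (mem_univ (ent b - x₂))
      (by norm_num : (0 : ℝ) ≤ 1 / 2) (by norm_num : (0 : ℝ) ≤ 1 / 2) (by norm_num)
    simp only [smul_eq_mul] at hc
    have e2 : 1 / 2 * (ent a - x₁) + 1 / 2 * (ent b - x₂) = ((ent a - x₁) + (ent b - x₂)) / 2 := by
      ring
    rw [e2] at hc
    nlinarith

end Vale.Agent.CK
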