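import Vale.Agent.CK.Plane

/-!
The endpoint inequalities of the plane lemma.
-/

open Real Set

namespace Vale.Agent.CK

open Vale.Agent.P322

/-- `3 (atanh z - z) ≤ z³/(1 - z²)` (a copy of the lemma of `EE`, kept here to avoid an import). -/
lemma three_atanh_le' {z : ℝ} (h0 : 0 ≤ z) (h1 : z < 1) :
    3 * (A z - z) ≤ z ^ 3 / (1 - z ^ 2) := by
  have hm : MonotoneOn (fun t : ℝ => t ^ 3 / (1 - t ^ 2) - 3 * (A t - t)) (Ico 0 1) := by
    have hd : ∀ t ∈ Ico (0 : ℝ) 1, HasDerivAt (fun t : ℝ => t ^ 3 / (1 - t ^ 2) - 3 * (A t - t))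
        (2 * t ^ 4 / (1 - t ^ 2) ^ 2) t := by
      intro t ht
      have ht' : |t| < 1 := by rw [abs_of_nonneg ht.1]; exact ht.2
      have hD : 0 < 1 - t ^ 2 := by nlinarith [ht.1, ht.2]
      have hD' := hD.ne'
      have h1 : HasDerivAt (fun t : ℝ => t ^ 3) (3 * t ^ 2) t := by
        simpa using hasDerivAt_pow 3 t
      have h2 : HasDerivAt (fun t : ℝ => 1 - t ^ 2) (-(2 * t)) t := by
        simpa using (hasDerivAt_pow 2 t).const_sub 1
      have h3 := ((h1.div h2 hD').sub (((hasDerivAt_A ht').sub (hasDerivAt_id' t)).const_mul 3))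
      refine h3.congr_deriv ?_
      obtain ⟨D, hDe⟩ : ∃ D, D = 1 - t ^ 2 := ⟨_, rfl⟩
      rw [← hDe]
      have hDn : D ≠ 0 := by rw [hDe]; exact hD'
      field_simp
      rw [hDe]
      ring
    apply monotoneOn_of_deriv_nonneg (convex_Ico 0 1)
    · intro t ht
      exact (hd t ht).continuousAt.continuousWithinAt
    · intro t ht
      rw [interior_Ico] at ht
      exact (hd t ⟨ht.1.le, ht.2⟩).differentiableAt.differentiableWithinAt
    · intro t ht
      rw [interior_Ico] at ht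
      rw [(hd t ⟨ht.1.le, ht.2⟩).deriv]
      positivity
  have := hm (left_mem_Ico.2 (by norm_num : (0 : ℝ) < 1)) ⟨h0, h1⟩ h0
  simp only [A_zero] at this
  norm_num at this
  linarith

/-- `z + z³/3 ≤ atanh z`. -/
lemma A_ge_cube {z : ℝ} (h0 : 0 ≤ z) (h1 : z < 1) : z + z ^ 3 / 3 ≤ A z := by
  have hm : MonotoneOn (fun t : ℝ => A t - t - t ^ 3 / 3) (Icc 0 z) := by
    apply mono_of_deriv (f' := fun t => 1 / (1 - t ^ 2) - 1 - t ^ 2)
    · intro t ht
      have ht' : |t| < 1 := abs_lt_one_of ht.1 (lt_of_le_of_lt ht.2 h1)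
      have d := ((hasDerivAt_A ht').sub (hasDerivAt_id' t)).sub ((hasDerivAt_pow 3 t).div_const 3)
      exact d.continuousAt.continuousWithinAt
    · intro t ht
      have ht' : |t| < 1 := abs_lt_one_of ht.1.le (lt_trans ht.2 h1)
      have d := ((hasDerivAt_A ht').sub (hasDerivAt_id' t)).sub ((hasDerivAt_pow 3 t).div_const 3)
      refine d.congr_deriv ?_
      norm_num
    · intro t ht
      have ht' : |t| < 1 := abs_lt_one_of ht.1.le (lt_trans ht.2 h1)
      have hD := one_sub_sq_pos ht'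
      have e : 1 / (1 - t ^ 2) - 1 - t ^ 2 = t ^ 4 / (1 - t ^ 2) := by
        field_simp
        ring
      rw [e]
      positivity
  have := hm (left_mem_Icc.mpr h0) (right_mem_Icc.mpr h0) h0
  simp only [A_zero] at this
  norm_num at this
  linarith

lemma neg_log_le_of {M τ τ' : ℝ} (hτ'0 : 0 < τ') (hM0 : 0 < M) (hM : M * (τ + τ') = τ') :
    -log M ≤ τ / τ' := by
  have h := Real.one_sub_inv_le_log_of_pos hM0
  have e : M⁻¹ = 1 + τ / τ' := by
    have : τ + τ' = τ' / M := by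
      rw [eq_div_iff hM0.ne']
      linarith
    field_simp
    field_simp at this
    linarith
  rw [e] at h
  linarith

lemma E1core {τ τ' M γ c τ₂ : ℝ} (hτ0 : 0 < τ) (hτ1 : τ < 1) (hτ'0 : 0 < τ') (hM0 : 0 < M)
    (hM : M * (τ + τ') = τ') (hγ0 : 0 ≤ γ) (hB1 : γ ≤ c * τ * τ') (hB2 : γ ≤ c * τ * max τ₂ τ)
    (hc : 0 < c) (hc2 : c * (1 + τ₂) ≤ 1) (hc3 : c ≤ 5 / 6) (hcτ : c * τ₂ ≤ 2 / 3) :
    γ * (-log M - log (1 - τ)) ≤ τ / (1 - τ) - A τ := by
  have hD : 0 < 1 - τ := by linarith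
  have hE : 0 < 1 + τ := by linarith
  have hDE : 0 < 1 - τ ^ 2 := by nlinarith
  have h1 := neg_log_le_of hτ'0 hM0 hM
  have h2 : -log (1 - τ) ≤ τ / (1 - τ) := by
    have h := Real.one_sub_inv_le_log_of_pos hD
    have e : (1 - τ)⁻¹ = 1 + τ / (1 - τ) := by
      field_simp
      ring
    rw [e] at h
    linarith
  have h2' : 0 ≤ -log (1 - τ) := by
    have := Real.log_le_sub_one_of_pos hD
    linarith
  have h3 : γ * (-log M) ≤ c * τ ^ 2 := by
    have h4 : γ * (-log M) ≤ γ * (τ / τ') := mul_le_mul_of_nonneg_left h1 hγ0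
    have h5 : γ * (τ / τ') ≤ c * τ * τ' * (τ / τ') :=
      mul_le_mul_of_nonneg_right hB1 (by positivity)
    have e : c * τ * τ' * (τ / τ') = c * τ ^ 2 := by
      field_simp
    linarith
  obtain ⟨τs, hτs⟩ : ∃ τs, τs = max τ₂ τ := ⟨_, rfl⟩
  rw [← hτs] at hB2
  have hτspos : 0 < τs := by
    rw [hτs]
    exact lt_of_lt_of_le hτ0 (le_max_right _ _)
  have h4 : γ * (-log (1 - τ)) ≤ c * τ * τs * (τ / (1 - τ)) := by
    have h5 : γ * (-log (1 - τ)) ≤ c * τ * τs * (-log (1 - τ)) :=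
      mul_le_mul_of_nonneg_right hB2 h2'
    have h6 : c * τ * τs * (-log (1 - τ)) ≤ c * τ * τs * (τ / (1 - τ)) :=
      mul_le_mul_of_nonneg_left h2 (by positivity)
    linarith
  have h5 := three_atanh_le' hτ0.le hτ1
  have hpoly : 3 * c * (1 - τ ^ 2) + 3 * c * τs * (1 + τ) ≤ 3 + 2 * τ := by
    rcases le_total τ₂ τ with h | h
    · have e : τs = τ := by
        rw [hτs]
        exact max_eq_right h
      rw [e]
      nlinarith
    · have e : τs = τ₂ := by
        rw [hτs]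
        exact max_eq_left h
      rw [e]
      nlinarith [sq_nonneg τ]
  have hkey : c * τ ^ 2 + c * τ * τs * (τ / (1 - τ)) + τ ^ 3 / (1 - τ ^ 2) / 3 + τ ≤ τ / (1 - τ) := by
    have e : τ / (1 - τ) - (c * τ ^ 2 + c * τ * τs * (τ / (1 - τ)) + τ ^ 3 / (1 - τ ^ 2) / 3 + τ) =
        τ ^ 2 * ((3 + 2 * τ) - (3 * c * (1 - τ ^ 2) + 3 * c * τs * (1 + τ))) /
          (3 * (1 - τ ^ 2)) := by
      have e3 : 1 - τ ^ 2 = (1 - τ) * (1 + τ) := by ring
      rw [e3]
      field_simp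
      ring
    have h7 : 0 ≤ τ ^ 2 * ((3 + 2 * τ) - (3 * c * (1 - τ ^ 2) + 3 * c * τs * (1 + τ))) /
        (3 * (1 - τ ^ 2)) := by
      apply div_nonneg _ (by positivity)
      apply mul_nonneg (by positivity)
      linarith
    linarith
  have e : γ * (-log M - log (1 - τ)) = γ * (-log M) + γ * (-log (1 - τ)) := by ring
  rw [e]
  linarith

lemma E3core {τ τ' M γ c : ℝ} (hτ0 : 0 < τ) (hτ1 : τ < 1) (hτ'0 : 0 < τ') (hM0 : 0 < M)
    (hM : M * (τ + τ') = τ') (hγ0 : 0 ≤ γ) (hB1 : γ ≤ c * τ * τ') (hc3 : c ≤ 4 / 5) :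
    γ * (-log M - log (1 + τ)) ≤ A τ - τ / (1 + τ) := by
  have hE : 0 < 1 + τ := by linarith
  have h1 := neg_log_le_of hτ'0 hM0 hM
  have h3 : γ * (-log M) ≤ c * τ ^ 2 := by
    have h4 : γ * (-log M) ≤ γ * (τ / τ') := mul_le_mul_of_nonneg_left h1 hγ0
    have h5 : γ * (τ / τ') ≤ c * τ * τ' * (τ / τ') :=
      mul_le_mul_of_nonneg_right hB1 (by positivity)
    have e : c * τ * τ' * (τ / τ') = c * τ ^ 2 := by
      field_simp
    linarith
  have h2 : 0 ≤ log (1 + τ) := Real.log_nonneg (by linarith)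
  have h6 := A_ge_cube hτ0.le hτ1
  have hpoly : 3 * c * (1 + τ) ≤ 3 + τ * (1 + τ) := by
    nlinarith [sq_nonneg (τ - 7 / 10)]
  have hkey : c * τ ^ 2 + τ / (1 + τ) ≤ τ + τ ^ 3 / 3 := by
    have e : τ + τ ^ 3 / 3 - (c * τ ^ 2 + τ / (1 + τ)) =
        τ ^ 2 * (3 + τ * (1 + τ) - 3 * c * (1 + τ)) / (3 * (1 + τ)) := by
      field_simp
      ring
    have h7 : 0 ≤ τ ^ 2 * (3 + τ * (1 + τ) - 3 * c * (1 + τ)) / (3 * (1 + τ)) := by
      apply div_nonneg _ (by positivity)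
      apply mul_nonneg (by positivity)
      linarith
    linarith
  have h8 : γ * (-log M - log (1 + τ)) ≤ γ * (-log M) := by
    have : γ * log (1 + τ) ≥ 0 := mul_nonneg hγ0 h2
    nlinarith
  linarith

lemma g3_ratio_up {τ : ℝ} (hτ0 : 0 < τ) (hτ1 : τ < 1) :
    g3 ((1 + τ) / (1 - τ)) = 2 * (τ / (1 - τ) - A τ) := by
  have hD : 0 < 1 - τ := by linarith
  have hE : 0 < 1 + τ := by linarith
  unfold g3 A
  rw [log_div hE.ne' hD.ne']
  field_simp
  ring

lemma g3_ratio_down {τ : ℝ} (hτ0 : 0 < τ) (hτ1 : τ < 1) :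
    g3 ((1 - τ) / (1 + τ)) = 2 * (A τ - τ / (1 + τ)) := by
  have hD : 0 < 1 - τ := by linarith
  have hE : 0 < 1 + τ := by linarith
  unfold g3 A
  rw [log_div hD.ne' hE.ne']
  field_simp
  ring

/-- The coordinates `τ₊`, `τ₋`. -/
noncomputable def tp (a b : ℝ) : ℝ := (a - b) / (2 + a + b)
noncomputable def tm (a b : ℝ) : ℝ := (a - b) / (2 - a - b)
/-- The weights. -/
noncomputable def Mp (a b : ℝ) : ℝ := (2 + a + b) / 4
noncomputable def Mm (a b : ℝ) : ℝ := (2 - a - b) / 4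

section coords

variable {a b : ℝ}

lemma two_add_pos (ha : |a| < 1) (hb : |b| < 1) : 0 < 2 + a + b := by
  have ha' := abs_lt.mp ha
  have hb' := abs_lt.mp hb
  linarith

lemma two_sub_pos (ha : |a| < 1) (hb : |b| < 1) : 0 < 2 - a - b := by
  have ha' := abs_lt.mp ha
  have hb' := abs_lt.mp hb
  linarith

lemma tp_pos (ha : |a| < 1) (hb : |b| < 1) (hab : b < a) : 0 < tp a b :=
  div_pos (by linarith) (two_add_pos ha hb)

lemma tm_pos (ha : |a| < 1) (hb : |b| < 1) (hab : b < a) : 0 < tm a b :=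
  div_pos (by linarith) (two_sub_pos ha hb)

lemma tp_lt (ha : |a| < 1) (hb : |b| < 1) : tp a b < 1 := by
  have hb' := abs_lt.mp hb
  unfold tp
  rw [div_lt_one (two_add_pos ha hb)]
  linarith

lemma tm_lt (ha : |a| < 1) (hb : |b| < 1) : tm a b < 1 := by
  have ha' := abs_lt.mp ha
  unfold tm
  rw [div_lt_one (two_sub_pos ha hb)]
  linarith

lemma Mp_pos (ha : |a| < 1) (hb : |b| < 1) : 0 < Mp a b := by
  have := two_add_pos ha hb
  unfold Mp
  positivity

lemma Mm_pos (ha : |a| < 1) (hb : |b| < 1) : 0 < Mm a b := by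
  have := two_sub_pos ha hb
  unfold Mm
  positivity

lemma Mp_add_Mm (a b : ℝ) : Mp a b + Mm a b = 1 := by
  unfold Mp Mm
  ring

lemma Mp_mul (ha : |a| < 1) (hb : |b| < 1) : Mp a b * (tp a b + tm a b) = tm a b := by
  have h1 := two_add_pos ha hb
  have h2 := two_sub_pos ha hb
  unfold Mp tp tm
  field_simp
  ring

lemma Mm_mul (ha : |a| < 1) (hb : |b| < 1) : Mm a b * (tm a b + tp a b) = tp a b := by
  have h1 := two_add_pos ha hb
  have h2 := two_sub_pos ha hb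
  unfold Mm tp tm
  field_simp
  ring

lemma Mp_tp (ha : |a| < 1) (hb : |b| < 1) : Mp a b * tp a b = (a - b) / 4 := by
  have h1 := two_add_pos ha hb
  unfold Mp tp
  field_simp

lemma Mm_tm (ha : |a| < 1) (hb : |b| < 1) : Mm a b * tm a b = (a - b) / 4 := by
  have h2 := two_sub_pos ha hb
  unfold Mm tm
  field_simp

lemma one_add_a_eq (ha : |a| < 1) (hb : |b| < 1) : 1 + a = 2 * Mp a b * (1 + tp a b) := by
  have h1 := two_add_pos ha hb
  unfold Mp tp
  field_simp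
  ring

lemma one_add_b_eq (ha : |a| < 1) (hb : |b| < 1) : 1 + b = 2 * Mp a b * (1 - tp a b) := by
  have h1 := two_add_pos ha hb
  unfold Mp tp
  field_simp
  ring

lemma one_sub_a_eq (ha : |a| < 1) (hb : |b| < 1) : 1 - a = 2 * Mm a b * (1 - tm a b) := by
  have h2 := two_sub_pos ha hb
  unfold Mm tm
  field_simp
  ring

lemma one_sub_b_eq (ha : |a| < 1) (hb : |b| < 1) : 1 - b = 2 * Mm a b * (1 + tm a b) := by
  have h2 := two_sub_pos ha hb
  unfold Mm tm
  field_simp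
  ring

/-- The hypotheses of the plane lemma from bounds on `γ`. -/
theorem plane_hyps {γ c τ₂ : ℝ} (ha : |a| < 1) (hb : |b| < 1) (hab : b < a) (hγ0 : 0 ≤ γ)
    (hB1 : γ ≤ c * tp a b * tm a b)
    (hB2 : γ ≤ c * tp a b * max τ₂ (tp a b)) (hB3 : γ ≤ c * tm a b * max τ₂ (tm a b))
    (hc : 0 < c) (hc2 : c * (1 + τ₂) ≤ 1) (hc3 : c ≤ 4 / 5) (hcτ : c * τ₂ ≤ 2 / 3) :
    2 * γ * (1 - b ^ 2) ≤ (a - b) ^ 2 ∧ 2 * γ * (1 - a ^ 2) ≤ (a - b) ^ 2 ∧
    2 * γ * (log 2 - log (1 + b)) ≤ g3 ((1 + a) / (1 + b)) ∧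
    2 * γ * (log 2 - log (1 - b)) ≤ g3 ((1 - a) / (1 - b)) ∧
    2 * γ * (log 2 - log (1 + a)) ≤ g3 ((1 + b) / (1 + a)) ∧
    2 * γ * (log 2 - log (1 - a)) ≤ g3 ((1 - b) / (1 - a)) := by
  have ha' := abs_lt.mp ha
  have hb' := abs_lt.mp hb
  have h1 := two_add_pos ha hb
  have h2 := two_sub_pos ha hb
  have tp0 := tp_pos ha hb hab
  have tm0 := tm_pos ha hb hab
  have tp1 := tp_lt ha hb
  have tm1 := tm_lt ha hb
  have Mp0 := Mp_pos ha hb
  have Mm0 := Mm_pos ha hb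
  have hc3' : c ≤ 5 / 6 := by linarith
  have hB1' : γ ≤ c * tm a b * tp a b := by
    have e : c * tm a b * tp a b = c * tp a b * tm a b := by ring
    rw [e]
    exact hB1
  have hLgen : ∀ x : ℝ, |x| < 1 → 2 * c * (1 - x ^ 2) ≤ (2 + a + b) * (2 - a - b) →
      2 * γ * (1 - x ^ 2) ≤ (a - b) ^ 2 := by
    intro x hx hxx
    have hxD := one_sub_sq_pos hx
    have e : tp a b * tm a b = (a - b) ^ 2 / ((2 + a + b) * (2 - a - b)) := by
      unfold tp tm
      field_simp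
    have h3 : 2 * γ * (1 - x ^ 2) ≤ 2 * (c * tp a b * tm a b) * (1 - x ^ 2) := by
      apply mul_le_mul_of_nonneg_right _ hxD.le
      linarith
    have h4 : 2 * (c * tp a b * tm a b) * (1 - x ^ 2) =
        (a - b) ^ 2 * (2 * c * (1 - x ^ 2)) / ((2 + a + b) * (2 - a - b)) := by
      have e2 : 2 * (c * tp a b * tm a b) * (1 - x ^ 2) =
          2 * c * (1 - x ^ 2) * (tp a b * tm a b) := by ring
      rw [e2, e]
      field_simp
    have h5 : (a - b) ^ 2 * (2 * c * (1 - x ^ 2)) / ((2 + a + b) * (2 - a - b)) ≤ (a - b) ^ 2 := by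
      rw [div_le_iff₀ (by positivity)]
      exact mul_le_mul_of_nonneg_left hxx (sq_nonneg _)
    linarith
  have hc1 : c ≤ 1 := by linarith
  refine ⟨?_, ?_, ?_, ?_, ?_, ?_⟩
  · apply hLgen b hb
    have : (a + b) ^ 2 ≤ 2 * a ^ 2 + 2 * b ^ 2 := by nlinarith [sq_nonneg (a - b)]
    have h6 : a ^ 2 < 1 := by nlinarith
    have h7 : 0 < 1 - b ^ 2 := one_sub_sq_pos hb
    nlinarith
  · apply hLgen a ha
    have : (a + b) ^ 2 ≤ 2 * a ^ 2 + 2 * b ^ 2 := by nlinarith [sq_nonneg (a - b)]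
    have h6 : b ^ 2 < 1 := by nlinarith
    have h7 : 0 < 1 - a ^ 2 := one_sub_sq_pos ha
    nlinarith
  · -- `E1` with `τ₊`
    have h3 := E1core tp0 tp1 tm0 Mp0 (Mp_mul ha hb) hγ0 hB1 hB2 hc hc2 hc3' hcτ
    have e1 : (1 + a) / (1 + b) = (1 + tp a b) / (1 - tp a b) := by
      rw [one_add_a_eq ha hb, one_add_b_eq ha hb]
      have : 0 < 1 - tp a b := by linarith
      field_simp
    rw [e1, g3_ratio_up tp0 tp1]
    have e2 : log 2 - log (1 + b) = -log (Mp a b) - log (1 - tp a b) := by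
      rw [one_add_b_eq ha hb, log_mul (by positivity) (by linarith), log_mul two_ne_zero Mp0.ne']
      ring
    rw [e2]
    nlinarith
  · -- `E3` with `τ₋`
    have h3 := E3core tm0 tm1 tp0 Mm0 (Mm_mul ha hb) hγ0 hB1' hc3
    have e1 : (1 - a) / (1 - b) = (1 - tm a b) / (1 + tm a b) := by
      rw [one_sub_a_eq ha hb, one_sub_b_eq ha hb]
      have : 0 < 1 + tm a b := by linarith
      field_simp
    rw [e1, g3_ratio_down tm0 tm1]
    have e2 : log 2 - log (1 - b) = -log (Mm a b) - log (1 + tm a b) := by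
      rw [one_sub_b_eq ha hb, log_mul (by positivity) (by linarith), log_mul two_ne_zero Mm0.ne']
      ring
    rw [e2]
    nlinarith
  · -- `E3` with `τ₊`
    have h3 := E3core tp0 tp1 tm0 Mp0 (Mp_mul ha hb) hγ0 hB1 hc3
    have e1 : (1 + b) / (1 + a) = (1 - tp a b) / (1 + tp a b) := by
      rw [one_add_a_eq ha hb, one_add_b_eq ha hb]
      have : 0 < 1 + tp a b := by linarith
      field_simp
    rw [e1, g3_ratio_down tp0 tp1]
    have e2 : log 2 - log (1 + a) = -log (Mp a b) - log (1 + tp a b) := by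
      rw [one_add_a_eq ha hb, log_mul (by positivity) (by linarith), log_mul two_ne_zero Mp0.ne']
      ring
    rw [e2]
    nlinarith
  · -- `E1` with `τ₋`
    have h3 := E1core tm0 tm1 tp0 Mm0 (Mm_mul ha hb) hγ0 hB1' hB3 hc hc2 hc3' hcτ
    have e1 : (1 - b) / (1 - a) = (1 + tm a b) / (1 - tm a b) := by
      rw [one_sub_a_eq ha hb, one_sub_b_eq ha hb]
      have : 0 < 1 - tm a b := by linarith
      field_simp
    rw [e1, g3_ratio_up tm0 tm1]
    have e2 : log 2 - log (1 - a) = -log (Mm a b) - log (1 - tm a b) := by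
      rw [one_sub_a_eq ha hb, log_mul (by positivity) (by linarith), log_mul two_ne_zero Mm0.ne']
      ring
    rw [e2]
    nlinarith

end coords

end Vale.Agent.CK
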