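import Vale.Agent.CK.TauE

/-!
The truncated convex function `yc`: it equals `u ↦ 𝒴(ln 2 - u)` for `u ≤ u1 = ln 2 - h(3/10)`
and continues linearly with slope `k1 = κ(3/10)` beyond.
-/

open Real Set

namespace Vale.Agent.CK

open Vale.Agent.P322

/-- The truncation point `3/10` in the variable `ρ`. -/
noncomputable def s1 : ℝ := 3 / 10

/-- The truncation point in the variable `u = ln 2 - h(ρ)`. -/
noncomputable def u1 : ℝ := log 2 - ent s1

/-- The slope `κ(3/10)`. -/
noncomputable def k1 : ℝ := kap s1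

/-- The truncated function. -/
noncomputable def yc (t : ℝ) : ℝ := if t ≤ u1 then YY (log 2 - t) else Yf s1 + k1 * (t - u1)

/-- The derivative of the truncated function. -/
noncomputable def yd (t : ℝ) : ℝ := if t ≤ u1 then KK (log 2 - t) else k1

lemma s1_nonneg : 0 ≤ s1 := by
  unfold s1
  norm_num

lemma s1_pos : 0 < s1 := by
  unfold s1
  norm_num

lemma s1_lt : s1 < 1 := by
  unfold s1
  norm_num

lemma ent_s1_pos : 0 < ent s1 := ent_pos_of s1_nonneg s1_lt

lemma u1_pos : 0 < u1 := by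
  have h := ent_strictAntiOn (a := 0) (b := s1) ⟨le_rfl, zero_le_one⟩ ⟨s1_nonneg, s1_lt.le⟩ s1_pos
  rw [ent_zero] at h
  unfold u1
  linarith

lemma log_sub_pos_of {t : ℝ} (ht : t ≤ u1) : 0 < log 2 - t := by
  have := ent_s1_pos
  unfold u1 at ht
  linarith

lemma log_sub_u1 : log 2 - u1 = ent s1 := by
  unfold u1
  ring

lemma YY_ent_s1 : YY (ent s1) = Yf s1 := by
  unfold YY
  rw [rinv_ent s1_nonneg s1_lt]

lemma KK_ent_s1 : KK (ent s1) = k1 := by
  unfold KK k1
  rw [rinv_ent s1_nonneg s1_lt]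

lemma hasDerivAt_y1 {t : ℝ} (ht : t ≤ u1) :
    HasDerivAt (fun t => YY (log 2 - t)) (KK (log 2 - t)) t := by
  have h1 := hasDerivAt_YY (log_sub_pos_of ht)
  have h2 : HasDerivAt (fun t : ℝ => log 2 - t) (-1) t := by
    simpa using (hasDerivAt_id' t).const_sub (log 2)
  have h3 := HasDerivAt.comp (h₂ := YY) (h := fun t : ℝ => log 2 - t) t h1 h2
  refine h3.congr_deriv ?_
  ring

lemma hasDerivAt_y2 (t : ℝ) : HasDerivAt (fun t => Yf s1 + k1 * (t - u1)) k1 t := by
  have := ((hasDerivAt_id' t).sub_const u1).const_mul k1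
  have h2 := this.const_add (Yf s1)
  simpa using h2

lemma hasDerivAt_yc (t : ℝ) : HasDerivAt yc (yd t) t := by
  rcases lt_trichotomy t u1 with h | h | h
  · have e : yd t = KK (log 2 - t) := by
      unfold yd
      rw [if_pos h.le]
    rw [e]
    refine (hasDerivAt_y1 h.le).congr_of_eventuallyEq ?_
    filter_upwards [Iio_mem_nhds h] with x hx
    unfold yc
    rw [if_pos (le_of_lt hx)]
  · subst h
    have e : yd u1 = k1 := by
      unfold yd
      rw [if_pos le_rfl, log_sub_u1, KK_ent_s1]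
    rw [e]
    have h1 : HasDerivWithinAt yc k1 (Iic u1) u1 := by
      have h2 := (hasDerivAt_y1 (le_refl u1)).hasDerivWithinAt (s := Iic u1)
      rw [log_sub_u1, KK_ent_s1] at h2
      refine h2.congr ?_ ?_
      · intro x hx
        unfold yc
        rw [if_pos (mem_Iic.mp hx)]
      · unfold yc
        rw [if_pos le_rfl]
    have h2 : HasDerivWithinAt yc k1 (Ici u1) u1 := by
      have h3 := (hasDerivAt_y2 u1).hasDerivWithinAt (s := Ici u1)
      refine h3.congr ?_ ?_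
      · intro x hx
        unfold yc
        split_ifs with hc
        · have e2 : x = u1 := le_antisymm hc hx
          rw [e2, log_sub_u1, YY_ent_s1]
          ring
        · rfl
      · unfold yc
        rw [if_pos le_rfl, log_sub_u1, YY_ent_s1]
        ring
    have h3 := h1.union h2
    rw [Iic_union_Ici] at h3
    exact hasDerivWithinAt_univ.mp h3
  · have e : yd t = k1 := by
      unfold yd
      rw [if_neg (not_le.mpr h)]
    rw [e]
    refine (hasDerivAt_y2 t).congr_of_eventuallyEq ?_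
    filter_upwards [Ioi_mem_nhds h] with x hx
    unfold yc
    rw [if_neg (not_le.mpr hx)]

lemma yd_mono : Monotone yd := by
  intro x y hxy
  unfold yd
  split_ifs with h1 h2 h2
  · exact KK_anti (log_sub_pos_of h2) (by linarith)
  · have h3 := KK_anti (log_sub_pos_of (le_refl u1)) (u' := log 2 - x) (by linarith)
    rw [log_sub_u1, KK_ent_s1] at h3
    exact h3
  · exact absurd (le_trans hxy h2) h1
  · exact le_rfl

lemma yd_le (t : ℝ) : yd t ≤ k1 := by
  have e : yd u1 = k1 := by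
    unfold yd
    rw [if_pos le_rfl, log_sub_u1, KK_ent_s1]
  rcases le_total t u1 with h | h
  · rw [← e]
    exact yd_mono h
  · unfold yd
    split_ifs with hc
    · have e2 : t = u1 := le_antisymm hc h
      rw [e2, log_sub_u1, KK_ent_s1]
    · exact le_rfl

lemma k1_nonneg : 0 ≤ k1 := kap_nonneg s1_nonneg s1_lt

lemma yc_convex : ConvexOn ℝ univ yc := by
  apply Monotone.convexOn_univ_of_deriv
  · exact fun t => (hasDerivAt_yc t).differentiableAt
  · have e : deriv yc = yd := funext fun t => (hasDerivAt_yc t).deriv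
    rw [e]
    exact yd_mono

lemma yc_zero : yc 0 = 0 := by
  unfold yc
  rw [if_pos u1_pos.le, sub_zero, YY_of_ge le_rfl]

lemma yc_nonneg (t : ℝ) : 0 ≤ yc t := by
  unfold yc
  split_ifs with h
  · exact YY_nonneg (log_sub_pos_of h)
  · have h1 := Yf_nonneg s1_nonneg s1_lt
    have h2 := mul_nonneg k1_nonneg (by linarith [not_le.mp h] : 0 ≤ t - u1)
    linarith

/-- `P4`: the truncated function lies below `Y`. -/
lemma yc_le_Yf {τ : ℝ} (h0 : 0 ≤ τ) (h1 : τ < 1) : yc (log 2 - ent τ) ≤ Yf τ := by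
  unfold yc
  split_ifs with h
  · have e : log 2 - (log 2 - ent τ) = ent τ := by ring
    rw [e]
    unfold YY
    rw [rinv_ent h0 h1]
  · have h2 := Yf_tangent s1_nonneg s1_lt h0 h1
    unfold k1 u1
    have e : log 2 - ent τ - (log 2 - ent s1) = ent s1 - ent τ := by ring
    rw [e]
    nlinarith

/-! ### Numerics -/

/-- `z + z³/3 + z⁵/5 ≤ atanh z`. -/
lemma A_ge_five {z : ℝ} (h0 : 0 ≤ z) (h1 : z < 1) : z + z ^ 3 / 3 + z ^ 5 / 5 ≤ A z := by
  have hm : MonotoneOn (fun t : ℝ => A t - t - t ^ 3 / 3 - t ^ 5 / 5) (Icc 0 z) := by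
    apply mono_of_deriv (f' := fun t => 1 / (1 - t ^ 2) - 1 - t ^ 2 - t ^ 4)
    · intro t ht
      have ht' : |t| < 1 := abs_lt_one_of ht.1 (lt_of_le_of_lt ht.2 h1)
      have d := (((hasDerivAt_A ht').sub (hasDerivAt_id' t)).sub
        ((hasDerivAt_pow 3 t).div_const 3)).sub ((hasDerivAt_pow 5 t).div_const 5)
      exact d.continuousAt.continuousWithinAt
    · intro t ht
      have ht' : |t| < 1 := abs_lt_one_of ht.1.le (lt_trans ht.2 h1)
      have d := (((hasDerivAt_A ht').sub (hasDerivAt_id' t)).sub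
        ((hasDerivAt_pow 3 t).div_const 3)).sub ((hasDerivAt_pow 5 t).div_const 5)
      refine d.congr_deriv ?_
      norm_num
    · intro t ht
      have ht' : |t| < 1 := abs_lt_one_of ht.1.le (lt_trans ht.2 h1)
      have hD := one_sub_sq_pos ht'
      have e : 1 / (1 - t ^ 2) - 1 - t ^ 2 - t ^ 4 = t ^ 6 / (1 - t ^ 2) := by
        field_simp
        ring
      rw [e]
      positivity
  have := hm (left_mem_Icc.mpr h0) (right_mem_Icc.mpr h0) h0
  simp only [A_zero] at this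
  norm_num at this
  linarith

/-- `atanh z ≤ z + z³/3 + z⁵/(5(1 - z²))`. -/
lemma A_le_five {z : ℝ} (h0 : 0 ≤ z) (h1 : z < 1) :
    A z ≤ z + z ^ 3 / 3 + z ^ 5 / (5 * (1 - z ^ 2)) := by
  have hm : MonotoneOn (fun t : ℝ => t + t ^ 3 / 3 + t ^ 5 / (5 * (1 - t ^ 2)) - A t) (Icc 0 z) := by
    have hd : ∀ t ∈ Ico (0 : ℝ) 1, HasDerivAt
        (fun t : ℝ => t + t ^ 3 / 3 + t ^ 5 / (5 * (1 - t ^ 2)) - A t)
        (2 * t ^ 6 / (5 * (1 - t ^ 2) ^ 2)) t := by
      intro t ht
      have ht' : |t| < 1 := abs_lt_one_of ht.1 ht.2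
      have hD := one_sub_sq_pos ht'
      have d1 : HasDerivAt (fun t : ℝ => 5 * (1 - t ^ 2)) (5 * (-(2 * t))) t := by
        have h2 : HasDerivAt (fun t : ℝ => 1 - t ^ 2) (-(2 * t)) t := by
          simpa using (hasDerivAt_pow 2 t).const_sub 1
        exact h2.const_mul 5
      have d2 : HasDerivAt (fun t : ℝ => t ^ 5) (5 * t ^ 4) t := by
        simpa using hasDerivAt_pow 5 t
      have d3 : HasDerivAt (fun t : ℝ => t ^ 3 / 3) (t ^ 2) t := by
        have := (hasDerivAt_pow 3 t).div_const 3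
        refine this.congr_deriv ?_
        norm_num
      have d4 := ((((hasDerivAt_id' t).add d3)).add (d2.div d1 (by positivity))).sub (hasDerivAt_A ht')
      refine d4.congr_deriv ?_
      obtain ⟨D, hDe⟩ : ∃ D, D = 1 - t ^ 2 := ⟨_, rfl⟩
      rw [← hDe]
      have hDn : D ≠ 0 := by rw [hDe]; exact hD.ne'
      field_simp
      rw [hDe]
      ring
    apply mono_of_deriv (f' := fun t => 2 * t ^ 6 / (5 * (1 - t ^ 2) ^ 2))
    · intro t ht
      exact (hd t ⟨ht.1, lt_of_le_of_lt ht.2 h1⟩).continuousAt.continuousWithinAt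
    · intro t ht
      exact hd t ⟨ht.1.le, lt_trans ht.2 h1⟩
    · intro t ht
      positivity
  have := hm (left_mem_Icc.mpr h0) (right_mem_Icc.mpr h0) h0
  simp only [A_zero] at this
  norm_num at this
  linarith

lemma poly_c5 {t : ℝ} (h0 : 0 ≤ t) (h1 : t ≤ 9 / 100) :
    4 / 3 - 4 / 5 * t - 2 / 15 * t ^ 2 ≤ 381 / 250 * (15 - 10 * t - 2 * t ^ 2) ^ 3 / 3375 := by
  obtain ⟨v, hv⟩ : ∃ v, v = 15 - 10 * t - 2 * t ^ 2 := ⟨_, rfl⟩
  rw [← hv]
  have hv14 : 14 ≤ v := by nlinarith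
  have h2 : 588 * v - 5488 ≤ v ^ 3 := by nlinarith [mul_nonneg (sq_nonneg (v - 14)) (by linarith : 0 ≤ v + 28)]
  have h3 : 4 / 3 - 4 / 5 * t - 2 / 15 * t ^ 2 ≤ 381 / 250 * (588 * v - 5488) / 3375 := by
    rw [hv]
    nlinarith
  have h4 : 381 / 250 * (588 * v - 5488) / 3375 ≤ 381 / 250 * v ^ 3 / 3375 := by
    apply div_le_div_of_nonneg_right _ (by norm_num)
    exact mul_le_mul_of_nonneg_left h2 (by norm_num)
  linarith

/-- The main numerical bound: `dκ/dρ ≤ c₅ w(ρ)` on `(0, 3/10]`. -/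
lemma dkap_le {x : ℝ} (h0 : 0 < x) (h1 : x ≤ 3 / 10) : dkap x ≤ 381 / 250 * A x := by
  have hx1 : x < 1 := by linarith
  have hxa := abs_lt_one_of h0.le hx1
  have hD := one_sub_sq_pos hxa
  have hw0 := A_pos h0 hx1
  have hwl := A_le_five h0.le hx1
  have hwg := A_ge_self h0.le hx1
  obtain ⟨t, ht⟩ : ∃ t, t = x ^ 2 := ⟨_, rfl⟩
  have ht0 : 0 < t := by rw [ht]; positivity
  have ht1 : t ≤ 9 / 100 := by rw [ht]; nlinarith
  obtain ⟨wb, hwb⟩ : ∃ wb, wb = x * (15 - 10 * t - 2 * t ^ 2) / (15 * (1 - t)) := ⟨_, rfl⟩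
  have hDt : 0 < 1 - t := by linarith
  have hwbe : x + x ^ 3 / 3 + x ^ 5 / (5 * (1 - x ^ 2)) = wb := by
    rw [hwb, ← ht]
    have e3 : x ^ 3 = x * t := by rw [ht]; ring
    have e5 : x ^ 5 = x * t ^ 2 := by rw [ht]; ring
    rw [e3, e5]
    field_simp
    ring
  rw [hwbe] at hwl
  obtain ⟨w, hw⟩ : ∃ w, w = A x := ⟨_, rfl⟩
  rw [← hw] at hw0 hwl hwg ⊢
  have hwb0 : 0 < wb := lt_of_lt_of_le hw0 hwl
  have hwb1 : wb ≤ 33 / 100 := by
    rw [hwb]
    rw [div_le_iff₀ (by positivity)]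
    have hv : 0 < 15 - 10 * t - 2 * t ^ 2 := by nlinarith
    nlinarith
  -- key 1
  have key1 : (1 + t) * wb - x ≤ 381 / 250 * (1 - t) ^ 2 * wb ^ 3 := by
    have hp := poly_c5 ht0.le ht1
    have e1 : (1 + t) * wb - x = x * t / (1 - t) * (4 / 3 - 4 / 5 * t - 2 / 15 * t ^ 2) := by
      rw [hwb]
      field_simp
      ring
    have e2 : 381 / 250 * (1 - t) ^ 2 * wb ^ 3 =
        x * t / (1 - t) * (381 / 250 * (15 - 10 * t - 2 * t ^ 2) ^ 3 / 3375) := by
      rw [hwb]
      have e3 : x ^ 3 = x * t := by rw [ht]; ring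
      rw [div_pow, mul_pow, e3]
      field_simp
      ring
    rw [e1, e2]
    exact mul_le_mul_of_nonneg_left hp (by positivity)
  -- key 2
  have key2 : 381 / 250 * (1 - t) ^ 2 * (wb ^ 3 - w ^ 3) ≤ (1 + t) * (wb - w) := by
    have e : wb ^ 3 - w ^ 3 = (wb - w) * (wb ^ 2 + wb * w + w ^ 2) := by ring
    rw [e]
    have h3 : wb ^ 2 + wb * w + w ^ 2 ≤ 1 / 3 := by nlinarith
    have h4 : 0 ≤ wb - w := by linarith
    have h5 : (1 - t) ^ 2 ≤ 1 := by nlinarith
    have h6 : 381 / 250 * (1 - t) ^ 2 * (wb ^ 2 + wb * w + w ^ 2) ≤ 1 + t := by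
      have h7 : 0 ≤ wb ^ 2 + wb * w + w ^ 2 := by positivity
      have h8 : (1 - t) ^ 2 * (wb ^ 2 + wb * w + w ^ 2) ≤ 1 * (1 / 3) :=
        mul_le_mul h5 h3 h7 (by norm_num)
      nlinarith
    nlinarith
  have key3 : (1 + t) * w - x ≤ 381 / 250 * (1 - t) ^ 2 * w ^ 3 := by
    nlinarith
  unfold dkap
  rw [← hw, ← ht]
  rw [div_le_iff₀ (by positivity)]
  have e : 381 / 250 * w * ((1 - t) ^ 2 * w ^ 2) = 381 / 250 * (1 - t) ^ 2 * w ^ 3 := by ring
  rw [e]
  exact key3

/-- Lipschitz bound of `κ` in the variable `u`. -/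
lemma kap_lip_u {σ₁ σ₂ : ℝ} (h0 : 0 ≤ σ₁) (h12 : σ₁ ≤ σ₂) (h2 : σ₂ ≤ 3 / 10) :
    kap σ₂ - kap σ₁ ≤ 381 / 250 * (ent σ₁ - ent σ₂) := by
  have hm : MonotoneOn (fun t => 381 / 250 * (-ent t) - kap t) (Icc σ₁ σ₂) := by
    apply mono_of_deriv (f' := fun t => 381 / 250 * A t - dkap t)
    · apply ContinuousOn.sub
      · exact (continuous_const.mul continuous_ent.neg).continuousOn
      · exact continuousOn_kap.mono fun t ht => ⟨le_trans h0 ht.1, by linarith [ht.2]⟩
    · intro t ht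
      have ht0 : 0 < t := lt_of_le_of_lt h0 ht.1
      have ht1 : t < 1 := by linarith [ht.2]
      have hta := abs_lt_one_of ht0.le ht1
      have d := ((hasDerivAt_ent hta).neg.const_mul (381 / 250)).sub (hasDerivAt_kap ht0 ht1)
      refine d.congr_deriv ?_
      ring
    · intro t ht
      have ht0 : 0 < t := lt_of_le_of_lt h0 ht.1
      have := dkap_le ht0 (by linarith [ht.2])
      linarith
  have := hm (left_mem_Icc.mpr h12) (right_mem_Icc.mpr h12) h12
  simp only at this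
  nlinarith

lemma rinv_le_s1 {t : ℝ} (ht : t ≤ u1) : rinv (log 2 - t) ≤ s1 := by
  have h := rinv_anti (u := ent s1) (u' := log 2 - t) ent_s1_pos (by unfold u1 at ht; linarith)
  rwa [rinv_ent s1_nonneg s1_lt] at h

lemma yd_lip_aux {t₁ t₂ : ℝ} (h0 : 0 ≤ t₁) (h12 : t₁ ≤ t₂) (h2 : t₂ ≤ u1) :
    KK (log 2 - t₂) - KK (log 2 - t₁) ≤ 381 / 250 * (t₂ - t₁) := by
  have hp2 := log_sub_pos_of h2
  have hp1 : 0 < log 2 - t₁ := by linarith
  have hle1 : log 2 - t₁ ≤ log 2 := by linarith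
  have hle2 : log 2 - t₂ ≤ log 2 := by linarith
  have e1 := ent_rinv hp1 hle1
  have e2 := ent_rinv hp2 hle2
  have m2 := rinv_mem hp2
  have m1 := rinv_mem hp1
  have h3 := kap_lip_u m1.1 (rinv_anti hp2 (by linarith : log 2 - t₂ ≤ log 2 - t₁))
    (by have := rinv_le_s1 h2; unfold s1 at this; exact this)
  rw [e1, e2] at h3
  unfold KK
  nlinarith

lemma yd_lip {t₁ t₂ : ℝ} (h0 : 0 ≤ t₁) (h12 : t₁ ≤ t₂) :
    yd t₂ - yd t₁ ≤ 381 / 250 * (t₂ - t₁) := by
  unfold yd
  split_ifs with h1 h2 h2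
  · exact yd_lip_aux h0 h12 h1
  · exact absurd (le_trans h12 h1) h2
  · have h3 := yd_lip_aux h0 h2 (le_refl u1)
    rw [log_sub_u1, KK_ent_s1] at h3
    nlinarith [not_le.mp h1]
  · simp
    linarith

/-- `P3`, first bound. -/
lemma yc_super1 {x u : ℝ} (hx : 0 ≤ x) (hu : 0 ≤ u) :
    yc (x + u) ≤ yc x + yc u + 381 / 250 * u * x := by
  have hm : MonotoneOn (fun z => 381 / 250 * u * z - (yc (z + u) - yc z)) (Icc 0 x) := by
    have hd : ∀ z, HasDerivAt (fun z => 381 / 250 * u * z - (yc (z + u) - yc z))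
        (381 / 250 * u - (yd (z + u) - yd z)) z := by
      intro z
      have d1 : HasDerivAt (fun z => 381 / 250 * u * z) (381 / 250 * u) z := by
        simpa using (hasDerivAt_id' z).const_mul (381 / 250 * u)
      have d2 : HasDerivAt (fun z => yc (z + u)) (yd (z + u)) z := by
        have := (hasDerivAt_yc (z + u)).comp_add_const z u
        exact this
      exact d1.sub (d2.sub (hasDerivAt_yc z))
    apply mono_of_deriv (f' := fun z => 381 / 250 * u - (yd (z + u) - yd z))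
    · exact fun z _ => (hd z).continuousAt.continuousWithinAt
    · exact fun z _ => hd z
    · intro z hz
      have := yd_lip (t₁ := z) (t₂ := z + u) hz.1.le (by linarith)
      have e : z + u - z = u := by ring
      rw [e] at this
      linarith
  have h := hm (left_mem_Icc.mpr hx) (right_mem_Icc.mpr hx) hx
  simp only at h
  rw [zero_add, yc_zero] at h
  nlinarith

/-- `P3`, second bound. -/
lemma yc_super2 {x u : ℝ} (hx : 0 ≤ x) : yc (x + u) ≤ yc x + yc u + k1 * x := by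
  have hm : MonotoneOn (fun z => k1 * z - yc (z + u)) (Icc 0 x) := by
    have hd : ∀ z, HasDerivAt (fun z => k1 * z - yc (z + u)) (k1 - yd (z + u)) z := by
      intro z
      have d1 : HasDerivAt (fun z => k1 * z) k1 z := by
        simpa using (hasDerivAt_id' z).const_mul k1
      have d2 : HasDerivAt (fun z => yc (z + u)) (yd (z + u)) z :=
        (hasDerivAt_yc (z + u)).comp_add_const z u
      exact d1.sub d2
    apply mono_of_deriv (f' := fun z => k1 - yd (z + u))
    · exact fun z _ => (hd z).continuousAt.continuousWithinAt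
    · exact fun z _ => hd z
    · intro z _
      have := yd_le (z + u)
      linarith
  have h := hm (left_mem_Icc.mpr hx) (right_mem_Icc.mpr hx) hx
  simp only at h
  rw [zero_add] at h
  have := yc_nonneg x
  nlinarith

/-- The slope function `pa`. -/
noncomputable def pid (u : ℝ) : ℝ := min (381 / 250 * u) k1

lemma yc_super {x u : ℝ} (hx : 0 ≤ x) (hu : 0 ≤ u) : yc (x + u) ≤ yc x + yc u + pid u * x := by
  unfold pid
  rcases min_cases (381 / 250 * u) k1 with ⟨h, _⟩ | ⟨h, _⟩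
  · rw [h]
    exact yc_super1 hx hu
  · rw [h]
    exact yc_super2 hx

lemma pid_nonneg {u : ℝ} (hu : 0 ≤ u) : 0 ≤ pid u := by
  unfold pid
  exact le_min (by positivity) k1_nonneg

lemma pid_le_k1 (u : ℝ) : pid u ≤ k1 := min_le_right _ _

/-- The constant `c`. -/
lemma k1_le : k1 ≤ 7743 / 10000 * (291 / 1000) ^ 2 := by
  unfold k1 s1
  rw [kap_of_pos (by norm_num)]
  have h := A_ge_five (z := 3 / 10) (by norm_num) (by norm_num)
  have h2 : (309486 : ℝ) / 1000000 ≤ A (3 / 10) := by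
    refine le_trans ?_ h
    norm_num
  rw [sub_le_iff_le_add, div_le_iff₀ (by
    have : 0 < A (3 / 10) := by linarith
    positivity)]
  nlinarith

/-- `ln 2 - h(τ) ≤ τ²/2 + (11/125) τ⁴` for `τ ≤ 291/1000`. -/
lemma u_upper {τ : ℝ} (h0 : 0 ≤ τ) (h1 : τ ≤ 291 / 1000) :
    log 2 - ent τ ≤ τ ^ 2 / 2 + 11 / 125 * τ ^ 4 := by
  have hm : MonotoneOn (fun t => t ^ 2 / 2 + 11 / 125 * t ^ 4 + ent t) (Icc 0 τ) := by
    have hd : ∀ t ∈ Ico (0 : ℝ) 1, HasDerivAt (fun t => t ^ 2 / 2 + 11 / 125 * t ^ 4 + ent t)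
        (t + 44 / 125 * t ^ 3 - A t) t := by
      intro t ht
      have hta := abs_lt_one_of ht.1 ht.2
      have d1 : HasDerivAt (fun t : ℝ => t ^ 2 / 2) t t := by
        have := (hasDerivAt_pow 2 t).div_const 2
        refine this.congr_deriv ?_
        norm_num
      have d2 : HasDerivAt (fun t : ℝ => 11 / 125 * t ^ 4) (44 / 125 * t ^ 3) t := by
        have := (hasDerivAt_pow 4 t).const_mul (11 / 125 : ℝ)
        refine this.congr_deriv ?_
        norm_num
        ring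
      have d3 := (d1.add d2).add (hasDerivAt_ent hta)
      refine d3.congr_deriv ?_
      ring
    apply mono_of_deriv (f' := fun t => t + 44 / 125 * t ^ 3 - A t)
    · intro t ht
      exact (hd t ⟨ht.1, by linarith [ht.2]⟩).continuousAt.continuousWithinAt
    · intro t ht
      exact hd t ⟨ht.1.le, by linarith [ht.2]⟩
    · intro t ht
      have ht0 := ht.1
      have ht1 : t ≤ 291 / 1000 := by linarith [ht.2]
      have ht2 : t < 1 := by linarith
      have h2 := A_le_five ht0.le ht2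
      have hts : t ^ 2 ≤ 85 / 1000 := by nlinarith
      have hD : 0 < 1 - t ^ 2 := by nlinarith
      have h3 : t ^ 5 / (5 * (1 - t ^ 2)) ≤ 1866 / 100000 * t ^ 3 := by
        rw [div_le_iff₀ (by positivity)]
        have ht3 : 0 < t ^ 3 := by positivity
        have e : t ^ 5 = t ^ 3 * t ^ 2 := by ring
        rw [e]
        have : t ^ 2 ≤ 1866 / 100000 * (5 * (1 - t ^ 2)) := by nlinarith
        nlinarith
      have ht3 : 0 < t ^ 3 := by positivity
      nlinarith
  have h := hm (left_mem_Icc.mpr h0) (right_mem_Icc.mpr h0) h0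
  simp only at h
  rw [ent_zero] at h
  norm_num at h
  linarith

/-- `pa(ln 2 - h(τ)) ≤ c τ²`. -/
lemma pid_le_sq {τ : ℝ} (h0 : 0 ≤ τ) :
    pid (log 2 - ent τ) ≤ 7743 / 10000 * τ ^ 2 := by
  rcases le_total τ (291 / 1000) with h | h
  · have h2 := u_upper h0 h
    have h3 : pid (log 2 - ent τ) ≤ 381 / 250 * (log 2 - ent τ) := min_le_left _ _
    have hts : τ ^ 2 ≤ 85 / 1000 := by nlinarith
    have hs : 0 ≤ τ ^ 2 := sq_nonneg τ
    have e : τ ^ 4 = τ ^ 2 * τ ^ 2 := by ring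
    rw [e] at h2
    have h4 : τ ^ 2 * τ ^ 2 ≤ τ ^ 2 * (85 / 1000) := mul_le_mul_of_nonneg_left hts hs
    nlinarith
  · have h2 := pid_le_k1 (log 2 - ent τ)
    have h3 := k1_le
    have h4 : (291 / 1000 : ℝ) ^ 2 ≤ τ ^ 2 := by nlinarith
    nlinarith

/-- The bounds on the weighted sum of the slopes. -/
lemma gamma_bounds {τ τ' M M' pa pb c τ₂ : ℝ} (hτ0 : 0 < τ) (hτ'0 : 0 < τ') (hM0 : 0 < M)
    (hM'0 : 0 < M') (hM : M * (τ + τ') = τ') (hM' : M' * (τ + τ') = τ)
    (hc : 0 < c) (hτ₂ : 0 ≤ τ₂)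
    (h1 : pa ≤ c * τ ^ 2) (h2 : pb ≤ c * τ' ^ 2) (h3 : pb ≤ c * τ₂ ^ 2) :
    M * pa + M' * pb ≤ c * τ * τ' ∧ M * pa + M' * pb ≤ c * τ * max τ₂ τ := by
  have hs : 0 < τ + τ' := by positivity
  have e : (M * pa + M' * pb) * (τ + τ') = τ' * pa + τ * pb := by
    calc (M * pa + M' * pb) * (τ + τ') = (M * (τ + τ')) * pa + (M' * (τ + τ')) * pb := by ring
      _ = τ' * pa + τ * pb := by rw [hM, hM']
  have h4 : τ' * pa ≤ τ' * (c * τ ^ 2) := mul_le_mul_of_nonneg_left h1 hτ'0.le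
  have h5 : τ * pb ≤ τ * (c * τ' ^ 2) := mul_le_mul_of_nonneg_left h2 hτ0.le
  have h6 : τ * pb ≤ τ * (c * τ₂ ^ 2) := mul_le_mul_of_nonneg_left h3 hτ0.le
  constructor
  · have : (M * pa + M' * pb) * (τ + τ') ≤ (c * τ * τ') * (τ + τ') := by
      rw [e]
      nlinarith
    exact le_of_mul_le_mul_right this hs
  · obtain ⟨τs, hτs⟩ : ∃ τs, τs = max τ₂ τ := ⟨_, rfl⟩
    rw [← hτs]
    have h7 : τ' * τ + (if τ' ≤ τ₂ then τ' ^ 2 else τ₂ ^ 2) ≤ (τ + τ') * τs := by
      have hτ₂s : τ₂ ≤ τs := by rw [hτs]; exact le_max_left _ _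
      have hτs' : τ ≤ τs := by rw [hτs]; exact le_max_right _ _
      split_ifs with hc'
      · nlinarith
      · push Not at hc'
        rcases le_total τ₂ τ with h | h
        · have e2 : τs = τ := by rw [hτs]; exact max_eq_right h
          rw [e2]
          nlinarith
        · have e2 : τs = τ₂ := by rw [hτs]; exact max_eq_left h
          rw [e2]
          nlinarith
    have h8 : τ' * pa + τ * pb ≤ c * τ * (τ' * τ + (if τ' ≤ τ₂ then τ' ^ 2 else τ₂ ^ 2)) := by
      split_ifs with hc'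
      · nlinarith
      · nlinarith
    have h9 : c * τ * (τ' * τ + (if τ' ≤ τ₂ then τ' ^ 2 else τ₂ ^ 2)) ≤
        c * τ * ((τ + τ') * τs) := mul_le_mul_of_nonneg_left h7 (by positivity)
    have : (M * pa + M' * pb) * (τ + τ') ≤ (c * τ * τs) * (τ + τ') := by
      rw [e]
      calc τ' * pa + τ * pb ≤ c * τ * ((τ + τ') * τs) := le_trans h8 h9
        _ = (c * τ * τs) * (τ + τ') := by ring
    exact le_of_mul_le_mul_right this hs

end Vale.Agent.CK
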